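import Vale.Agent.P027M.S.Defs

/-!
# P027, route M, block S: Kummer theory and descent
-/

set_option linter.all false

noncomputable section

namespace Vale.Agent.P027M.S

open NumberField IsDedekindDomain Filter Topology Polynomial
open Vale.Agent.P022 Vale.Agent.P022.C Vale.Agent.P016Z

namespace KumAux

lemma gal : IsGalois ℚ Qb :=
  have : Algebra.IsAlgebraic ℚ Qb := AlgebraicClosure.isAlgebraic ℚ
  have : IsAlgClosure ℚ Qb := ⟨inferInstance, inferInstance⟩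
  IsAlgClosure.isGalois ℚ Qb

lemma w3 {w : Qb} (hw : w ^ 2 + w + 1 = 0) : w ^ 3 = 1 := by
  linear_combination (w - 1) * hw

lemma e_add {w : Qb} (hw : w ^ 2 + w + 1 = 0) (a b : ZMod 3) :
    w ^ (a + b).val = w ^ a.val * w ^ b.val := by
  rw [ZMod.val_add, ← pow_add]
  exact (pow_eq_pow_mod _ (w3 hw)).symm

lemma e_cube {w : Qb} (hw : w ^ 2 + w + 1 = 0) (a : ZMod 3) : (w ^ a.val) ^ 3 = 1 := by
  rw [← pow_mul, mul_comm, pow_mul, w3 hw, one_pow]

lemma e_neg {w : Qb} (hw : w ^ 2 + w + 1 = 0) (a : ZMod 3) :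
    w ^ (-a).val = (w ^ a.val) ^ 2 := by
  have h1 : w ^ (-a).val * w ^ a.val = 1 := by
    rw [← e_add hw, neg_add_cancel, ZMod.val_zero, pow_zero]
  have h2 := e_cube hw a
  linear_combination (-(w ^ (-a).val)) * h2 + (w ^ a.val) ^ 2 * h1

lemma gw {w : Qb} (hw : w ^ 2 + w + 1 = 0) (g : GQ) : g w = w ∨ g w = w ^ 2 := by
  have h : (g w) ^ 2 + g w + 1 = 0 := by
    have := congrArg g hw
    simpa using this
  have : (g w - w) * (g w - w ^ 2) = 0 := by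
    linear_combination h + (w - g w - 1) * hw
  rcases mul_eq_zero.mp this with h | h
  · left; exact sub_eq_zero.mp h
  · right; exact sub_eq_zero.mp h

lemma g_e {w : Qb} (hw : w ^ 2 + w + 1 = 0) (g : GQ) (a : ZMod 3) :
    g (w ^ a.val) = w ^ ((sgn w g : ZMod 3) * a).val := by
  rw [map_pow]
  by_cases h : g w = w
  · simp [sgn, h]
  · have h2 := (gw hw g).resolve_left h
    have hs : (sgn w g : ZMod 3) = -1 := by simp [sgn, h]
    rw [hs, neg_one_mul, e_neg hw, h2, ← pow_mul, ← pow_mul, mul_comm]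

lemma sgn_sq (x : Qb) (g : GQ) : (sgn x g : ZMod 3) * (sgn x g : ZMod 3) = 1 := by
  unfold sgn
  split_ifs <;> simp

section

variable {Γ : Subgroup GQ} {φ : GQ → ZMod 3}

lemma phi_one (hadd : ∀ σ ∈ Γ, ∀ τ ∈ Γ, φ (σ * τ) = φ σ + φ τ) : φ 1 = 0 := by
  have := hadd 1 Γ.one_mem 1 Γ.one_mem
  rw [one_mul] at this
  linear_combination -this

lemma phi_inv (hadd : ∀ σ ∈ Γ, ∀ τ ∈ Γ, φ (σ * τ) = φ σ + φ τ) {σ : GQ} (hσ : σ ∈ Γ) :
    φ σ⁻¹ = -φ σ := by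
  have := hadd σ hσ σ⁻¹ (Γ.inv_mem hσ)
  rw [mul_inv_cancel, phi_one hadd] at this
  linear_combination -this

lemma phi_pow (hadd : ∀ σ ∈ Γ, ∀ τ ∈ Γ, φ (σ * τ) = φ σ + φ τ) {σ : GQ} (hσ : σ ∈ Γ) (n : ℕ) :
    φ (σ ^ n) = n * φ σ := by
  induction n with
  | zero => simp [phi_one hadd]
  | succ n ih =>
    rw [pow_succ, hadd _ (Γ.pow_mem hσ n) _ hσ, ih]
    push_cast
    ring

/-- the kernel of the character -/
def ker (Γ : Subgroup GQ) (φ : GQ → ZMod 3)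
    (hadd : ∀ σ ∈ Γ, ∀ τ ∈ Γ, φ (σ * τ) = φ σ + φ τ) : Subgroup GQ where
  carrier := {s | s ∈ Γ ∧ φ s = 0}
  mul_mem' {a b} ha hb := ⟨Γ.mul_mem ha.1 hb.1, by rw [hadd a ha.1 b hb.1, ha.2, hb.2, add_zero]⟩
  one_mem' := ⟨Γ.one_mem, phi_one hadd⟩
  inv_mem' {a} ha := ⟨Γ.inv_mem ha.1, by rw [phi_inv hadd ha.1, ha.2, neg_zero]⟩

/-- an element outside an open subgroup moves some fixed element -/
lemma sep (V : Subgroup GQ) (hV : IsOpen (V : Set GQ)) {s : GQ} (hs : s ∉ V) :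
    ∃ θ : Qb, (∀ v ∈ V, v θ = θ) ∧ s θ ≠ θ := by
  haveI := gal
  have hc : IsClosed (V : Set GQ) := V.isClosed_of_isOpen hV
  have h : (IntermediateField.fixedField V).fixingSubgroup = V :=
    InfiniteGalois.fixingSubgroup_fixedField (k := ℚ) (K := Qb) ⟨V, hc⟩
  by_contra hcon
  push Not at hcon
  apply hs
  have : s ∈ (IntermediateField.fixedField V).fixingSubgroup := by
    rw [IntermediateField.mem_fixingSubgroup_iff]
    intro x hx
    rw [IntermediateField.mem_fixedField_iff] at hx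
    exact hcon x hx
  rwa [h] at this

/-- a Kummer generator exists -/
lemma gen {w : Qb} (hw : w ^ 2 + w + 1 = 0) (hΓ : IsOpen (Γ : Set GQ)) (hfix : ∀ g ∈ Γ, g w = w)
    (hadd : ∀ σ ∈ Γ, ∀ τ ∈ Γ, φ (σ * τ) = φ σ + φ τ)
    (hopn : ∃ U : Subgroup GQ, IsOpen (U : Set GQ) ∧ ∀ σ ∈ U, φ σ = 0) :
    ∃ y : Qb, y ≠ 0 ∧ Law Γ w φ y := by
  by_cases h0 : ∀ σ ∈ Γ, φ σ = 0
  · refine ⟨1, one_ne_zero, fun σ hσ => ?_⟩
    rw [h0 σ hσ]
    simp
  push Not at h0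
  obtain ⟨s, hs, hs1⟩ : ∃ s ∈ Γ, φ s = 1 := by
    obtain ⟨s, hs, hne⟩ := h0
    have h3 : ∀ a : ZMod 3, a ≠ 0 → a = 1 ∨ (2 : ZMod 3) * a = 1 := by decide
    rcases h3 _ hne with h | h
    · exact ⟨s, hs, h⟩
    · refine ⟨s ^ 2, Γ.pow_mem hs 2, ?_⟩
      rw [phi_pow hadd hs]
      exact_mod_cast h
  obtain ⟨U, hU, hU0⟩ := hopn
  set V := ker Γ φ hadd with hVdef
  have hmem : ∀ v, v ∈ V ↔ v ∈ Γ ∧ φ v = 0 := fun v => Iff.rfl
  have hV : IsOpen (V : Set GQ) := by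
    apply Subgroup.isOpen_mono (H₁ := U ⊓ Γ)
    · intro v hv
      exact (hmem v).mpr ⟨hv.2, hU0 v hv.1⟩
    · exact hU.inter hΓ
  have hsV : s ∉ V := by
    rw [hmem, hs1]
    rintro ⟨-, h⟩
    exact one_ne_zero h
  obtain ⟨θ, hθ, hsθ⟩ := sep V hV hsV
  -- the translates of a fixed element are fixed
  have hconj : ∀ x : Qb, (∀ v ∈ V, v x = x) → ∀ v ∈ V, v (s x) = s x := by
    intro x hx v hv
    have hv' : s⁻¹ * v * s ∈ V := by
      rw [hmem] at hv ⊢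
      refine ⟨Γ.mul_mem (Γ.mul_mem (Γ.inv_mem hs) hv.1) hs, ?_⟩
      rw [hadd _ (Γ.mul_mem (Γ.inv_mem hs) hv.1) _ hs, hadd _ (Γ.inv_mem hs) _ hv.1,
        phi_inv hadd hs, hv.2]
      ring
    have h1 : v * s = s * (s⁻¹ * v * s) := by group
    calc v (s x) = (v * s) x := rfl
      _ = s ((s⁻¹ * v * s) x) := by rw [h1]; rfl
      _ = s x := by rw [hx _ hv']
  have h3 : s (s (s θ)) = θ := by
    have : s ^ 3 ∈ V := by
      rw [hmem]
      refine ⟨Γ.pow_mem hs 3, ?_⟩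
      rw [phi_pow hadd hs, hs1]
      decide
    have h := hθ _ this
    rw [pow_succ, pow_succ, pow_one] at h
    exact h
  have hθ1 := hconj θ hθ
  have hθ2 := hconj _ hθ1
  have hsw : s w = w := hfix s hs
  have hvw : ∀ v ∈ V, v w = w := fun v hv => hfix v ((hmem v).mp hv).1
  have hw3 := w3 hw
  -- an eigenvector fixed by the kernel
  obtain ⟨y, hy0, hyV, hys⟩ : ∃ y : Qb, y ≠ 0 ∧ (∀ v ∈ V, v y = y) ∧ s y = w * y := by
    by_cases hy1 : θ + w ^ 2 * s θ + w * s (s θ) = 0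
    · by_cases hy2 : θ + w * s θ + w ^ 2 * s (s θ) = 0
      · exfalso
        apply hsθ
        have e1 : 3 * θ = θ + s θ + s (s θ) := by
          linear_combination hy1 + hy2 - (s θ + s (s θ)) * hw
        have e2 := congrArg s e1
        simp only [map_add, map_mul, map_ofNat, h3] at e2
        linear_combination (e2 - e1) / 3
      · refine ⟨(θ + w * s θ + w ^ 2 * s (s θ)) ^ 2, pow_ne_zero _ hy2, fun v hv => ?_, ?_⟩
        · simp only [map_add, map_mul, map_pow, hθ v hv, hθ1 v hv, hθ2 v hv, hvw v hv]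
        · have e : s (θ + w * s θ + w ^ 2 * s (s θ)) = w ^ 2 * (θ + w * s θ + w ^ 2 * s (s θ)) := by
            simp only [map_add, map_mul, map_pow, h3, hsw]
            linear_combination (-(s θ) - w * s (s θ)) * hw3
          rw [map_pow, e]
          linear_combination (w * (θ + w * s θ + w ^ 2 * s (s θ)) ^ 2) * hw3
    · refine ⟨θ + w ^ 2 * s θ + w * s (s θ), hy1, fun v hv => ?_, ?_⟩
      · simp only [map_add, map_mul, map_pow, hθ v hv, hθ1 v hv, hθ2 v hv, hvw v hv]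
      · simp only [map_add, map_mul, map_pow, h3, hsw]
        linear_combination (-(s θ)) * hw3
  refine ⟨y, hy0, fun σ hσ => ?_⟩
  have hpow : ∀ n : ℕ, (s ^ n) y = w ^ n * y := by
    intro n
    induction n with
    | zero => simp
    | succ n ih =>
      rw [pow_succ', AlgEquiv.mul_apply, ih, map_mul, map_pow, hsw, hys]
      ring
  have hv : (s ^ (φ σ).val)⁻¹ * σ ∈ V := by
    have hp := Γ.pow_mem hs (φ σ).val
    rw [hmem]
    refine ⟨Γ.mul_mem (Γ.inv_mem hp) hσ, ?_⟩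
    rw [hadd _ (Γ.inv_mem hp) _ hσ, phi_inv hadd hp, phi_pow hadd hs, hs1, ZMod.natCast_zmod_val]
    ring
  have h1 : σ = s ^ (φ σ).val * ((s ^ (φ σ).val)⁻¹ * σ) := by group
  calc σ y = (s ^ (φ σ).val * ((s ^ (φ σ).val)⁻¹ * σ)) y := by rw [← h1]
    _ = (s ^ (φ σ).val) y := by rw [AlgEquiv.mul_apply, hyV _ hv]
    _ = _ := hpow _

/-- the law of a conjugate -/
lemma law_conj {w b : Qb} (hw : w ^ 2 + w + 1 = 0) (hn : Γ.Normal) (hE : Eig Γ w b φ) {y : Qb}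
    (hy : Law Γ w φ y) (g : GQ) (hg : g b = b ∨ g b = -b) {σ : GQ} (hσ : σ ∈ Γ) :
    σ (g y) = w ^ ((sgn b g : ZMod 3) * φ σ).val * g y := by
  have hσ' : g⁻¹ * σ * g ∈ Γ := by
    have := hn.conj_mem σ hσ g⁻¹
    rwa [inv_inv] at this
  have h1 : σ * g = g * (g⁻¹ * σ * g) := by group
  have h2 := hE g hg _ hσ'
  have h3 : g * (g⁻¹ * σ * g) * g⁻¹ = σ := by group
  rw [h3] at h2
  have h4 : (sgn w g : ZMod 3) * φ (g⁻¹ * σ * g) = (sgn b g : ZMod 3) * φ σ := by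
    rw [h2]
    linear_combination (-((sgn w g : ZMod 3) * φ (g⁻¹ * σ * g))) * sgn_sq b g
  calc σ (g y) = (σ * g) y := rfl
    _ = g ((g⁻¹ * σ * g) y) := by rw [h1]; rfl
    _ = _ := by rw [hy _ hσ', map_mul, g_e hw, h4]

/-- descent to the stabiliser of `b` -/
lemma desc {w b : Qb} (hw : w ^ 2 + w + 1 = 0) (hB : Base Γ) (hb : ∀ g ∈ Γ, g b = b)
    (hE : Eig Γ w b φ) {y : Qb} (hy0 : y ≠ 0) (hy : Law Γ w φ y) :
    ∃ Y : Qb, Y ≠ 0 ∧ Law Γ w φ Y ∧ ∀ g : GQ, g b = b → g (Y ^ 3) = Y ^ 3 := by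
  classical
  haveI := gal
  have hn := hB.nrm
  let H : Subgroup GQ := MulAction.stabilizer GQ b
  have hH : ∀ g, g ∈ H ↔ g b = b := fun g => MulAction.mem_stabilizer_iff
  haveI : Finite (GQ ⧸ Γ) := Γ.quotient_finite_of_isOpen hB.opn
  haveI : Γ.FiniteIndex := Subgroup.finiteIndex_of_finite_quotient
  let Γ' : Subgroup H := Γ.subgroupOf H
  haveI : Γ'.Normal := hn.subgroupOf H
  haveI : Fintype (H ⧸ Γ') := Fintype.ofFinite _
  haveI : Fact (Nat.Prime 2) := ⟨Nat.prime_two⟩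
  have hP : IsPGroup 2 (H ⧸ Γ') := by
    intro q
    obtain ⟨g, rfl⟩ := QuotientGroup.mk_surjective q
    obtain ⟨a, ha⟩ := hB.two g
    refine ⟨a, ?_⟩
    rw [← QuotientGroup.mk_pow, QuotientGroup.eq_one_iff]
    exact Subgroup.mem_subgroupOf.mpr ha
  obtain ⟨n, hn2⟩ := IsPGroup.iff_card.mp hP
  rw [Nat.card_eq_fintype_card] at hn2
  have hfix3 : ∀ σ ∈ Γ, σ (y ^ 3) = y ^ 3 := by
    intro σ hσ
    rw [map_pow, hy σ hσ, mul_pow, e_cube hw, one_mul]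
  let F : H ⧸ Γ' → Qb := fun q => ((q.out : H) : GQ) y
  have hF0 : ∀ q, F q ≠ 0 := fun q => by
    simp only [F]
    exact (_root_.map_ne_zero _).mpr hy0
  have hFl : ∀ q, ∀ σ ∈ Γ, σ (F q) = w ^ (φ σ).val * F q := by
    intro q σ hσ
    have hq : ((q.out : H) : GQ) b = b := (hH _).mp (q.out : H).2
    have := law_conj hw hn hE hy _ (Or.inl hq) hσ
    have hs : (sgn b ((q.out : H) : GQ) : ZMod 3) = 1 := by simp [sgn, hq]
    rw [hs, one_mul] at this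
    exact this
  have hF3 : ∀ (g : H) q, (g : GQ) (F q ^ 3) = F (QuotientGroup.mk g * q) ^ 3 := by
    intro g q
    obtain ⟨γ, hγ⟩ := QuotientGroup.mk_out_eq_mul Γ' (g * q.out)
    have e : (QuotientGroup.mk g * q : H ⧸ Γ') = QuotientGroup.mk (g * q.out) := by
      rw [QuotientGroup.mk_mul, QuotientGroup.out_eq']
    have hγ' : ((γ : H) : GQ) ∈ Γ := Subgroup.mem_subgroupOf.mp γ.2
    simp only [F]
    rw [e, hγ, ← map_pow, ← map_pow, Subgroup.coe_mul, Subgroup.coe_mul, AlgEquiv.mul_apply,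
      AlgEquiv.mul_apply, hfix3 _ hγ']
  refine ⟨(∏ q, F q) ^ 2 ^ n, pow_ne_zero _ (Finset.prod_ne_zero_iff.mpr fun q _ => hF0 q),
    fun σ hσ => ?_, fun g hg => ?_⟩
  · rw [map_pow, map_prod, Finset.prod_congr rfl fun q _ => hFl q σ hσ, Finset.prod_mul_distrib,
      Finset.prod_const, Finset.card_univ, hn2, mul_pow, ← pow_mul]
    congr 1
    rw [pow_eq_pow_mod _ (e_cube hw (φ σ)), ← mul_pow]
    have : (2 * 2) ^ n % 3 = 1 := by
      rw [Nat.pow_mod]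
      simp
    rw [this, pow_one]
  · have e : ((∏ q, F q) ^ 2 ^ n) ^ 3 = (∏ q, F q ^ 3) ^ 2 ^ n := by
      rw [Finset.prod_pow, ← pow_mul, ← pow_mul, mul_comm]
    rw [e, map_pow, map_prod]
    congr 1
    have hg' : g ∈ H := (hH g).mpr hg
    rw [Finset.prod_congr rfl fun q _ => hF3 ⟨g, hg'⟩ q]
    exact Equiv.prod_comp (Equiv.mulLeft (QuotientGroup.mk (⟨g, hg'⟩ : H) : H ⧸ Γ'))
      (fun q => F q ^ 3)

end

end KumAux

open KumAux in
theorem kum : KUM := by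
  intro Γ w b Q φ t hB hw hb0 hfix hA hE ht
  obtain ⟨y, hy0, hy⟩ := gen hw hB.opn (fun g hg => (hfix g hg).1) hA.add hA.opn
  obtain ⟨Y, hY0, hY, hY3⟩ := desc hw hB (fun g hg => (hfix g hg).2) hE hy0 hy
  have htY0 : t Y ≠ 0 := (_root_.map_ne_zero _).mpr hY0
  have hne : t b ≠ b := by
    rw [ht]
    intro h
    apply hb0
    linear_combination (-1 / 2 : Qb) * h
  have hs : (sgn b t : ZMod 3) = -1 := by simp [sgn, hne]
  have e3 : (t Y / Y) ^ 3 = t (Y ^ 3) / Y ^ 3 := by rw [div_pow, map_pow]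
  have htinv : t⁻¹ b = -b := by
    have h : t⁻¹ (t b) = b := by
      rw [← AlgEquiv.mul_apply, inv_mul_cancel]; rfl
    rw [ht, map_neg] at h
    linear_combination -h
  refine ⟨t Y / Y, div_ne_zero htY0 hY0, fun σ hσ => ?_, fun g hg => ?_, ?_⟩
  · have h1 := law_conj hw hB.nrm hE hY t (Or.inr ht) hσ
    rw [hs, neg_one_mul, e_neg hw] at h1
    have hne0 : w ^ (φ σ).val ≠ 0 := by
      intro h
      have := e_cube hw (φ σ)
      rw [h] at this
      simp at this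
    rw [map_div₀, h1, hY σ hσ]
    field_simp
  · have h1 : (t⁻¹ * g * t) b = b := by
      rw [AlgEquiv.mul_apply, AlgEquiv.mul_apply, ht, map_neg, hg, map_neg, htinv, neg_neg]
    have h2 : g * t = t * (t⁻¹ * g * t) := by group
    have h3 : g (t (Y ^ 3)) = t (Y ^ 3) := by
      calc g (t (Y ^ 3)) = (g * t) (Y ^ 3) := rfl
        _ = t ((t⁻¹ * g * t) (Y ^ 3)) := by rw [h2]; rfl
        _ = _ := by rw [hY3 _ h1]
    rw [e3, map_div₀, h3, hY3 g hg]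
  · have h1 : (t * t) b = b := by
      rw [AlgEquiv.mul_apply, ht, map_neg, ht, neg_neg]
    have h3 : t (t (Y ^ 3)) = Y ^ 3 := hY3 _ h1
    have h4 : t (Y ^ 3) ≠ 0 := (_root_.map_ne_zero _).mpr (pow_ne_zero _ hY0)
    have h5 : Y ^ 3 ≠ 0 := pow_ne_zero _ hY0
    rw [e3, map_div₀, h3]
    field_simp

end Vale.Agent.P027M.S
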