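import Vale.Agent.P027M.S.Defs

/-!
# P027, route M, block S: class group and units
-/

set_option linter.all false

noncomputable section

namespace Vale.Agent.P027M.S

open NumberField IsDedekindDomain WithZero
open Vale.Agent.P022 Vale.Agent.P022.C

namespace Cls

variable {L : Type} [Field L] [NumberField L]

theorem val_eq (v : Pr L) {x : L} (hx : x ≠ 0) : v.valuation L x = exp (-ordv v x) := by
  rw [ordv, neg_neg, exp_log (by simpa using hx)]

theorem ordv_of {v : Pr L} {x : L} {n : ℤ} (h : v.valuation L x = exp (-n)) : ordv v x = n := by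
  rw [ordv, h, log_exp, neg_neg]

theorem ordv_mul (v : Pr L) {x y : L} (hx : x ≠ 0) (hy : y ≠ 0) :
    ordv v (x * y) = ordv v x + ordv v y := by
  apply ordv_of
  rw [map_mul, val_eq v hx, val_eq v hy, ← exp_add, neg_add]

theorem ordv_zpow (v : Pr L) {x : L} (hx : x ≠ 0) (n : ℤ) : ordv v (x ^ n) = n * ordv v x := by
  apply ordv_of
  rw [map_zpow₀, val_eq v hx, ← exp_zsmul]
  simp

theorem ordv_pow (v : Pr L) {x : L} (hx : x ≠ 0) (n : ℕ) : ordv v (x ^ n) = n * ordv v x := by
  rw [← zpow_natCast, ordv_zpow v hx]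

open Classical in
theorem gen_pow (v : Pr L) : ∃ x : L, x ≠ 0 ∧
    ∀ w : Pr L, ordv w x = if w = v then (classNumber L : ℤ) else 0 := by
  have h0 : v.asIdeal ∈ nonZeroDivisors (Ideal (𝓞 L)) := mem_nonZeroDivisors_of_ne_zero v.ne_bot
  have h1 : (v.asIdeal ^ classNumber L).IsPrincipal := by
    rw [← ClassGroup.mk0_eq_one_iff (pow_mem h0 _), ← SubmonoidClass.mk_pow _ h0, map_pow]
    exact pow_card_eq_one
  obtain ⟨a, ha⟩ := h1
  replace ha : v.asIdeal ^ classNumber L = Ideal.span {a} := ha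
  have a0 : a ≠ 0 := by
    rintro rfl
    rw [Ideal.span_singleton_zero] at ha
    exact pow_ne_zero _ v.ne_bot ha
  have am : a ∈ v.asIdeal ^ classNumber L := ha ▸ Ideal.mem_span_singleton_self a
  refine ⟨a, by simpa using a0, fun w => ?_⟩
  apply ordv_of
  have e : w.valuation L (a : L) = w.intValuation a :=
    HeightOneSpectrum.valuation_of_algebraMap w a
  rw [e]
  split_ifs with h
  · subst h
    have c1 := (w.intValuation_le_pow_iff_mem a _).2 am
    have c2 : ¬ w.intValuation a ≤ exp (-((classNumber L + 1 : ℕ) : ℤ)) := by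
      rw [w.intValuation_le_pow_iff_mem, ← Ideal.span_singleton_le_iff_mem, ← ha]
      exact not_le_of_gt
        (Ideal.pow_right_strictAnti _ w.ne_bot w.isPrime.ne_top (Nat.lt_succ_self _))
    rw [← exp_log (w.intValuation_ne_zero a a0)] at c1 c2 ⊢
    rw [exp_le_exp] at c1 c2
    congr 1
    push_cast at c2
    omega
  · rw [neg_zero, exp_zero, HeightOneSpectrum.intValuation_eq_one_iff,
      ← Ideal.span_singleton_le_iff_mem, ← ha]
    intro hl
    have := w.isPrime
    exact h (HeightOneSpectrum.ext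
      (v.isMaximal.eq_of_le w.isPrime.ne_top (Ideal.IsPrime.le_of_pow_le hl))).symm

theorem gen_div (d : Pr L →₀ ℤ) : ∃ x : L, x ≠ 0 ∧
    ∀ w : Pr L, ordv w x = (classNumber L : ℤ) * d w := by
  classical
  induction d using Finsupp.induction_linear with
  | zero => exact ⟨1, one_ne_zero, fun w => by simp [ordv]⟩
  | add f g hf hg =>
    obtain ⟨x, x0, hx⟩ := hf
    obtain ⟨y, y0, hy⟩ := hg
    refine ⟨x * y, mul_ne_zero x0 y0, fun w => ?_⟩
    rw [ordv_mul w x0 y0, hx, hy, Finsupp.add_apply, mul_add]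
  | single v n =>
    obtain ⟨x, x0, hx⟩ := gen_pow v
    refine ⟨x ^ n, zpow_ne_zero _ x0, fun w => ?_⟩
    rw [ordv_zpow w x0, hx, Finsupp.single_apply]
    by_cases h : w = v
    · simp [h, mul_comm]
    · simp [h, Ne.symm h]

theorem le_exp {a : ℤᵐ⁰} (h : a < 1) : a ≤ exp (-1) := by
  by_cases a0 : a = 0
  · rw [a0]; exact zero_le'
  · rw [← exp_log a0] at h ⊢
    rw [← exp_zero, exp_lt_exp] at h
    rw [exp_le_exp]
    omega

theorem cong_sq (D : Dat L) {x : L} (hx : D.p.valuation L x = 1) : Cong D 1 (x ^ 2) := by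
  apply le_exp
  have e : x ^ 2 - 1 = (x - 1) * (x + 1) := by ring
  have l1 : D.p.valuation L (x - 1) ≤ 1 := Valuation.map_sub_le _ hx.le (by simp)
  have l2 : D.p.valuation L (x + 1) ≤ 1 := Valuation.map_add_le _ hx.le (by simp)
  rw [e, map_mul]
  rcases D.res x hx with h | h
  · exact mul_lt_one_of_lt_of_le h l2
  · rw [mul_comm]
    exact mul_lt_one_of_lt_of_le h l1

theorem cong_cube (D : Dat L) {y : L} (hy : Cong D 1 y) : Cong D 2 (y ^ 3) := by
  replace hy : D.p.valuation L (y - 1) ≤ exp (-1) := hy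
  have l0 : D.p.valuation L (y - 1) ≤ 1 := hy.trans (by rw [← exp_zero, exp_le_exp]; omega)
  have l1 : D.p.valuation L y ≤ 1 := by
    have := Valuation.map_add_le (D.p.valuation L) l0 (y := 1) (by simp)
    rwa [sub_add_cancel] at this
  have e : y ^ 3 - 1 = (y - 1) * ((y - 1) * (y - 1) + 3 * y) := by ring
  change D.p.valuation L (y ^ 3 - 1) ≤ exp (-2)
  rw [e, map_mul]
  refine (mul_le_mul' l0 (Valuation.map_add_le _ ?_ ?_)).trans (one_mul _).le
  · rw [map_mul]
    refine (mul_le_mul' hy hy).trans ?_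
    rw [← exp_add]
    exact le_rfl
  · rw [map_mul]
    exact (mul_le_mul' D.ram l1).trans (mul_one _).le

theorem cong_six (D : Dat L) {x : L} (hx : D.p.valuation L x = 1) : Cong D 2 (x ^ 6) := by
  have := cong_cube D (cong_sq D hx)
  rwa [← pow_mul] at this

theorem unit_of {u : L} (u0 : u ≠ 0) (h : ∀ v : Pr L, ordv v u = 0) :
    ∃ ε : (𝓞 L)ˣ, (ε : L) = u := by
  have h1 : ∀ v : Pr L, v.valuation L u = 1 := fun v => by rw [val_eq v u0, h]; rfl
  obtain ⟨a, ha⟩ := HeightOneSpectrum.mem_integers_of_valuation_le_one (R := 𝓞 L) L u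
    fun v => (h1 v).le
  obtain ⟨b, hb⟩ := HeightOneSpectrum.mem_integers_of_valuation_le_one (R := 𝓞 L) L u⁻¹
    fun v => by rw [map_inv₀, h1, inv_one]
  have ab : a * b = 1 := by
    apply IsFractionRing.injective (𝓞 L) L
    rw [map_mul, ha, hb, map_one, mul_inv_cancel₀ u0]
  exact ⟨Units.mkOfMulEqOne a b ab, ha⟩

end Cls

open Cls

theorem cls : CLS := by
  intro L _ _ D
  refine ⟨6 * classNumber L, mul_ne_zero (by norm_num) (classNumber_ne_zero L), fun d hd => ?_⟩
  obtain ⟨x, x0, hx⟩ := gen_div d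
  refine ⟨x ^ 6, cong_six D ?_, fun v => ?_⟩
  · rw [val_eq _ x0, hx, hd]
    simp
  · rw [ordv_pow v x0, hx]
    push_cast
    ring

theorem unit : UNIT := by
  intro L _ _ hr u u' u0 u0' h h'
  obtain ⟨ε, rfl⟩ := unit_of u0 h
  obtain ⟨ε', rfl⟩ := unit_of u0' h'
  have nl : ¬ LinearIndependent ℤ ![Additive.ofMul ε, Additive.ofMul ε'] := by
    intro hl
    have := hl.fintype_card_le_finrank
    rw [Units.finrank_eq, Fintype.card_fin] at this
    omega
  rw [LinearIndependent.pair_iff] at nl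
  push Not at nl
  obtain ⟨a, a', h1, h2⟩ := nl
  refine ⟨a, a', ?_, ?_⟩
  · by_contra hc
    push Not at hc
    exact h2 hc.1 hc.2
  · have : ε ^ a * ε' ^ a' = 1 := h1
    rw [← Units.coe_zpow, ← Units.coe_zpow, ← Units.coe_mul, this, Units.coe_one]

end Vale.Agent.P027M.S
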