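import Vale.Agent.P027M.S.Defs

/-!
# P027, route M, block S: from the components to the Selmer group (`SEL`)
-/

set_option linter.all false

noncomputable section

namespace Vale.Agent.P027M.S

open NumberField Vale.Agent.P022 Vale.Agent.P022.C

namespace SelAux

section mat

variable {k : Type} [Field k]

theorem diag {P P' : Matrix (Fin 2) (Fin 2) k} (M : Matrix (Fin 2) (Fin 2) k) {t : k}
    (h1 : P 0 1 = 0 ∧ P 1 0 = 0) (h2 : P' 0 1 = 0 ∧ P' 1 0 = 0) (h : P * P' = 1)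
    (ht : P 0 0 = t * P 1 1) :
    (P * M * P') 0 0 = M 0 0 ∧ (P * M * P') 0 1 = t * M 0 1 ∧ t * (P * M * P') 1 0 = M 1 0 := by
  have a := congrFun (congrFun h 0) 0
  have d := congrFun (congrFun h 1) 1
  simp only [Matrix.mul_apply, Fin.sum_univ_two, h1.1, h1.2, h2.1, h2.2, Matrix.one_apply_eq,
    zero_mul, mul_zero, add_zero, zero_add] at a d ⊢
  refine ⟨?_, ?_, ?_⟩
  · linear_combination M 0 0 * a
  · linear_combination t * M 0 1 * d + M 0 1 * P' 1 1 * ht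
  · linear_combination M 1 0 * a - M 1 0 * P' 0 0 * ht

theorem anti {P P' : Matrix (Fin 2) (Fin 2) k} (M : Matrix (Fin 2) (Fin 2) k)
    (h1 : P 0 0 = 0 ∧ P 1 1 = 0) (h2 : P' 0 0 = 0 ∧ P' 1 1 = 0) (h : P * P' = 1) :
    (P * M * P') 0 0 = M 1 1 ∧ (P * M * P') 0 1 = P 0 1 * P' 0 1 * M 1 0 ∧
      P 0 1 * P' 0 1 * (P * M * P') 1 0 = M 0 1 ∧ P 0 1 * P' 0 1 ≠ 0 := by
  have a := congrFun (congrFun h 0) 0
  have d := congrFun (congrFun h 1) 1
  simp only [Matrix.mul_apply, Fin.sum_univ_two, h1.1, h1.2, h2.1, h2.2, Matrix.one_apply_eq,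
    zero_mul, mul_zero, add_zero, zero_add] at a d ⊢
  refine ⟨?_, ?_, ?_, mul_ne_zero (left_ne_zero_of_mul_eq_one a) (right_ne_zero_of_mul_eq_one d)⟩
  · linear_combination M 1 1 * a
  · ring
  · linear_combination M 0 1 * P 1 0 * P' 0 1 * a + M 0 1 * d

variable (ρ : GQ →* GL (Fin 2) k)

theorem mx_mul (g h : GQ) : mx ρ (g * h) = mx ρ g * mx ρ h := by
  simp only [mx, map_mul, Units.val_mul]

theorem mx_one : mx ρ 1 = 1 := by simp only [mx, map_one, Units.val_one]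

theorem mx_inv (g : GQ) : mx ρ g * mx ρ g⁻¹ = 1 := by rw [← mx_mul, mul_inv_cancel, mx_one]

/-- conjugation -/
def cj (g : GQ) (M : Matrix (Fin 2) (Fin 2) k) : Matrix (Fin 2) (Fin 2) k :=
  mx ρ g * M * mx ρ g⁻¹

theorem cj_mul (g h : GQ) (M : Matrix (Fin 2) (Fin 2) k) :
    cj ρ (g * h) M = cj ρ g (cj ρ h M) := by
  simp only [cj, mul_inv_rev, mx_mul, Matrix.mul_assoc]

theorem cj_add (g : GQ) (M N : Matrix (Fin 2) (Fin 2) k) :
    cj ρ g (M + N) = cj ρ g M + cj ρ g N := by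
  simp only [cj, Matrix.mul_add, Matrix.add_mul]

variable {ρ}

theorem cj_triv {g : GQ} (h : ρ g = 1) (M : Matrix (Fin 2) (Fin 2) k) : cj ρ g M = M := by
  simp only [cj, mx, map_inv, h, inv_one, Units.val_one, Matrix.one_mul, Matrix.mul_one]

variable {c : GQ → Matrix (Fin 2) (Fin 2) k}

theorem coc_one (h : ∀ g h, c (g * h) = c g + cj ρ g (c h)) : c 1 = 0 := by
  have := h 1 1
  rw [mul_one, cj_triv (map_one ρ)] at this
  exact left_eq_add.1 this

theorem coc_conj (h : ∀ g h, c (g * h) = c g + cj ρ g (c h)) (g : GQ) {σ : GQ} (hσ : ρ σ = 1) :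
    c (g * σ * g⁻¹) = cj ρ g (c σ) := by
  have h1 := h g g⁻¹
  rw [mul_inv_cancel, coc_one h] at h1
  rw [mul_assoc, h, h, cj_triv hσ, cj_add, add_left_comm, ← h1, add_zero]

theorem adm {Γ : Subgroup GQ} {w : Qb} {Q : Finset ℕ} (h : Coc ρ Γ w Q c)
    (hΓ : ∀ g ∈ Γ, ρ g = 1) (Λ : Matrix (Fin 2) (Fin 2) k →+ ZMod 3) :
    Adm Γ w Q fun g => Λ (c g) := by
  refine ⟨fun σ hσ τ _ => ?_, ?_, fun ℓ h1 h2 h3 P h4 h5 g hg hi => ?_, ?_⟩
  · have := h.coc σ τ
    rw [← cj, cj_triv (hΓ σ hσ)] at this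
    simp only [this, map_add]
  · obtain ⟨U, hU, e⟩ := h.opn
    exact ⟨U, hU, fun σ hσ => by simp only [e σ hσ, map_zero]⟩
  · simp only [h.unr ℓ h1 h2 h3 P h4 h5 g hg hi, map_zero]
  · obtain ⟨P, h1, h2, h3⟩ := h.font
    exact ⟨P, h1, h2, h3 Λ⟩

theorem sep [CharP k 3] {x : k} (h : ∀ l : k →+ ZMod 3, l x = 0) : x = 0 := by
  letI : Algebra (ZMod 3) k := ZMod.algebra k 3
  exact (Module.forall_dual_apply_eq_zero_iff (ZMod 3) x).1 fun φ => h φ.toAddMonoidHom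

theorem two_ne [CharP k 3] : (2 : k) ≠ 0 := fun h => by
  have h3 : ((3 : ℕ) : k) = 0 := CharP.cast_eq_zero k 3
  have : (1 : k) = 0 := by
    push_cast at h3
    linear_combination h3 - h
  exact one_ne_zero this

/-- A cocycle which vanishes on `Γ` is a coboundary. -/
theorem cobd [CharP k 3] {Γ : Subgroup GQ} (B : Base Γ)
    (h : ∀ g h, c (g * h) = c g + cj ρ g (c h)) (h0 : ∀ σ ∈ Γ, c σ = 0) :
    ∃ m, ∀ g, c g = m - cj ρ g m := by
  haveI := B.nrm
  haveI : IsAlgClosure ℚ Qb := AlgebraicClosure.instIsAlgClosure ℚ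
  haveI : IsGalois ℚ Qb := IsAlgClosure.isGalois ℚ Qb
  haveI : Finite (GQ ⧸ Γ) := Subgroup.quotient_finite_of_isOpen Γ B.opn
  letI := Fintype.ofFinite (GQ ⧸ Γ)
  have hp : IsPGroup 2 (GQ ⧸ Γ) := fun x => by
    obtain ⟨g, rfl⟩ := QuotientGroup.mk_surjective x
    obtain ⟨a, ha⟩ := B.two g
    exact ⟨a, by rw [← QuotientGroup.mk_pow, QuotientGroup.eq_one_iff]; exact ha⟩
  obtain ⟨n, hn⟩ := IsPGroup.iff_card.1 hp
  have hN : (Fintype.card (GQ ⧸ Γ) : k) ≠ 0 := by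
    rw [← Nat.card_eq_fintype_card, hn]
    push_cast
    exact pow_ne_zero _ two_ne
  have z : ∀ g, cj ρ g 0 = 0 := fun g => by simp only [cj, Matrix.mul_zero, Matrix.zero_mul]
  let f : GQ ⧸ Γ → Matrix (Fin 2) (Fin 2) k := fun x => c x.out
  have hf : ∀ g : GQ, f (g : GQ ⧸ Γ) = c g := fun g => by
    obtain ⟨σ, e⟩ := QuotientGroup.mk_out_eq_mul Γ g
    show c (Quotient.out _) = _
    rw [e, h, h0 _ σ.2, z, add_zero]
  have hs : ∀ g : GQ, ∑ x, f x = (Fintype.card (GQ ⧸ Γ) : k) • c g + cj ρ g (∑ x, f x) := by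
    intro g
    conv_lhs => rw [← Equiv.sum_comp (Equiv.mulLeft (g : GQ ⧸ Γ))]
    have e : ∀ x, f (Equiv.mulLeft (g : GQ ⧸ Γ) x) = c g + cj ρ g (f x) := fun x => by
      obtain ⟨y, rfl⟩ := QuotientGroup.mk_surjective x
      show f ((g : GQ ⧸ Γ) * (y : GQ ⧸ Γ)) = _
      rw [← QuotientGroup.mk_mul, hf, hf, h]
    simp only [e, Finset.sum_add_distrib, Finset.sum_const, Finset.card_univ, cj,
      Matrix.mul_sum, Matrix.sum_mul, Nat.cast_smul_eq_nsmul]
  refine ⟨(Fintype.card (GQ ⧸ Γ) : k)⁻¹ • ∑ x, f x, fun g => ?_⟩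
  have e : cj ρ g ((Fintype.card (GQ ⧸ Γ) : k)⁻¹ • ∑ x, f x) =
      (Fintype.card (GQ ⧸ Γ) : k)⁻¹ • cj ρ g (∑ x, f x) := by
    simp only [cj, Matrix.mul_smul, Matrix.smul_mul]
  rw [e, ← smul_sub, sub_eq_of_eq_add (hs g), smul_smul, inv_mul_cancel₀ hN, one_smul]

/-- Conjugation of the representation. -/
theorem sel_conj {ρ' : GQ →* GL (Fin 2) k} {A : GL (Fin 2) k} (hA : ∀ g, ρ' g = A * ρ g * A⁻¹)
    {Γ : Subgroup GQ} {w : Qb} {Q : Finset ℕ} {r : ℕ} (h : Sel ρ Γ w Q r) : Sel ρ' Γ w Q r := by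
  intro c hc
  let a : Matrix (Fin 2) (Fin 2) k := A
  let a' : Matrix (Fin 2) (Fin 2) k := (A⁻¹ : GL (Fin 2) k)
  have e1 : a * a' = 1 := A.mul_inv
  have e2 : a' * a = 1 := A.inv_mul
  have e3 : ∀ M : Matrix (Fin 2) (Fin 2) k, a * (a' * M) = M := fun M => by
    rw [← Matrix.mul_assoc, e1, Matrix.one_mul]
  have e4 : ∀ M : Matrix (Fin 2) (Fin 2) k, a' * (a * M) = M := fun M => by
    rw [← Matrix.mul_assoc, e2, Matrix.one_mul]
  have e5 : ∀ g, mx ρ' g = a * mx ρ g * a' := fun g => by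
    simp only [mx, hA, Units.val_mul, a, a']
  let T : Matrix (Fin 2) (Fin 2) k →+ Matrix (Fin 2) (Fin 2) k :=
    { toFun := fun M => a' * M * a
      map_zero' := by simp only [Matrix.mul_zero, Matrix.zero_mul]
      map_add' := fun M N => by simp only [Matrix.mul_add, Matrix.add_mul] }
  obtain ⟨l, hl, m, hm⟩ := h (fun j g => T (c j g)) fun j => by
    refine ⟨fun g => ?_, fun g g' => ?_, ?_, fun ℓ h1 h2 h3 P h4 h5 g hg hi => ?_, ?_⟩
    · show (a' * c j g * a).trace = 0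
      rw [Matrix.trace_mul_cycle, e1, Matrix.one_mul, (hc j).tr]
    · show a' * c j (g * g') * a = a' * c j g * a + mx ρ g * (a' * c j g' * a) * mx ρ g⁻¹
      rw [(hc j).coc, e5, e5]
      simp only [Matrix.mul_add, Matrix.add_mul, Matrix.mul_assoc, e4, e2, Matrix.mul_one]
    · obtain ⟨U, hU, e⟩ := (hc j).opn
      exact ⟨U, hU, fun σ hσ => by simp only [e σ hσ, map_zero]⟩
    · simp only [(hc j).unr ℓ h1 h2 h3 P h4 h5 g hg hi, map_zero]
    · obtain ⟨P, h1, h2, h3⟩ := (hc j).font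
      exact ⟨P, h1, h2, fun Λ => h3 (Λ.comp T)⟩
  refine ⟨l, hl, a * m * a', fun g => ?_⟩
  have e6 : ∑ j, l j • c j g = a * (∑ j, l j • T (c j g)) * a' := by
    rw [Matrix.mul_sum, Matrix.sum_mul]
    refine Finset.sum_congr rfl fun j _ => ?_
    show _ = a * (l j • (a' * c j g * a)) * a'
    simp only [Matrix.mul_smul, Matrix.smul_mul, Matrix.mul_assoc, e3, e1, Matrix.mul_one]
  rw [e6, hm, e5, e5]
  simp only [Matrix.mul_sub, Matrix.sub_mul, Matrix.mul_assoc, e4]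

end mat

/-! ### signs -/

theorem sgn_cases (x : Qb) (g : GQ) : sgn x g = 1 ∨ sgn x g = -1 := by
  unfold sgn
  split_ifs
  · exact Or.inl rfl
  · exact Or.inr rfl

theorem sgn_pm {x : Qb} {g : GQ} (h : g x = x ∨ g x = -x) : g x = (sgn x g : Qb) * x := by
  unfold sgn
  split_ifs with k
  · simpa using k
  · simpa using h.resolve_left k

theorem sgn_w {w : Qb} (hw : w ^ 2 + w + 1 = 0) (g : GQ) :
    g (2 * w + 1) = (sgn w g : Qb) * (2 * w + 1) := by
  have h1 : g w ^ 2 + g w + 1 = 0 := by simpa using congrArg g hw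
  have h2 : (g w - w) * (g w + w + 1) = 0 := by linear_combination h1 - hw
  have h3 : g (2 * w + 1) = 2 * g w + 1 := by simp [map_ofNat]
  rw [h3]
  unfold sgn
  split_ifs with k
  · simp [k]
  · have := (mul_eq_zero.1 h2).resolve_left (sub_ne_zero.2 k)
    push_cast
    linear_combination 2 * this

theorem th_ne {w : Qb} (hw : w ^ 2 + w + 1 = 0) : 2 * w + 1 ≠ 0 := fun h => by
  have : (3 : Qb) = 0 := by linear_combination 4 * hw - (2 * w + 1) * h
  norm_num at this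

theorem sgn_mul {w : Qb} (hw : w ^ 2 + w + 1 = 0) (g h : GQ) :
    sgn w (g * h) = sgn w g * sgn w h := by
  have e := sgn_w hw (g * h)
  rw [AlgEquiv.mul_apply, sgn_w hw h, map_mul, map_intCast, sgn_w hw g, ← mul_assoc] at e
  have := mul_right_cancel₀ (th_ne hw) e
  rw [mul_comm]
  exact_mod_cast this.symm

theorem root4 {i b : Qb} {c : ℤ} (hi : i ^ 2 = -1) (hb : b ^ 4 = c) (g : GQ) :
    ∃ e : ℕ, e < 4 ∧ g b = i ^ e * b := by
  have h1 : g b ^ 4 = c := by rw [← map_pow, hb, map_intCast]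
  have h2 : (g b - b) * (g b - i * b) * ((g b + b) * (g b + i * b)) = 0 := by
    linear_combination h1 - hb - (g b ^ 2 - b ^ 2) * b ^ 2 * hi
  rcases mul_eq_zero.1 h2 with k | k <;> rcases mul_eq_zero.1 k with k | k
  · exact ⟨0, by norm_num, by linear_combination k⟩
  · exact ⟨1, by norm_num, by linear_combination k⟩
  · exact ⟨2, by norm_num, by linear_combination k - b * hi⟩
  · exact ⟨3, by norm_num, by linear_combination k - i * b * hi⟩

theorem inv_fix {x : Qb} {g : GQ} : g⁻¹ x = x ↔ g x = x := by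
  constructor
  · intro h
    conv_lhs => rw [← h]
    exact g.apply_symm_apply x
  · intro h
    conv_lhs => rw [← h]
    exact g.symm_apply_apply x

end SelAux

open SelAux

theorem sel (h1 : SOUT) (h2 : GEN) (h3 : QUART) (h4 : LIN) : SEL := by
  intro i w b c k _ _ ι ρ Γ hi hw hι hb c0 c3 c9 c8 sh B hΓ rel
  obtain ⟨m, rfl⟩ := c3
  have θ0 := th_ne hw
  have b0 : b ≠ 0 := fun h => by
    rw [h, zero_pow (by norm_num)] at hb
    have : (3 * m : ℤ) = 0 := by exact_mod_cast hb.symm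
    omega
  obtain ⟨b', hb'⟩ : ∃ b' : Qb, b' * (2 * w + 1) = b ^ 3 := ⟨_, div_mul_cancel₀ _ θ0⟩
  have b0' : b' ≠ 0 := fun h => pow_ne_zero 3 b0 (by rw [← hb', h, zero_mul])
  have p4 : b' ^ 4 = ((3 * m ^ 3 : ℤ) : Qb) := by
    have e1 : (2 * w + 1) ^ 4 = 9 := by linear_combination (16 * w ^ 2 + 16 * w - 8) * hw
    have e2 : b' ^ 4 * 9 = (b ^ 4) ^ 3 := by rw [← e1, ← mul_pow, hb']; ring
    rw [hb] at e2
    push_cast at e2 ⊢
    linear_combination e2 / 9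
  have m0 : m < 0 := by omega
  have q0 : 3 * m ^ 3 < 0 := by
    have := Odd.pow_neg (show Odd 3 by decide) m0
    omega
  have q9 : ¬ (9 : ℤ) ∣ 3 * m ^ 3 := fun h => by
    have h' : (3 : ℤ) ∣ m ^ 3 := by omega
    have := Int.prime_three.dvd_of_dvd_pow h'
    omega
  have q8 : 3 * m ^ 3 % 8 = 5 := by
    have h' : m % 8 = 7 := by omega
    simp [Int.mul_emod, pow_succ, h']
  have ι0 : (1 : k) ≠ -1 := fun h => two_ne (k := k) (by linear_combination h)
  have i0 : (1 : Qb) ≠ -1 := by norm_num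
  have act : ∀ (g : GQ) (e : ℕ), g b = i ^ e * b → (sgn w g : Qb) * g b' = (i ^ e) ^ 3 * b' := by
    intro g e h
    have := congrArg g hb'
    rw [map_mul, sgn_w hw, map_pow, h, mul_pow, ← hb'] at this
    refine mul_right_cancel₀ θ0 ?_
    linear_combination this
  have fixb : ∀ g ∈ Γ, g b' = b' := by
    intro g hg
    obtain ⟨e, he, h⟩ := root4 hi hb g
    have r := rel g e (hΓ g hg).1 h
    simp only [mx, (hΓ g hg).2.2, Units.val_one, Matrix.one_apply_eq, mul_one] at r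
    have a := act g e h
    have s : sgn w g = 1 := if_pos (hΓ g hg).2.1
    interval_cases e
    · simpa [s] using a
    · exact absurd (by linear_combination (1 + ι) * r + hι) ι0
    · exact absurd (by linear_combination r + hι) ι0
    · exact absurd (by linear_combination (1 - ι) * r + (1 + ι - ι ^ 2) * hι) ι0
  have R1 : ∀ g : GQ, g i = i → (g b' = b' ∨ g b' = -b') →
      mx ρ g 0 0 = ((sgn b' g * sgn w g : ℤ) : k) * mx ρ g 1 1 := by
    intro g gi gb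
    obtain ⟨e, he, h⟩ := root4 hi hb g
    have a := act g e h
    rw [sgn_pm gb, ← mul_assoc] at a
    have a' := mul_right_cancel₀ b0' a
    rw [rel g e gi h]
    congr 1
    have t : sgn b' g * sgn w g = 1 ∨ sgn b' g * sgn w g = -1 := by
      rcases sgn_cases b' g with u | u <;> rcases sgn_cases w g with v | v <;> simp [u, v]
    rw [mul_comm, ← Int.cast_mul] at a'
    generalize sgn b' g * sgn w g = z at a' t
    rcases t with rfl | rfl <;> push_cast at a' ⊢ <;> interval_cases e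
    · simp
    · exact absurd (by linear_combination (1 - i) * a' + (1 + i - i ^ 2) * hi) i0
    · exact absurd (by linear_combination a' + (i ^ 4 - i ^ 2 + 1) * hi) i0
    · exact absurd (by
        linear_combination (1 + i ^ 9) * a' + (i ^ 16 - i ^ 14 + i ^ 12 - i ^ 10 + i ^ 8 - i ^ 6 +
          i ^ 4 - i ^ 2 + 1) * hi) i0
    · exact absurd (by linear_combination -a') i0
    · exact absurd (by linear_combination (i ^ 3 - 1) * a' + (i ^ 4 - i ^ 2 + 1) * hi) i0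
    · exact hι
    · exact absurd (by
        linear_combination (i ^ 9 - 1) * a' + (i ^ 16 - i ^ 14 + i ^ 12 - i ^ 10 + i ^ 8 - i ^ 6 +
          i ^ 4 - i ^ 2 + 1) * hi) i0
  have R2 : ∀ g : GQ, g i = i → g b' = i * b' →
      ∃ u : k, u ^ 2 = -1 ∧ mx ρ g 0 0 = u * mx ρ g 1 1 := by
    intro g gi gb
    obtain ⟨e, he, h⟩ := root4 hi hb g
    have a := act g e h
    rw [gb, ← mul_assoc] at a
    have a' := mul_right_cancel₀ b0' a
    have s : (sgn w g : Qb) ^ 2 = 1 := by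
      rcases sgn_cases w g with v | v <;> simp [v]
    have a2 : ((i ^ e) ^ 3) ^ 2 = -1 := by rw [← a', mul_pow, s, hi, one_mul]
    refine ⟨ι ^ e, ?_, rel g e gi h⟩
    interval_cases e
    · exact absurd (by linear_combination a2) i0
    · simpa using hι
    · exact absurd (by
        linear_combination a2 - (i ^ 10 - i ^ 8 + i ^ 6 - i ^ 4 + i ^ 2 - 1) * hi) i0
    · linear_combination (ι ^ 4 - ι ^ 2 + 1) * hι
  obtain ⟨L, _, _, j, D, E⟩ := h2 4 (3 * m ^ 3) b' (Or.inr rfl) ⟨_, rfl⟩ q9 p4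
  obtain ⟨⟨s, sb, si⟩, g₀, gi, gb⟩ := (h3 L _ b' j D q0 E).2.2.2.2.1 i hi
  obtain ⟨r, hr⟩ := h1 i w b' _ Γ hi hw p4 q0 ⟨_, rfl⟩ q9 q8 B
    fun g hg => ⟨(hΓ g hg).1, (hΓ g hg).2.1, fixb g hg⟩
  refine ⟨r, fun n Bd => ?_⟩
  obtain ⟨Q, cQ, tQ, eps, dep⟩ := hr n Bd
  refine ⟨Q, cQ, tQ, fun ρ' A hA => sel_conj hA ?_⟩
  have tr : ∀ g ∈ Γ, ρ g = 1 := fun g hg => (hΓ g hg).2.2
  have si' : s i ≠ i := fun h => by
    rw [h] at si
    have : i = 0 := by linear_combination si / 2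
    rw [this] at hi
    norm_num at hi
  have dg : ∀ (g : GQ) (t : k) M, g i = i → mx ρ g 0 0 = t * mx ρ g 1 1 →
      cj ρ g M 0 0 = M 0 0 ∧ cj ρ g M 0 1 = t * M 0 1 ∧ t * cj ρ g M 1 0 = M 1 0 :=
    fun g t M h ht => diag M (sh.1 g h) (sh.1 _ (inv_fix.2 h)) (mx_inv ρ g) ht
  have an : ∀ (g : GQ) M, g i ≠ i → cj ρ g M 0 0 = M 1 1 ∧
      cj ρ g M 0 1 = mx ρ g 0 1 * mx ρ g⁻¹ 0 1 * M 1 0 ∧
      mx ρ g 0 1 * mx ρ g⁻¹ 0 1 * cj ρ g M 1 0 = M 0 1 ∧ mx ρ g 0 1 * mx ρ g⁻¹ 0 1 ≠ 0 :=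
    fun g M h => anti M (sh.2 g h) (sh.2 _ fun z => h (inv_fix.1 z)) (mx_inv ρ g)
  have sq : ∀ (x : Qb) (g : GQ), (sgn x g : k) * (sgn x g : k) = 1 := fun x g => by
    rcases sgn_cases x g with v | v <;> simp [v]
  obtain ⟨κ, hκ⟩ : ∃ κ : k, κ = (sgn w s : k) * (mx ρ s 0 1 * mx ρ s⁻¹ 0 1) := ⟨_, rfl⟩
  have κ0 : κ ≠ 0 := by
    rw [hκ]
    exact mul_ne_zero (left_ne_zero_of_mul_eq_one (sq w s)) (an s 0 si').2.2.2
  let Λ : Matrix (Fin 2) (Fin 2) k →+ k :=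
    { toFun := fun M => M 0 1 + κ * M 1 0
      map_zero' := by simp
      map_add' := fun M N => by simp only [Matrix.add_apply]; ring }
  have Λa : ∀ M, Λ M = M 0 1 + κ * M 1 0 := fun _ => rfl
  have eig0 : ∀ (g : GQ) M, g i = i → (g b' = b' ∨ g b' = -b') →
      Λ (cj ρ g M) = ((sgn b' g * sgn w g : ℤ) : k) * Λ M := by
    intro g M gi gb
    obtain ⟨-, u1, u2⟩ := dg g _ M gi (R1 g gi gb)
    have v1 := sq b' g
    have v2 := sq w g
    rw [Λa, Λa, u1, ← u2]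
    push_cast
    linear_combination (-κ * cj ρ g M 1 0 * (sgn w g : k) * (sgn w g : k)) * v1 -
      κ * cj ρ g M 1 0 * v2
  have eig : ∀ (g : GQ) M, (g b' = b' ∨ g b' = -b') →
      Λ (cj ρ g M) = ((sgn b' g * sgn w g : ℤ) : k) * Λ M := by
    intro g M gb
    by_cases gi : g i = i
    · exact eig0 g M gi gb
    · obtain ⟨h, rfl⟩ : ∃ h, g = h * s := ⟨g * s⁻¹, by group⟩
      have e1 : (h * s) b' = h b' := by rw [AlgEquiv.mul_apply, sb]
      have e2 : sgn b' (h * s) = sgn b' h := by unfold sgn; rw [e1]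
      have e3 : h i = i := by
        have t1 : h i ^ 2 = -1 := by rw [← map_pow, hi, map_neg, map_one]
        have t2 : (h i - i) * (-h i - i) = 0 := by linear_combination hi - t1
        rw [AlgEquiv.mul_apply, si, map_neg] at gi
        exact sub_eq_zero.1 ((mul_eq_zero.1 t2).resolve_right (sub_ne_zero.2 gi))
      rw [e1] at gb
      obtain ⟨-, u1, u2, -⟩ := an s M si'
      have v := sq w s
      rw [cj_mul, eig0 h _ e3 gb, e2, sgn_mul hw, Λa, Λa, u1, ← u2, hκ]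
      push_cast
      linear_combination (-(sgn b' h : k) * (sgn w h : k) * (mx ρ s 0 1 * mx ρ s⁻¹ 0 1) * M 1 0) * v
  intro cc hc
  have d0 : ∀ j, ∀ σ ∈ Γ, cc j σ 0 0 = 0 := by
    intro j σ hσ
    refine sep fun l => ?_
    let E : Matrix (Fin 2) (Fin 2) k →+ k :=
      { toFun := fun M => M 0 0, map_zero' := rfl, map_add' := fun _ _ => rfl }
    refine eps (fun g => l.comp E (cc j g)) (adm (hc j) tr _) (fun g τ hτ => ?_) σ hσ
    show l (cc j (g * τ * g⁻¹) 0 0) = _ * l (cc j τ 0 0)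
    rw [coc_conj (hc j).coc g (tr τ hτ)]
    by_cases gi : g i = i
    · obtain ⟨e, -, h⟩ := root4 hi hb g
      rw [(dg g _ _ gi (rel g e gi h)).1, sgn, if_pos gi, Int.cast_one, one_mul]
    · have t := (hc j).tr τ
      rw [Matrix.trace_fin_two] at t
      rw [(an g _ gi).1, sgn, if_neg gi, eq_neg_of_add_eq_zero_right t, map_neg]
      simp
  obtain ⟨l, l0, hl⟩ := h4 Γ k r (fun j σ => Λ (cc j σ)) fun j l => by
    obtain ⟨e, e0, he⟩ := dep (fun t g => (l t).comp Λ (cc (j t) g)) fun t =>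
      ⟨adm (hc _) tr _, fun g gb τ hτ => by
        show l t (Λ (cc (j t) (g * τ * g⁻¹))) = _ * l t (Λ (cc (j t) τ))
        rw [coc_conj (hc _).coc g (tr τ hτ), eig g _ gb, ← zsmul_eq_mul, map_zsmul, zsmul_eq_mul,
          Int.cast_mul]⟩
    exact ⟨e, e0, fun x => he x.1 x.2⟩
  let C : GQ → Matrix (Fin 2) (Fin 2) k := fun g => ∑ j, l j • cc j g
  have Cc : ∀ g h, C (g * h) = C g + cj ρ g (C h) := fun g h => by
    simp only [C, (hc _).coc, smul_add, Finset.sum_add_distrib, cj, Matrix.mul_sum,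
      Matrix.sum_mul, Matrix.mul_smul, Matrix.smul_mul]
  have Ca : ∀ g a b, C g a b = ∑ j, l j * cc j g a b := fun g a b => by
    simp only [C, Matrix.sum_apply, Matrix.smul_apply, smul_eq_mul]
  have CΛ : ∀ σ ∈ Γ, Λ (C σ) = 0 := fun σ hσ => by
    rw [← hl ⟨σ, hσ⟩, Λa, Ca, Ca, Finset.mul_sum, ← Finset.sum_add_distrib]
    refine Finset.sum_congr rfl fun j _ => ?_
    rw [Λa]
    ring
  refine ⟨l, l0, cobd B Cc fun σ hσ => ?_⟩
  obtain ⟨u, u2, hu⟩ := R2 g₀ gi gb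
  have t1 := CΛ σ hσ
  have t2 := CΛ _ (B.nrm.conj_mem σ hσ g₀)
  rw [coc_conj Cc g₀ (tr σ hσ)] at t2
  obtain ⟨-, v1, v2⟩ := dg g₀ u (C σ) gi hu
  rw [Λa] at t1 t2
  rw [v1] at t2
  have z01 : C σ 0 1 = 0 := by
    refine (mul_eq_zero.1 (?_ : 2 * C σ 0 1 = 0)).resolve_left two_ne
    linear_combination t1 - u * t2 + κ * v2 + C σ 0 1 * u2
  have z10 : C σ 1 0 = 0 := by
    rw [z01, zero_add] at t1
    exact (mul_eq_zero.1 t1).resolve_left κ0
  have z00 : C σ 0 0 = 0 := by simp only [Ca, d0 _ σ hσ, mul_zero, Finset.sum_const_zero]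
  have z11 : C σ 1 1 = 0 := by
    have : ∀ j, cc j σ 1 1 = 0 := fun j => by
      have t := (hc j).tr σ
      rwa [Matrix.trace_fin_two, d0 j σ hσ, zero_add] at t
    simp only [Ca, this, mul_zero, Finset.sum_const_zero]
  ext a b
  fin_cases a <;> fin_cases b
  exacts [z00, z01, z10, z11]

end Vale.Agent.P027M.S
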