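import Vale.Agent.P027M.S.Inert
import Vale.Agent.P027M.S.Cls
import Vale.Agent.P027M.S.Sel

/-!
# P027, route M, block S: inertia and Frobenius elements at the primes of the level
-/

set_option linter.all false

noncomputable section

namespace Vale.Agent.P027M.S

open NumberField IsDedekindDomain
open Vale.Agent.P022 Vale.Agent.P022.C Vale.Agent.P022.H916

namespace Loc

/-- the embedding of the rationals -/
def jQ : ℚ →+* Qb := algebraMap ℚ Qb

theorem mem_GK (g : GQ) : g ∈ GK jQ := fun x => g.commutes x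

variable {P : Ideal (𝓞 Qb)} {l : ℕ}

theorem norm_span (l : ℕ) : Ideal.absNorm (Ideal.span {(l : 𝓞 ℚ)}) = l := by
  rw [Ideal.absNorm_span_natCast, RingOfIntegers.rank, Module.finrank_self, pow_one]

theorem belowQ (hP : P.IsPrime) (hl : l.Prime) (h : (l : 𝓞 Qb) ∈ P) :
    below jQ P = Ideal.span {(l : 𝓞 ℚ)} := by
  have p : (Ideal.span {(l : 𝓞 ℚ)}).IsPrime :=
    Ideal.isPrime_of_irreducible_absNorm (by rw [norm_span]; exact hl.prime.irreducible)
  have m := p.isMaximal (by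
    rw [Ne, Ideal.span_singleton_eq_bot]
    exact_mod_cast hl.ne_zero)
  refine (m.eq_of_le (Ideal.IsPrime.comap (RingOfIntegers.mapRingHom jQ)).ne_top ?_).symm
  rw [Ideal.span_singleton_le_iff_mem]
  show RingOfIntegers.mapRingHom jQ (l : 𝓞 ℚ) ∈ P
  rwa [map_natCast]

theorem frob (hP : P.IsPrime) (hl : l.Prime) (h : (l : 𝓞 Qb) ∈ P) :
    ∃ g : GQ, ∀ x : 𝓞 Qb, g • x - x ^ l ∈ P := by
  obtain ⟨g, hg⟩ := exists_frob jQ hP hl h
  rw [belowQ hP hl h, norm_span] at hg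
  exact ⟨g, hg⟩

theorem not_mem (hP : P.IsPrime) (h : (l : 𝓞 Qb) ∈ P) {c : ℤ} (hc : IsCoprime (l : ℤ) c) :
    (c : 𝓞 Qb) ∉ P := fun z => by
  obtain ⟨a, b, e⟩ := hc
  have e' : (a : 𝓞 Qb) * l + b * c = 1 := by exact_mod_cast congrArg (fun x : ℤ => (x : 𝓞 Qb)) e
  exact hP.ne_top ((Ideal.eq_top_iff_one _).2
    (e' ▸ P.add_mem (P.mul_mem_left _ h) (P.mul_mem_left _ z)))

theorem two_not (hP : P.IsPrime) (hl : l.Prime) (h3 : 3 < l) (h : (l : 𝓞 Qb) ∈ P) :
    (2 : 𝓞 Qb) ∉ P := by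
  have := not_mem hP h (c := 2) (Nat.isCoprime_iff_coprime.2
    ((Nat.coprime_primes hl Nat.prime_two).2 (by omega)))
  exact_mod_cast this

theorem three_not (hP : P.IsPrime) (hl : l.Prime) (h3 : 3 < l) (h : (l : 𝓞 Qb) ∈ P) :
    (3 : 𝓞 Qb) ∉ P := by
  have := not_mem hP h (c := 3) (Nat.isCoprime_iff_coprime.2
    ((Nat.coprime_primes hl Nat.prime_three).2 (by omega)))
  exact_mod_cast this

theorem pm {i : Qb} (hi : i ^ 2 = -1) (g : GQ) : g i = i ∨ g i = -i :=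
  sq_eq_sq_iff_eq_or_eq_neg.1 (by rw [← map_pow, hi, map_neg, map_one])

theorem exI {i : Qb} (hi : i ^ 2 = -1) : ∃ I : 𝓞 Qb, (I : Qb) = i ∧ I ^ 2 = -1 :=
  ⟨⟨i, IsIntegral.of_pow (n := 2) (by norm_num) (by rw [hi]; exact isIntegral_one.neg)⟩, rfl,
    RingOfIntegers.ext hi⟩

theorem two_mem {I : 𝓞 Qb} (hI : I ^ 2 = -1) (h : -I - I ∈ P) : (2 : 𝓞 Qb) ∈ P := by
  convert P.mul_mem_left I h using 1
  linear_combination 2 * hI

theorem fix_i (hP : P.IsPrime) (hl : l.Prime) (h3 : 3 < l) (h : (l : 𝓞 Qb) ∈ P) {g : GQ}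
    (hg : Inert P g) {i : Qb} (hi : i ^ 2 = -1) : g i = i := by
  refine (pm hi g).resolve_right fun e => two_not hP hl h3 h ?_
  obtain ⟨I, rfl, hI⟩ := exI hi
  have e' : g • I = -I := RingOfIntegers.ext e
  exact two_mem hI (e' ▸ hg I)

/-- an element of the decomposition group which fixes `w` and moves `i` -/
theorem dec (hP : P.IsPrime) (hl : l.Prime) (h7 : l % 12 = 7) (h : (l : 𝓞 Qb) ∈ P) {i w : Qb}
    (hi : i ^ 2 = -1) (hw : w ^ 2 + w + 1 = 0) :
    ∃ g : GQ, (∀ x : 𝓞 Qb, g • x ∈ P ↔ x ∈ P) ∧ g w = w ∧ g i ≠ i := by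
  have h3 : 3 < l := by omega
  obtain ⟨g, hg⟩ := frob hP hl h
  obtain ⟨m, rfl⟩ : ∃ m, l = 12 * m + 7 := ⟨l / 12, by omega⟩
  refine ⟨g, mem_of_frob hP (by omega) hg, ?_, fun e => two_not hP hl h3 h ?_⟩
  · have w3 : w ^ 3 = 1 := by linear_combination (w - 1) * hw
    obtain ⟨W, rfl⟩ : ∃ W : 𝓞 Qb, (W : Qb) = w :=
      ⟨⟨w, IsIntegral.of_pow (n := 3) (by norm_num) (by rw [w3]; exact isIntegral_one)⟩, rfl⟩
    have W3 : W ^ 3 = 1 := RingOfIntegers.ext w3
    have k := hg W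
    rw [show 12 * m + 7 = 3 * (4 * m + 2) + 1 by ring, pow_succ, pow_mul, W3, one_pow,
      one_mul] at k
    by_contra hn
    have h1 : g W ^ 2 + g W + 1 = 0 := by simpa using congrArg g hw
    have h2 : g W + W + 1 = 0 := (mul_eq_zero.1
      (show (g W - W) * (g W + W + 1) = 0 by linear_combination h1 - hw)).resolve_left
        (sub_ne_zero.2 hn)
    refine three_not hP hl h3 h ?_
    convert P.neg_mem (P.mul_mem_left (g • W - W) k) using 1
    apply RingOfIntegers.ext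
    show (3 : Qb) = -((g W - W) * (g W - W))
    linear_combination (g W - 3 * W - 1) * h2 + 4 * hw
  · obtain ⟨I, rfl, hI⟩ := exI hi
    have e' : g • I = I := RingOfIntegers.ext e
    have k := hg I
    have I4 : I ^ 4 = 1 := by linear_combination (I ^ 2 - 1) * hI
    rw [e', show 12 * m + 7 = 4 * (3 * m + 1) + 3 by ring, pow_add, pow_mul, I4, one_pow,
      one_mul] at k
    refine two_mem hI ?_
    convert P.neg_mem k using 1
    linear_combination (-I) * hI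

theorem ordvQ (v : Pr ℚ) (hl : l.Prime) (hv : v.asIdeal = Ideal.span {(l : 𝓞 ℚ)}) {c : ℤ}
    (c0 : c ≠ 0) : ordv v (c : ℚ) = padicValInt l c := by
  obtain ⟨d, hd⟩ := padicValInt_dvd (p := l) c
  have nd : ¬ (l : ℤ) ∣ d := fun z => by
    have : (l : ℤ) ^ (padicValInt l c + 1) ∣ c := by
      conv_rhs => rw [hd]
      rw [pow_succ]
      exact mul_dvd_mul_left _ z
    have := (padicValInt_dvd_iff_of_ne_one hl.ne_one _ _).1 this
    omega
  have d0 : (d : ℚ) ≠ 0 := by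
    rintro z
    exact nd (by rw [show d = 0 by exact_mod_cast z]; exact dvd_zero _)
  have l0 : (l : ℚ) ≠ 0 := by exact_mod_cast hl.ne_zero
  have e1 : ordv v (l : ℚ) = 1 := Cls.ordv_of (by
    rw [← v.intValuation_singleton (by exact_mod_cast hl.ne_zero) hv,
      ← v.valuation_of_algebraMap (K := ℚ)]
    simp)
  have e2 : ordv v (d : ℚ) = 0 := Cls.ordv_of (by
    have := (v.valuation_eq_one_iff_notMem (K := ℚ) (r := (d : 𝓞 ℚ))).2 fun z => by
      obtain ⟨a, b, e⟩ := (Nat.prime_iff_prime_int.1 hl).irreducible.coprime_iff_not_dvd.2 nd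
      have e' : (a : 𝓞 ℚ) * l + b * d = 1 := by
        exact_mod_cast congrArg (fun x : ℤ => (x : 𝓞 ℚ)) e
      exact v.isPrime.ne_top ((Ideal.eq_top_iff_one _).2 (e' ▸ v.asIdeal.add_mem
        (v.asIdeal.mul_mem_left _ (hv ▸ Ideal.mem_span_singleton_self _))
        (v.asIdeal.mul_mem_left _ z)))
    simpa using this)
  generalize padicValInt l c = a at hd
  rw [hd]
  push_cast
  rw [Cls.ordv_mul v (pow_ne_zero _ l0) d0, Cls.ordv_pow v l0, e1, e2]
  simp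

end Loc

open Loc in
/-- **an element of inertia moves the fourth root** -/
theorem ram {P : Ideal (𝓞 Qb)} {l : ℕ} (hP : P.IsPrime) (hl : l.Prime) (h3 : 3 < l)
    (h : (l : 𝓞 Qb) ∈ P) {b : Qb} {c : ℤ} (hb : b ^ 4 = c) (c0 : c ≠ 0)
    (h4 : ¬ 4 ∣ padicValInt l c) : ∃ g : GQ, Inert P g ∧ g b ≠ b := by
  by_contra hn
  push Not at hn
  obtain ⟨i, hi⟩ := IsAlgClosed.exists_pow_nat_eq (-1 : Qb) (n := 2) (by norm_num)
  let U : Subgroup GQ := MulAction.stabilizer GQ b ⊓ MulAction.stabilizer GQ i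
  have hU : IsOpen (U : Set GQ) :=
    (stabilizer_isOpen_of_isIntegral b).inter (stabilizer_isOpen_of_isIntegral i)
  have hmem : ∀ g, g ∈ U ↔ g b = b ∧ g i = i := fun g => Iff.rfl
  have hnm : ∀ g ∈ GK jQ, ∀ u ∈ U, g * u * g⁻¹ ∈ U := by
    intro g _ u hu
    obtain ⟨u1, u2⟩ := (hmem u).1 hu
    have key : ∀ z : Qb, u (g⁻¹ z) = g⁻¹ z → (g * u * g⁻¹) z = z := fun z hz => by
      rw [AlgEquiv.mul_apply, AlgEquiv.mul_apply, hz, ← AlgEquiv.mul_apply, mul_inv_cancel]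
      rfl
    refine (hmem _).2 ⟨key _ ?_, key _ ?_⟩
    · obtain ⟨e, -, he⟩ := SelAux.root4 hi hb g⁻¹
      rw [he, map_mul, map_pow, u1, u2]
    · rcases pm hi g⁻¹ with e | e <;> rw [e]
      · exact u2
      · rw [map_neg, u2]
  obtain ⟨M, _, _, _, _, jM, ρ, D, hM, hker⟩ := exists_fld jQ U hU (fun g _ => mem_GK g) hnm
  obtain ⟨b', hb'⟩ : ∃ b', jM b' = b := fixed jM fun g => ((hmem g).1 (hM ▸ g.2)).1
  have hne : below jM P ≠ ⊥ := by
    intro h0
    have : (l : 𝓞 M) ∈ below jM P := by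
      show RingOfIntegers.mapRingHom jM (l : 𝓞 M) ∈ P
      rwa [map_natCast]
    rw [h0, Ideal.mem_bot] at this
    exact hl.ne_zero (by exact_mod_cast this)
  let v' : Pr M := ⟨below jM P, Ideal.IsPrime.comap _, hne⟩
  let v : Pr ℚ := ⟨below jQ P, Ideal.IsPrime.comap _, by
    rw [belowQ hP hl h, Ne, Ideal.span_singleton_eq_bot]
    exact_mod_cast hl.ne_zero⟩
  have hin : ∀ g : GK jQ, (∀ x : 𝓞 Qb, (g : GQ) • x - x ∈ P) → ρ g = 1 := fun g hg =>
    (hker g).2 ((hmem _).2 ⟨hn g hg, fix_i hP hl h3 h hg hi⟩)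
  have key := H269.UNRV ℚ M v v' (D.below_comap P)
    (fun g hg => D.inertia_eq_bot hP hin hg) (c : ℚ)
  rw [ordvQ v hl (belowQ hP hl h) c0] at key
  have b0 : b' ≠ 0 := by
    rintro rfl
    rw [← hb', map_zero, zero_pow (by norm_num)] at hb
    exact c0 (by exact_mod_cast hb.symm)
  have e : (b' ^ 4 : M) = (c : M) := jM.injective (by rw [map_pow, hb', hb, map_intCast])
  rw [map_intCast, ← e, Cls.ordv_pow v' b0] at key
  exact h4 (Int.natCast_dvd_natCast.1 ⟨_, key.symm⟩)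

end Vale.Agent.P027M.S
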