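import Vale.Agent.P022.H20.GalDef
import Vale.Agent.P022.H567.Cft
import Vale.Agent.P016Z.Cheb.Basic

/-!
# P027, route M, block S: definitions and statements

Selmer count for `ad⁰` of an induced representation by Kummer theory, and the auxiliary primes.
-/

set_option linter.all false

noncomputable section

namespace Vale.Agent.P027M.S

open NumberField IsDedekindDomain Filter Topology Polynomial
open Vale.Agent.P022 Vale.Agent.P022.C Vale.Agent.P016Z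

/-! ### the Galois side -/

/-- the valuation of `x - 1` at `P` is `1 / k` times that of `3` -/
def Lev (P : Ideal (𝓞 Qb)) (k : ℕ) (x : Qb) : Prop :=
  ∃ s t : 𝓞 Qb, s ∉ P ∧ t ∉ P ∧ (s : Qb) * (x - 1) ^ k = 3 * (t : Qb)

/-- an open normal subgroup with a `2`-group as quotient -/
structure Base (Γ : Subgroup GQ) : Prop where
  opn : IsOpen (Γ : Set GQ)
  nrm : Γ.Normal
  two : ∀ g : GQ, ∃ a : ℕ, g ^ 2 ^ a ∈ Γ

/-- `g` lies in the inertia group of `P` -/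
def Inert (P : Ideal (𝓞 Qb)) (g : GQ) : Prop := ∀ x : 𝓞 Qb, g • x - x ∈ P

/-- `y` is a Kummer generator of the character `φ` of `Γ` -/
def Law (Γ : Subgroup GQ) (w : Qb) (φ : GQ → ZMod 3) (y : Qb) : Prop :=
  ∀ σ ∈ Γ, σ y = w ^ (φ σ).val * y

/-- a cubic character of `Γ` with the local conditions -/
structure Adm (Γ : Subgroup GQ) (w : Qb) (Q : Finset ℕ) (φ : GQ → ZMod 3) : Prop where
  add : ∀ σ ∈ Γ, ∀ τ ∈ Γ, φ (σ * τ) = φ σ + φ τ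
  opn : ∃ U : Subgroup GQ, IsOpen (U : Set GQ) ∧ ∀ σ ∈ U, φ σ = 0
  unr : ∀ ℓ : ℕ, ℓ.Prime → 3 < ℓ → ℓ ∉ Q → ∀ P : Ideal (𝓞 Qb), P.IsPrime → (ℓ : 𝓞 Qb) ∈ P →
    ∀ g ∈ Γ, Inert P g → φ g = 0
  font : ∃ P : Ideal (𝓞 Qb), P.IsPrime ∧ (3 : 𝓞 Qb) ∈ P ∧ ∀ y : Qb, Law Γ w φ y →
    ¬ Lev P 4 (y ^ 3) ∧ ¬ Lev P 2 (y ^ 3)

open Classical in
/-- the sign of `g` on `x` -/
def sgn (x : Qb) (g : GQ) : ℤ := if g x = x then 1 else -1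

/-- an auxiliary prime -/
def TWP (n : ℕ) (B : Finset ℕ) (q : ℕ) : Prop := q.Prime ∧ q % 4 = 3 ∧ 3 ^ n ∣ q - 1 ∧ q ∉ B

/-- the diagonal classes vanish -/
def EpsZero (i w : Qb) (Γ : Subgroup GQ) (Q : Finset ℕ) : Prop :=
  ∀ φ : GQ → ZMod 3, Adm Γ w Q φ →
    (∀ g : GQ, ∀ σ ∈ Γ, φ (g * σ * g⁻¹) = (sgn i g : ZMod 3) * φ σ) → ∀ σ ∈ Γ, φ σ = 0

/-- `φ` is an eigenclass for the elements which fix `b` up to sign -/
def Eig (Γ : Subgroup GQ) (w b : Qb) (φ : GQ → ZMod 3) : Prop :=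
  ∀ g : GQ, (g b = b ∨ g b = -b) → ∀ σ ∈ Γ,
    φ (g * σ * g⁻¹) = (sgn b g : ZMod 3) * (sgn w g : ZMod 3) * φ σ

/-- any `r + 1` eigenclasses are linearly dependent -/
def Dep (w b : Qb) (Γ : Subgroup GQ) (Q : Finset ℕ) (r : ℕ) : Prop :=
  ∀ φ : Fin (r + 1) → GQ → ZMod 3, (∀ j, Adm Γ w Q (φ j) ∧ Eig Γ w b (φ j)) →
    ∃ a : Fin (r + 1) → ZMod 3, a ≠ 0 ∧ ∀ σ ∈ Γ, ∑ j, a j * φ j σ = 0

/-- The output in terms of the components of `ad⁰`. -/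
def SOUT : Prop := ∀ (i w b : Qb) (c : ℤ) (Γ : Subgroup GQ), i ^ 2 = -1 → w ^ 2 + w + 1 = 0 →
  b ^ 4 = c → c < 0 → 3 ∣ c → ¬ 9 ∣ c → c % 8 = 5 → Base Γ →
  (∀ g ∈ Γ, g i = i ∧ g w = w ∧ g b = b) →
  ∃ r : ℕ, ∀ (n : ℕ) (B : Finset ℕ), ∃ Q : Finset ℕ, Q.card = r ∧ (∀ q ∈ Q, TWP n B q) ∧
    EpsZero i w Γ Q ∧ Dep w b Γ Q r

section

variable {k : Type} [Field k]

/-- the matrix of `ρ g` -/
abbrev mx (ρ : GQ →* GL (Fin 2) k) (g : GQ) : Matrix (Fin 2) (Fin 2) k := ρ g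

/-- diagonal on the stabiliser of `i`, antidiagonal outside -/
def Shape (i : Qb) (ρ : GQ →* GL (Fin 2) k) : Prop :=
  (∀ g : GQ, g i = i → mx ρ g 0 1 = 0 ∧ mx ρ g 1 0 = 0) ∧
    ∀ g : GQ, g i ≠ i → mx ρ g 0 0 = 0 ∧ mx ρ g 1 1 = 0

/-- a cocycle of `ad⁰ ρ` with the local conditions -/
structure Coc (ρ : GQ →* GL (Fin 2) k) (Γ : Subgroup GQ) (w : Qb) (Q : Finset ℕ)
    (c : GQ → Matrix (Fin 2) (Fin 2) k) : Prop where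
  tr : ∀ g, (c g).trace = 0
  coc : ∀ g h, c (g * h) = c g + mx ρ g * c h * mx ρ g⁻¹
  opn : ∃ U : Subgroup GQ, IsOpen (U : Set GQ) ∧ ∀ σ ∈ U, c σ = 0
  unr : ∀ ℓ : ℕ, ℓ.Prime → 3 < ℓ → ℓ ∉ Q → ∀ P : Ideal (𝓞 Qb), P.IsPrime → (ℓ : 𝓞 Qb) ∈ P →
    ∀ g ∈ Γ, Inert P g → c g = 0
  font : ∃ P : Ideal (𝓞 Qb), P.IsPrime ∧ (3 : 𝓞 Qb) ∈ P ∧
    ∀ (Λ : Matrix (Fin 2) (Fin 2) k →+ ZMod 3) (y : Qb), Law Γ w (fun g => Λ (c g)) y →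
      ¬ Lev P 4 (y ^ 3) ∧ ¬ Lev P 2 (y ^ 3)

/-- the Selmer group of `ad⁰ ρ` has dimension at most `r` -/
def Sel (ρ : GQ →* GL (Fin 2) k) (Γ : Subgroup GQ) (w : Qb) (Q : Finset ℕ) (r : ℕ) : Prop :=
  ∀ c : Fin (r + 1) → GQ → Matrix (Fin 2) (Fin 2) k, (∀ j, Coc ρ Γ w Q (c j)) →
    ∃ l : Fin (r + 1) → k, l ≠ 0 ∧ ∃ m : Matrix (Fin 2) (Fin 2) k,
      ∀ g, ∑ j, l j • c j g = m - mx ρ g * m * mx ρ g⁻¹

end

/-- **The output of block S.** -/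
def SEL : Prop := ∀ (i w b : Qb) (c : ℤ) (k : Type) [Field k] [CharP k 3] (ι : k)
  (ρ : GQ →* GL (Fin 2) k) (Γ : Subgroup GQ), i ^ 2 = -1 → w ^ 2 + w + 1 = 0 → ι ^ 2 = -1 →
  b ^ 4 = c → c < 0 → 3 ∣ c → ¬ 9 ∣ c → c % 8 = 5 → Shape i ρ → Base Γ →
  (∀ g ∈ Γ, g i = i ∧ g w = w ∧ ρ g = 1) →
  (∀ (g : GQ) (e : ℕ), g i = i → g b = i ^ e * b → mx ρ g 0 0 = ι ^ e * mx ρ g 1 1) →
  ∃ r : ℕ, ∀ (n : ℕ) (B : Finset ℕ), ∃ Q : Finset ℕ, Q.card = r ∧ (∀ q ∈ Q, TWP n B q) ∧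
    ∀ (ρ' : GQ →* GL (Fin 2) k) (A : GL (Fin 2) k), (∀ g, ρ' g = A * ρ g * A⁻¹) → Sel ρ' Γ w Q r

/-- The decomposition groups at `2`. -/
def TWO : Prop := ∀ (i b : Qb) (c : ℤ), i ^ 2 = -1 → b ^ 4 = c → c % 8 = 5 →
  ∀ P : Ideal (𝓞 Qb), P.IsPrime → (2 : 𝓞 Qb) ∈ P →
    ∃ g : GQ, (∀ x : 𝓞 Qb, g • x ∈ P ↔ x ∈ P) ∧ g b = -b

/-- Kummer theory and descent. -/
def KUM : Prop := ∀ (Γ : Subgroup GQ) (w b : Qb) (Q : Finset ℕ) (φ : GQ → ZMod 3) (t : GQ),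
  Base Γ → w ^ 2 + w + 1 = 0 → b ≠ 0 → (∀ g ∈ Γ, g w = w ∧ g b = b) → Adm Γ w Q φ →
  Eig Γ w b φ → t b = -b →
  ∃ y : Qb, y ≠ 0 ∧ Law Γ w φ y ∧ (∀ g : GQ, g b = b → g (y ^ 3) = y ^ 3) ∧
    y ^ 3 * t (y ^ 3) = 1

/-- the primes of a number field -/
abbrev Pr (L : Type) [Field L] : Type := HeightOneSpectrum (𝓞 L)

/-- the norm of a prime -/
abbrev Nr {L : Type} [Field L] [NumberField L] (v : Pr L) : ℕ := Ideal.absNorm v.asIdeal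

/-- Unramified Kummer extensions. -/
def INERT : Prop := ∀ (L : Type) [Field L] [NumberField L] (j : L →+* Qb) (Γ : Subgroup GQ)
  (x : L) (y : Qb) (ℓ : ℕ), Base Γ → x ≠ 0 → y ^ 3 = j x → ℓ.Prime → 3 < ℓ →
  (∀ P : Ideal (𝓞 Qb), P.IsPrime → (ℓ : 𝓞 Qb) ∈ P → ∀ g ∈ Γ, Inert P g → g y = y) →
  ∀ v : Pr L, (ℓ : 𝓞 L) ∈ v.asIdeal → 3 ∣ ordv v x

/-- From coefficients in `ZMod 3` to coefficients in `F`. -/
def LIN : Prop := ∀ (X F : Type) [Field F] [CharP F 3] (r : ℕ) (φ : Fin (r + 1) → X → F),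
  (∀ (j : Fin (r + 1) → Fin (r + 1)) (l : Fin (r + 1) → (F →+ ZMod 3)),
    ∃ e : Fin (r + 1) → ZMod 3, e ≠ 0 ∧ ∀ x, ∑ k, e k * l k (φ (j k) x) = 0) →
  ∃ l : Fin (r + 1) → F, l ≠ 0 ∧ ∀ x, ∑ j, l j * φ j x = 0

/-! ### the arithmetic side -/

/-- a number field with an involution and one prime above `3`, of degree one -/
structure Dat (L : Type) [Field L] [NumberField L] where
  τ : L ≃ₐ[ℚ] L
  π : Pr L → Pr L
  p : Pr L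
  b : L
  ττ : ∀ x, τ (τ x) = x
  ππ : ∀ v, π (π v) = v
  val_π : ∀ v x, (π v).valuation L (τ x) = v.valuation L x
  mem_π : ∀ (v : Pr L) (x y : 𝓞 L), (y : L) = τ x → (y ∈ (π v).asIdeal ↔ x ∈ v.asIdeal)
  norm_π : ∀ v, Nr (π v) = Nr v
  π_p : π p = p
  τ_b : τ b = -b
  val_b : p.valuation L b = WithZero.exp (-1)
  three : ∀ v : Pr L, (3 : 𝓞 L) ∈ v.asIdeal ↔ v = p
  ram : p.valuation L 3 ≤ WithZero.exp (-2)
  res : ∀ x : L, p.valuation L x = 1 → p.valuation L (x - 1) < 1 ∨ p.valuation L (x + 1) < 1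

section

variable {L : Type} [Field L] [NumberField L]

/-- `x ≡ 1` modulo the `k`-th power of the prime above `3` -/
def Cong (D : Dat L) (k : ℤ) (x : L) : Prop := D.p.valuation L (x - 1) ≤ WithZero.exp (-k)

/-- unit rank at most one, no cube root of unity in the minus part -/
structure Good (D : Dat L) : Prop where
  rank : Units.rank L ≤ 1
  no3 : ∀ y : L, y ^ 3 = 1 → y * D.τ y = 1 → y = 1

/-- a cubic ray class character in the minus part -/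
structure Ray (D : Dat L) (lam : Pr L → ZMod 3) : Prop where
  neg : ∀ v, lam (D.π v) = -lam v
  ray : ∀ x : L, Cong D 2 x → ∑ᶠ v : Pr L, (ordv v x : ZMod 3) * lam v = 0

/-- the primes `q j` kill all the characters -/
def Kill (D : Dat L) {r : ℕ} (q : Fin r → Pr L) : Prop :=
  ∀ lam, Ray D lam → (∀ j, lam (q j) = 0) → lam = 0

/-- `L = ℚ(b)`, `b ^ e = c` -/
structure Emb (e : ℕ) (c : ℤ) (b : Qb) (j : L →+* Qb) (D : Dat L) : Prop where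
  jb : j D.b = b
  pw : D.b ^ e = c
  fr : Module.finrank ℚ L = e
  gen : ∀ x : L, ∃ f : ℚ[X], f.natDegree < e ∧ x = aeval D.b f
  den : ∃ d : ℕ, d ≠ 0 ∧ ∀ x : 𝓞 L, ∃ f : ℤ[X], (d : L) * x = aeval D.b f
  fix : ∀ g : GQ, g b = b → ∀ x, g (j x) = j x
  act : ∀ g : GQ, g b = -b → ∀ x, g (j x) = j (D.τ x)
  rng : ∀ y : Qb, (∀ g : GQ, g b = b → g y = y) → ∃ x, j x = y
  cnj : ∀ b' : Qb, b' ^ e = c → ∃ g : GQ, g b = b'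
  val3 : D.p.valuation L 3 = WithZero.exp (-(e : ℤ))
  lev : ∀ P : Ideal (𝓞 Qb), P.IsPrime → (3 : 𝓞 Qb) ∈ P → ∀ x : L, Cong D 1 x → ¬ Cong D 2 x →
    Lev P e (j x)

end

/-- The Eisenstein field. -/
def GEN : Prop := ∀ (e : ℕ) (c : ℤ) (b : Qb), (e = 2 ∨ e = 4) → 3 ∣ c → ¬ 9 ∣ c → b ^ e = c →
  ∃ (L : Type) (_ : Field L) (_ : NumberField L) (j : L →+* Qb) (D : Dat L), Emb e c b j D

/-- A multiple of every divisor prime to `3` is the divisor of an element `≡ 1`. -/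
def CLS : Prop := ∀ (L : Type) [Field L] [NumberField L] (D : Dat L), ∃ H : ℕ, H ≠ 0 ∧
  ∀ d : Pr L →₀ ℤ, d D.p = 0 → ∃ x : L, Cong D 2 x ∧ ∀ v, ordv v x = H * d v

/-- Two units are multiplicatively dependent. -/
def UNIT : Prop := ∀ (L : Type) [Field L] [NumberField L], Units.rank L ≤ 1 → ∀ u u' : L,
  u ≠ 0 → u' ≠ 0 → (∀ v : Pr L, ordv v u = 0) → (∀ v : Pr L, ordv v u' = 0) →
  ∃ a a' : ℤ, (a ≠ 0 ∨ a' ≠ 0) ∧ u ^ a * u' ^ a' = 1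

/-- The count. -/
def COUNT : Prop := ∀ (L : Type) [Field L] [NumberField L] (D : Dat L) (r : ℕ)
  (q : Fin r → Pr L) (x : Fin (r + 1) → L), Good D → Kill D q →
  (∀ k, x k * D.τ (x k) = 1 ∧ Cong D 2 (x k) ∧
    ∀ v, (∀ j, v ≠ q j ∧ v ≠ D.π (q j)) → 3 ∣ ordv v (x k)) →
  ∃ e : Fin (r + 1) → ℕ, (∃ k, ¬ 3 ∣ e k) ∧ ∃ y : L, ∏ k, x k ^ e k = y ^ 3

/-- Finitely many characters. -/
def XFIN : Prop := ∀ (L : Type) [Field L] [NumberField L] (D : Dat L), {lam | Ray D lam}.Finite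

/-- An auxiliary prime on which a given character does not vanish. -/
def PrimeFor {L : Type} [Field L] [NumberField L] (D : Dat L) : Prop :=
  ∀ lam, Ray D lam → lam ≠ 0 → ∀ (n : ℕ) (B : Finset ℕ), ∃ v : Pr L, TWP n B (Nr v) ∧ lam v ≠ 0

/-- The choice of the primes. -/
def CHOOSE : Prop := ∀ (L : Type) [Field L] [NumberField L] (D : Dat L), PrimeFor D →
  ∃ r : ℕ, ∀ (n : ℕ) (B : Finset ℕ), ∃ q : Fin r → Pr L,
    Function.Injective (fun j => Nr (q j)) ∧ (∀ j, TWP n B (Nr (q j))) ∧ Kill D q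

/-- The quartic field. -/
def QUART : Prop := ∀ (L : Type) [Field L] [NumberField L] (c : ℤ) (b : Qb) (j : L →+* Qb)
  (D : Dat L), c < 0 → Emb 4 c b j D →
  IsTotallyComplex L ∧ Good D ∧ ¬ IsSquare (-1 : L) ∧ ¬ IsSquare (3 : L) ∧
  (∀ i : Qb, i ^ 2 = -1 → (∃ s : GQ, s b = b ∧ s i = -i) ∧ ∃ g : GQ, g i = i ∧ g b = i * b) ∧
  ∃ B : Finset ℕ, ∀ v : Pr L, (Nr v).Prime → Nr v % 4 = 3 → Nr v ∉ B → ∀ v' : Pr L,
    ((Nr v : ℕ) : 𝓞 L) ∈ v'.asIdeal → v' = v ∨ v' = D.π v ∨ D.π v' = v'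

/-- The field of the square root of `3`. -/
def SQ3 : Prop := ∀ (L : Type) [Field L] [NumberField L] (b : Qb) (j : L →+* Qb) (D : Dat L),
  Emb 2 3 b j D → Good D ∧ (∀ lam, Ray D lam → lam = 0) ∧
  ∀ q : ℕ, (q = 2 ∨ TWP 1 {3} q) → ∀ v : Pr L, (q : 𝓞 L) ∈ v.asIdeal → D.π v = v

/-- The bound for classes with values in `ZMod 3`. -/
def HALF : Prop := ∀ (L : Type) [Field L] [NumberField L] (e : ℕ) (c : ℤ) (w b : Qb)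
  (j : L →+* Qb) (D : Dat L) (Γ : Subgroup GQ) (Q : Finset ℕ) (r : ℕ) (q : Fin r → Pr L),
  (e = 2 ∨ e = 4) → Emb e c b j D → Good D → Kill D q → Base Γ → w ^ 2 + w + 1 = 0 →
  (∀ g ∈ Γ, g w = w ∧ g b = b) →
  (∀ ℓ : ℕ, (ℓ = 2 ∨ ℓ ∈ Q) → ∀ v : Pr L, (ℓ : 𝓞 L) ∈ v.asIdeal →
    (∃ k, v = q k ∨ v = D.π (q k)) ∨ D.π v = v) →
  Dep w b Γ Q r

/-! ### the analytic side -/

section

variable {K : Type} [Field K] [NumberField K]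

/-- the L-series of a function on ideals -/
def LI (θ : Ideal (𝓞 K) → ℂ) (s : ℝ) : ℂ :=
  ∑' I : {I : Ideal (𝓞 K) // I ≠ ⊥}, θ I.1 * (Ideal.absNorm I.1 : ℂ) ^ (-(s : ℂ))

/-- the sum over the primes -/
def PI (f : Pr K → ℝ) (s : ℝ) : ℝ := ∑' v : Pr K, f v * (Nr v : ℝ) ^ (-s)

/-- a ray class character modulo `D` -/
structure RayCh (D : ℕ) (θ : Ideal (𝓞 K) →* ℂ) : Prop where
  le : ∀ I, ‖θ I‖ ≤ 1
  zero : ∀ I, ¬ (Ideal.absNorm I).Coprime D → θ I = 0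
  one : ∀ x : 𝓞 K, x ≠ 0 → (D : 𝓞 K) ∣ x - 1 → θ (Ideal.span {x}) = 1

variable (K) in
/-- the sum over the primes of degree one above the primes of `S` -/
def P1 (S : Set ℕ) (s : ℝ) : ℝ :=
  ∑' p : ℕ, S.indicator (fun p => if p.Prime then (aK K p : ℝ) * (p : ℝ) ^ (-s) else 0) p

end

/-- L-series of nontrivial ray class characters are bounded at `1`. -/
def RAY : Prop := ∀ (K : Type) [Field K] [NumberField K] [IsTotallyComplex K] (D : ℕ)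
  (θ : Ideal (𝓞 K) →* ℂ), 2 ≤ D → RayCh D θ →
  (∃ I : Ideal (𝓞 K), I ≠ ⊥ ∧ (Ideal.absNorm I).Coprime D ∧ θ I ≠ 1) →
  ∃ C : ℝ, ∀ᶠ s : ℝ in 𝓝[>] 1, ‖LI θ s‖ ≤ C

/-- The Euler product. -/
def EUL : Prop := ∀ (K : Type) [Field K] [NumberField K], ∃ C : ℝ, ∀ θ : Ideal (𝓞 K) →* ℂ,
  (∀ I, ‖θ I‖ ≤ 1) → ∀ s : ℝ, 1 < s → LI θ s ≠ 0 ∧
    |PI (fun v : Pr K => (θ v.asIdeal).re) s - Real.log ‖LI θ s‖| ≤ C

/-- The pole of the zeta function. -/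
def Z1 : Prop := ∀ (K : Type) [Field K] [NumberField K],
  (∀ s : ℝ, 1 < s → (Summable fun v : Pr K => (Nr v : ℝ) ^ (-s)) ∧
    Summable fun p : ℕ => if p.Prime then (aK K p : ℝ) * (p : ℝ) ^ (-s) else 0) ∧
  ∃ C : ℝ, ∀ᶠ s : ℝ in 𝓝[>] 1, |PI (fun _ : Pr K => 1) s - Real.log (1 / (s - 1))| ≤ C ∧
    |P1 K Set.univ s - Real.log (1 / (s - 1))| ≤ C

/-- The cyclotomic extensions. -/
def CYC : Prop := ∀ (L : Type) [Field L] [NumberField L] (n : ℕ), Module.finrank ℚ L = 4 →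
  ¬ IsSquare (-1 : L) → ¬ IsSquare (3 : L) →
  ∃ (T T' : Type) (_ : Field T) (_ : NumberField T) (_ : Field T') (_ : NumberField T') (d : ℕ),
    (∀ p : ℕ, p.Prime → 3 < p → (p % 4 = 1 → aK T' p = 2 * aK T p) ∧ aK T p ≤ d * aK L p ∧
      (¬ 3 ^ (n + 1) ∣ p - 1 → aK T p = 0)) ∧
    d * Nat.card {χ : DirichletCharacter ℂ (3 ^ (n + 1)) //
      ∀ v : Pr L, (3 : 𝓞 L) ∉ v.asIdeal → χ (Nr v : ℕ) = 1} ≤ Nat.totient (3 ^ (n + 1))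

/-- The auxiliary primes exist. -/
def PRIME : Prop := ∀ (L : Type) [Field L] [NumberField L] (D : Dat L), IsTotallyComplex L →
  Module.finrank ℚ L = 4 → ¬ IsSquare (-1 : L) → ¬ IsSquare (3 : L) → PrimeFor D

end Vale.Agent.P027M.S
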