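import Vale.Agent.P027M.S.All
import Vale.Agent.P027M.S.Loc
import Vale.Agent.P027M.TW.Selg
import Vale.Agent.P027M.TW.Tame
import Vale.Agent.P027M.TW.Conj

/-!
# P027, route M, block S: the Selmer bound in the form used by block TW
-/

set_option linter.all false

noncomputable section

namespace Vale.Agent.P027M.S

open NumberField
open Vale.Agent.P022 Vale.Agent.P027M.TW

/-- the residual representation in induced form; `b` is a Kummer generator of the quotient of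
the two characters -/
structure Ind (i b : Qb) {k : Type} [Field k] (ι : k) (ρ : GQ →* M2 k) : Prop where
  opn : IsOpen {g : GQ | ρ g = 1}
  dg : ∀ g : GQ, g i = i → ρ g 0 1 = 0 ∧ ρ g 1 0 = 0
  an : ∀ g : GQ, g i ≠ i → ρ g 0 0 = 0 ∧ ρ g 1 1 = 0
  rel : ∀ (g : GQ) (e : ℕ), g i = i → g b = i ^ e * b → ρ g 0 0 = ι ^ e * ρ g 1 1
  two : ∀ g : GQ, ∃ a : ℕ, ρ g ^ 2 ^ a = 1

/-- all inertia groups above `l` lie in `Z` -/
def InA (l : ℕ) (Z : Set GQ) : Prop :=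
  ∀ P : Ideal (𝓞 Qb), P.IsPrime → (l : 𝓞 Qb) ∈ P → ∀ g : GQ, Inert P g → g ∈ Z

namespace Ind

variable {i b w : Qb} {k : Type} [Field k] {ι : k} {ρ : GQ →* M2 k} {c : ℤ}

theorem det_ne (ρ : GQ →* M2 k) (g : GQ) : ρ g 0 0 * ρ g 1 1 - ρ g 0 1 * ρ g 1 0 ≠ 0 := by
  rw [← Matrix.det_fin_two]
  have : (ρ g).det * (ρ g⁻¹).det = 1 := by
    rw [← Matrix.det_mul, ← map_mul, mul_inv_cancel, map_one, Matrix.det_one]
  exact left_ne_zero_of_mul_eq_one this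

theorem dg_ne (h : Ind i b ι ρ) {g : GQ} (gi : g i = i) : ρ g 0 0 ≠ 0 ∧ ρ g 1 1 ≠ 0 := by
  have := det_ne ρ g
  rw [(h.dg g gi).1, zero_mul, sub_zero] at this
  exact mul_ne_zero_iff.1 this

theorem an_ne (h : Ind i b ι ρ) {g : GQ} (gi : g i ≠ i) : ρ g 0 1 ≠ 0 ∧ ρ g 1 0 ≠ 0 := by
  have := det_ne ρ g
  rw [(h.an g gi).1, zero_mul, zero_sub, neg_ne_zero] at this
  exact mul_ne_zero_iff.1 this

/-- an element which fixes `i` and moves `b` is not a scalar -/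
theorem sep [CharP k 3] (h : Ind i b ι ρ) (hi : i ^ 2 = -1) (hι : ι ^ 2 = -1) (hb : b ^ 4 = c)
    {g : GQ} (gi : g i = i) (gb : g b ≠ b) : ρ g 0 0 ≠ ρ g 1 1 := fun z => by
  obtain ⟨e, he, k1⟩ := SelAux.root4 hi hb g
  have r := h.rel g e gi k1
  rw [z] at r
  have r' : ι ^ e = 1 := mul_right_cancel₀ (h.dg_ne gi).2 (by rw [← r, one_mul])
  have t := SelAux.two_ne (k := k)
  interval_cases e
  · exact gb (by simpa using k1)
  · exact t (by linear_combination hι - (ι + 1) * r')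
  · exact t (by linear_combination hι - r')
  · exact t (by linear_combination (1 + ι - ι ^ 2) * hι + (ι - 1) * r')

/-- the subgroup `Γ` -/
def Gam (i w : Qb) (ρ : GQ →* M2 k) : Subgroup GQ :=
  MulAction.stabilizer GQ i ⊓ (MulAction.stabilizer GQ w ⊓ ρ.toHomUnits.ker)

theorem mem_Gam {g : GQ} : g ∈ Gam i w ρ ↔ g i = i ∧ g w = w ∧ ρ g = 1 :=
  and_congr Iff.rfl (and_congr Iff.rfl Units.ext_iff)

theorem base (h : Ind i b ι ρ) (hi : i ^ 2 = -1) (hw : w ^ 2 + w + 1 = 0) :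
    Base (Gam i w ρ) := by
  have pw : ∀ g : GQ, g w = w ∨ g w = -1 - w := fun g => by
    have h1 : g w ^ 2 + g w + 1 = 0 := by simpa using congrArg g hw
    have h2 : (g w - w) * (g w - (-1 - w)) = 0 := by linear_combination h1 - hw
    exact (mul_eq_zero.1 h2).imp sub_eq_zero.1 sub_eq_zero.1
  refine ⟨?_, ⟨fun u hu g => ?_⟩, fun g => ?_⟩
  · rw [show (Gam i w ρ : Set GQ) = (MulAction.stabilizer GQ i : Set GQ) ∩
      ((MulAction.stabilizer GQ w : Set GQ) ∩ {g : GQ | ρ g = 1}) from Set.ext fun _ => mem_Gam]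
    exact (stabilizer_isOpen_of_isIntegral i).inter
      ((stabilizer_isOpen_of_isIntegral w).inter h.opn)
  · obtain ⟨u1, u2, u3⟩ := mem_Gam.1 hu
    have key : ∀ z : Qb, u (g⁻¹ z) = g⁻¹ z → (g * u * g⁻¹) z = z := fun z hz => by
      rw [AlgEquiv.mul_apply, AlgEquiv.mul_apply, hz, ← AlgEquiv.mul_apply, mul_inv_cancel]
      rfl
    refine mem_Gam.2 ⟨key _ ?_, key _ ?_, ?_⟩
    · rcases Loc.pm hi g⁻¹ with e | e <;> simp only [e, map_neg, u1]
    · rcases pw g⁻¹ with e | e <;> simp only [e, map_sub, map_neg, map_one, u2]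
    · rw [map_mul, map_mul, u3, mul_one, ← map_mul, mul_inv_cancel, map_one]
  · obtain ⟨a, ha⟩ := h.two g
    have s1 : (g ^ 2) i = i := by
      rw [pow_two, AlgEquiv.mul_apply]
      rcases Loc.pm hi g with e | e <;> simp only [e, map_neg, neg_neg]
    have s2 : (g ^ 2) w = w := by
      rw [pow_two, AlgEquiv.mul_apply]
      rcases pw g with e | e <;> simp only [e, map_sub, map_neg, map_one]
      ring
    refine ⟨a + 1, mem_Gam.2 ⟨?_, ?_, ?_⟩⟩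
    · rw [pow_succ', pow_mul]
      exact (MulAction.stabilizer GQ i).pow_mem s1 _
    · rw [pow_succ', pow_mul]
      exact (MulAction.stabilizer GQ w).pow_mem s2 _
    · rw [map_pow, pow_succ, pow_mul, ha, one_pow]

/-- the local condition at a prime where `b` ramifies -/
theorem locOK [CharP k 3] (h : Ind i b ι ρ) (hi : i ^ 2 = -1) (hw : w ^ 2 + w + 1 = 0)
    (hι : ι ^ 2 = -1) (hb : b ^ 4 = c) (c0 : c ≠ 0) {l : ℕ} (hl : l.Prime) (h3 : 3 < l)
    (h4 : ¬ 4 ∣ padicValInt l c) (U : Subgroup GQ) {Z : Set GQ} (hZ : l % 12 = 7 ∨ InA l Z)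
    {P : Ideal (𝓞 Qb)} (hP : P.IsPrime) (hm : (l : 𝓞 Qb) ∈ P) : LocOK ρ w U Z P := by
  refine Or.inr fun X x1 x2 x3 => ?_
  obtain ⟨z, z1, z2⟩ := ram hP hl h3 hm hb c0 h4
  have zi := Loc.fix_i hP hl h3 hm z1 hi
  have ne := sub_ne_zero.2 (h.sep hi hι hb zi z2)
  have e := x2 z (Selg.inert_dec z1) (Inert.fix_w hP hl h3 hm z1 hw)
  have a := congrFun (congrFun e 0) 1
  have d := congrFun (congrFun e 1) 0
  simp only [Matrix.mul_apply, Fin.sum_univ_two, (h.dg z zi).1, (h.dg z zi).2, mul_zero, zero_mul,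
    add_zero, zero_add] at a d
  have y01 : X 0 1 = 0 := (mul_eq_zero.1 (by linear_combination -a)).resolve_right ne
  have y10 : X 1 0 = 0 := (mul_eq_zero.1 (by linear_combination d)).resolve_right ne
  rw [Matrix.trace_fin_two] at x1
  have y00 : X 0 0 = 0 := by
    rcases hZ with hZ | hZ
    · obtain ⟨g, g1, g2, g3⟩ := Loc.dec hP hl hZ hm hi hw
      have a := congrFun (congrFun (x2 g g1 g2) 0) 1
      simp only [Matrix.mul_apply, Fin.sum_univ_two, y01, y10, mul_zero, zero_mul,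
        add_zero, zero_add] at a
      refine (mul_eq_zero.1 (?_ : X 0 0 * (2 * ρ g 0 1) = 0)).resolve_right
        (mul_ne_zero SelAux.two_ne (h.an_ne g3).1)
      linear_combination a + ρ g 0 1 * x1
    · have t := x3 (hZ P hP hm) z z1
      simp only [Matrix.trace_fin_two, Matrix.mul_apply, Fin.sum_univ_two, y01, y10, zero_mul,
        add_zero, zero_add] at t
      exact (mul_eq_zero.1 (by linear_combination t - ρ z 1 1 * x1)).resolve_right ne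
  have y11 : X 1 1 = 0 := by linear_combination x1 - y00
  ext p q
  fin_cases p <;> fin_cases q
  exacts [y00, y01, y10, y11]

/-- the image spans the matrix algebra -/
theorem span [CharP k 3] (h : Ind i b ι ρ) (hi : i ^ 2 = -1) (hι : ι ^ 2 = -1) (hb : b ^ 4 = c)
    (c0 : c < 0) (c3 : 3 ∣ c) (c9 : ¬ 9 ∣ c) (m : M2 k) :
    m ∈ Submodule.span k (Set.range ρ) := by
  obtain ⟨L, _, _, j, D, E⟩ := gen 4 c b (.inr rfl) c3 c9 hb
  obtain ⟨⟨s, -, si⟩, g, gi, gb⟩ := (quart L c b j D c0 E).2.2.2.2.1 i hi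
  have i0 : i ≠ 0 := fun z => by norm_num [z] at hi
  have b0 : b ≠ 0 := fun z => by
    rw [z, zero_pow (by norm_num)] at hb
    have : c = 0 := by exact_mod_cast hb.symm
    omega
  have si' : s i ≠ i := fun z => i0 (by linear_combination (si - z) / 2)
  have ne := sub_ne_zero.2 (h.sep hi hι hb gi fun z => by
    have : i = 1 := mul_right_cancel₀ b0 (by rw [← gb, z, one_mul])
    norm_num [this] at hi)
  obtain ⟨s1, s2⟩ := h.an_ne si'
  have mem : ∀ x, ρ x ∈ Submodule.span k (Set.range ρ) := fun x => Submodule.subset_span ⟨x, rfl⟩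
  have e : m = ((m 0 0 - m 1 1) / (ρ g 0 0 - ρ g 1 1)) • ρ g +
      ((m 1 1 * ρ g 0 0 - m 0 0 * ρ g 1 1) / (ρ g 0 0 - ρ g 1 1)) • ρ 1 +
      ((m 0 1 / ρ s 0 1 - m 1 0 / ρ s 1 0) / (ρ g 0 0 - ρ g 1 1)) • ρ (g * s) +
      ((m 1 0 / ρ s 1 0 * ρ g 0 0 - m 0 1 / ρ s 0 1 * ρ g 1 1) / (ρ g 0 0 - ρ g 1 1)) • ρ s := by
    ext p q
    fin_cases p <;> fin_cases q <;>
      simp [Matrix.mul_apply, Fin.sum_univ_two, (h.dg g gi).1, (h.dg g gi).2, (h.an s si').1,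
        (h.an s si').2] <;> field_simp <;> ring
  rw [e]
  exact add_mem (add_mem (add_mem (Submodule.smul_mem _ _ (mem _)) (Submodule.smul_mem _ _ (mem _)))
    (Submodule.smul_mem _ _ (mem _))) (Submodule.smul_mem _ _ (mem _))

end Ind

/-- **Block S in the form used by block TW.** -/
theorem selT {i w b : Qb} {c : ℤ} {k : Type} [Field k] [CharP k 3] {ι : k} {ρ : GQ →* M2 k}
    (hi : i ^ 2 = -1) (hw : w ^ 2 + w + 1 = 0) (hι : ι ^ 2 = -1) (hb : b ^ 4 = c) (c0 : c < 0)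
    (c3 : 3 ∣ c) (c9 : ¬ 9 ∣ c) (c8 : c % 8 = 5) (h : Ind i b ι ρ) :
    ∃ Γ : Subgroup GQ, Base Γ ∧ (∀ g ∈ Γ, g w = w) ∧ ∃ r : ℕ, ∀ (n : ℕ) (B : Finset ℕ),
      ∃ Q : Finset ℕ, Q.card = r ∧ (∀ q ∈ Q, TWP n B q) ∧
        ∀ (ρb : GQ →* M2 k) (A A' : M2 k), A * A' = 1 → (∀ g, ρb g = A' * ρ g * A) →
        ∀ (U : Subgroup GQ) (Z : Set GQ) (P3 : Ideal (𝓞 Qb)), IsOpen (U : Set GQ) → P3.IsPrime →
          (3 : 𝓞 Qb) ∈ P3 → (∀ l : ℕ, l.Prime → 3 < l → l ∉ Q → InA l U ∨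
            (¬ 4 ∣ padicValInt l c ∧ (l % 12 = 7 ∨ InA l Z))) →
          TW.SEL ρb U (FlL P3 Γ w) Z r := by
  have B := h.base hi hw
  obtain ⟨r, hr⟩ := sel0 i w b c k ι ρ.toHomUnits (Ind.Gam i w ρ) hi hw hι hb c0 c3 c9 c8
    ⟨h.dg, h.an⟩ B (fun g hg => ⟨hg.1, hg.2.1, hg.2.2⟩) h.rel
  refine ⟨_, B, fun g hg => hg.2.1, r, fun n Bd => ?_⟩
  obtain ⟨Q, q1, q2, q3⟩ := hr n Bd
  refine ⟨Q, q1, q2, fun ρb A A' e1 e2 U Z P3 hU p1 p2 hl => conj.1 GQ k ρ ρb A A' U _ Z r e1 e2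
    (selg.1 tame k ρ _ U w Q r Z P3 p1 p2 B hw (fun g hg => (Ind.mem_Gam.1 hg).2) hU
      (fun l l1 l2 l3 P hP hm => ?_) (q3 _ 1 fun g => by simp))⟩
  rcases hl l l1 l2 l3 with x | ⟨x, y⟩
  · exact Or.inl (x P hP hm)
  · exact h.locOK hi hw hι hb c0.ne l1 l2 x U y hP hm

end Vale.Agent.P027M.S
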