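import Mathlib

/-!
# P027, route M, block S: the algebra of the count
-/

set_option linter.all false

noncomputable section

namespace Vale.Agent.P027M.S.Cnt

open Finset

/-- abstract data: a group with an involution, divisors, a congruence subgroup -/
structure Ab (G P : Type) [AddCommGroup G] (r : ℕ) where
  τ : G →+ G
  π : P → P
  dv : G →+ (P →₀ ℤ)
  R : AddSubgroup G
  q : Fin r → P
  p : P
  H : ℕ
  z : G
  ττ : ∀ x, τ (τ x) = x
  ππ : ∀ v, π (π v) = v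
  dτ : ∀ x v, dv (τ x) (π v) = dv x v
  Rτ : ∀ x ∈ R, τ x ∈ R
  πp : π p = p
  H0 : H ≠ 0
  cls : ∀ d : P →₀ ℤ, d p = 0 → ∃ x ∈ R, ∀ v, dv x v = H * d v
  kill : ∀ lam : P → ZMod 3, (∀ v, lam (π v) = -lam v) →
    (∀ x ∈ R, ∑ᶠ v, (dv x v : ZMod 3) * lam v = 0) → (∀ j, lam (q j) = 0) → lam = 0
  unit : ∀ u u', dv u = 0 → dv u' = 0 → ∃ a a' : ℤ, (a ≠ 0 ∨ a' ≠ 0) ∧ a • u + a' • u' = 0
  no3 : ∀ y, (3 : ℤ) • y = 0 → y + τ y = 0 → y = 0
  zm : z + τ z = 0
  z3 : (3 : ℤ) • z ∈ R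
  zR : z ∉ R

namespace Ab

variable {G P : Type} [AddCommGroup G] {r : ℕ} (A : Ab G P r)

/-- off the chosen primes -/
def Off (v : P) : Prop := ∀ j, v ≠ A.q j ∧ v ≠ A.π (A.q j)

theorem Off.pi {v : P} (h : A.Off v) : A.Off (A.π v) := fun j =>
  ⟨fun e => (h j).2 (by rw [← e, A.ππ]), fun e => (h j).1 (by rw [← A.ππ v, e, A.ππ])⟩

theorem dτ' (x : G) (v : P) : A.dv (A.τ x) v = A.dv x (A.π v) := by
  rw [← A.dτ x (A.π v), A.ππ]

theorem minus {x : G} (h : x + A.τ x = 0) (v : P) : A.dv x (A.π v) = -A.dv x v := by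
  have h1 := congrArg (fun y => A.dv y v) h
  simp only [map_add, map_zero, Finsupp.add_apply, Finsupp.zero_apply, A.dτ'] at h1
  linarith

/-- the divisors whose minus part is principal off the chosen primes -/
def M : AddSubgroup (P →₀ ℤ) where
  carrier := {d | ∃ y ∈ A.R, y + A.τ y = 0 ∧ ∀ v, A.Off v → A.dv y v = d v - d (A.π v)}
  zero_mem' := ⟨0, A.R.zero_mem, by simp, fun v _ => by simp⟩
  add_mem' := by
    rintro d d' ⟨y, h1, h2, h3⟩ ⟨y', h1', h2', h3'⟩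
    refine ⟨y + y', A.R.add_mem h1 h1', ?_, fun v hv => ?_⟩
    · rw [map_add, add_add_add_comm, h2, h2', add_zero]
    · simp only [map_add, Finsupp.add_apply, h3 v hv, h3' v hv]
      ring
  neg_mem' := by
    rintro d ⟨y, h1, h2, h3⟩
    refine ⟨-y, A.R.neg_mem h1, ?_, fun v hv => ?_⟩
    · rw [map_neg, ← neg_add, h2, neg_zero]
    · simp only [map_neg, Finsupp.neg_apply, h3 v hv]
      ring

theorem dv_mem {x : G} (hx : x ∈ A.R) : A.dv x ∈ A.M := by
  refine ⟨x - A.τ x, A.R.sub_mem hx (A.Rτ x hx), ?_, fun v _ => ?_⟩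
  · rw [map_sub, A.ττ]; abel
  · rw [map_sub, Finsupp.sub_apply, A.dτ']

theorem sym_mem {d : P →₀ ℤ} (h : ∀ v, A.Off v → d (A.π v) = d v) : d ∈ A.M :=
  ⟨0, A.R.zero_mem, by simp, fun v hv => by rw [h v hv]; simp⟩

theorem H_mem (d : P →₀ ℤ) : (A.H : ℤ) • d ∈ A.M := by
  classical
  obtain ⟨x, hx, h⟩ := A.cls (d - Finsupp.single A.p (d A.p)) (by simp)
  have e : (A.H : ℤ) • d = A.dv x + (A.H : ℤ) • Finsupp.single A.p (d A.p) := by
    ext v
    simp only [Finsupp.add_apply, Finsupp.smul_apply, h v, Finsupp.sub_apply, smul_eq_mul]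
    ring
  rw [e]
  refine A.M.add_mem (A.dv_mem hx) (A.M.zsmul_mem (A.sym_mem fun v _ => ?_) _)
  simp only [Finsupp.single_apply]
  have : A.p = A.π v ↔ A.p = v :=
    ⟨fun e => by rw [← A.ππ v, ← e, A.πp], fun e => by rw [← e, A.πp]⟩
  simp only [this]

/-- reduction of divisors -/
def red : (P →₀ ℤ) →+ (P →₀ ZMod 3) := Finsupp.mapRange.addMonoidHom (Int.castAddHom (ZMod 3))

theorem red_apply (d : P →₀ ℤ) (v : P) : red d v = (d v : ZMod 3) := by
  simp [red]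

theorem red_single (v : P) : red (Finsupp.single v (1 : ℤ)) = Finsupp.single v 1 := by
  simp [red]

theorem f_red (f : (P →₀ ZMod 3) →ₗ[ZMod 3] ZMod 3) (d : P →₀ ℤ) :
    f (red d) = ∑ᶠ v, (d v : ZMod 3) * f (Finsupp.single v 1) := by
  classical
  rw [finsum_eq_sum_of_support_subset (s := d.support)]
  · conv_lhs => rw [← Finsupp.sum_single d, Finsupp.sum, map_sum, map_sum]
    refine sum_congr rfl fun v _ => ?_
    rw [← smul_eq_mul, ← map_smul]
    congr 1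
    simp [red]
  · intro v hv
    by_contra h
    apply hv
    have : d v = 0 := by simpa using h
    simp [this]

theorem dec (d : P →₀ ℤ) : ∃ m ∈ A.M, ∃ d', d = m + (3 : ℤ) • d' := by
  classical
  haveI : Fact (Nat.Prime 3) := ⟨Nat.prime_three⟩
  have top : AddSubgroup.toZModSubmodule 3 (A.M.map red) = ⊤ := by
    by_contra h
    obtain ⟨f, f0, hf⟩ := Submodule.exists_le_ker_of_lt_top _ (lt_top_iff_ne_top.2 h)
    have hM : ∀ m ∈ A.M, f (red m) = 0 := fun m hm => hf (by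
      rw [AddSubgroup.mem_toZModSubmodule]; exact ⟨m, hm, rfl⟩)
    have h0 := A.kill (fun v => f (Finsupp.single v 1)) (fun v => ?_) (fun x hx => ?_) (fun j => ?_)
    · exact f0 (Finsupp.lhom_ext' fun v => LinearMap.ext_ring (congrFun h0 v))
    · have h1 := hM (Finsupp.single v 1 + Finsupp.single (A.π v) 1) (A.sym_mem fun w _ => ?_)
      · rw [map_add, map_add, red_single, red_single] at h1
        exact eq_neg_of_add_eq_zero_right h1
      · have e1 : v = A.π w ↔ A.π v = w := ⟨fun e => by rw [e, A.ππ], fun e => by rw [← e, A.ππ]⟩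
        have e2 : A.π v = A.π w ↔ v = w :=
          ⟨fun e => by rw [← A.ππ v, e, A.ππ], fun e => by rw [e]⟩
        simp only [Finsupp.add_apply, Finsupp.single_apply, e1, e2]
        ring
    · rw [← f_red]; exact hM _ (A.dv_mem hx)
    · have h1 := hM (Finsupp.single (A.q j) 1) (A.sym_mem fun w hw => ?_)
      · rwa [red_single] at h1
      · rw [Finsupp.single_apply, Finsupp.single_apply, if_neg (hw j).1.symm,
          if_neg (Off.pi A hw j).1.symm]
  have h1 : red d ∈ AddSubgroup.toZModSubmodule 3 (A.M.map red) := top ▸ Submodule.mem_top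
  rw [AddSubgroup.mem_toZModSubmodule] at h1
  obtain ⟨m, hm, e⟩ := h1
  refine ⟨m, hm, (d - m).mapRange (· / 3) (by simp), ?_⟩
  ext v
  have h2 : ((d v - m v : ℤ) : ZMod 3) = 0 := by
    rw [Int.cast_sub, ← red_apply, ← red_apply, e, sub_self]
  have h3 : (3 : ℤ) ∣ d v - m v := (ZMod.intCast_zmod_eq_zero_iff_dvd _ 3).1 h2
  simp only [Finsupp.add_apply, Finsupp.smul_apply, Finsupp.mapRange_apply, Finsupp.sub_apply,
    smul_eq_mul]
  omega

theorem dec' (a : ℕ) (d : P →₀ ℤ) : ∃ m ∈ A.M, ∃ d', d = m + ((3 : ℤ) ^ a) • d' := by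
  induction a with
  | zero => exact ⟨0, A.M.zero_mem, d, by simp⟩
  | succ a ih =>
    obtain ⟨m, hm, d', e⟩ := ih
    obtain ⟨m', hm', d'', e'⟩ := A.dec d'
    refine ⟨m + ((3 : ℤ) ^ a) • m', A.M.add_mem hm (A.M.zsmul_mem hm' _), d'', ?_⟩
    rw [e, e', smul_add, smul_smul, pow_succ, add_assoc]

theorem exh : ∃ h : ℤ, ¬ 3 ∣ h ∧ ∀ d : P →₀ ℤ, h • d ∈ A.M := by
  obtain ⟨a, h, h3, e⟩ := Nat.exists_eq_pow_mul_and_not_dvd A.H0 3 (by norm_num)
  refine ⟨h, fun hh => h3 (by exact_mod_cast hh), fun d => ?_⟩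
  obtain ⟨m, hm, d', e'⟩ := A.dec' a d
  have e2 : (h : ℤ) * 3 ^ a = A.H := by rw [e]; push_cast; ring
  rw [e', smul_add, smul_smul, e2]
  exact A.M.add_mem (A.M.zsmul_mem hm _) (A.H_mem d')

theorem ker_ne {ι κ : Type} [Fintype ι] [Fintype κ] (f : (ι → ℤ) →ₗ[ℤ] κ → ℤ)
    (h : Fintype.card κ < Fintype.card ι) : ∃ a, a ≠ 0 ∧ f a = 0 := by
  by_contra hc
  push Not at hc
  refine absurd (card_le_of_injective ℤ f ?_) (not_le.2 h)
  rw [injective_iff_map_eq_zero]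
  intro a ha
  by_contra h0
  exact hc a h0 ha

theorem sum_minus {ι : Type} [Fintype ι] (u : ι → G) (hu : ∀ i, u i + A.τ (u i) = 0) (c : ι → ℤ) :
    ∑ i, c i • u i + A.τ (∑ i, c i • u i) = 0 := by
  rw [map_sum, ← sum_add_distrib]
  refine sum_eq_zero fun i _ => ?_
  rw [map_zsmul, ← smul_add, hu, smul_zero]

theorem rel {ι : Type} [Fintype ι] (hι : r + 1 < Fintype.card ι) (u : ι → G)
    (hu : ∀ i, u i + A.τ (u i) = 0) (ho : ∀ i v, A.Off v → A.dv (u i) v = 0) :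
    ∃ c : ι → ℤ, c ≠ 0 ∧ ∑ i, c i • u i = 0 := by
  classical
  let f : (ι → ℤ) →ₗ[ℤ] Fin r → ℤ := LinearMap.pi fun j =>
    Fintype.linearCombination ℤ fun i => A.dv (u i) (A.q j)
  have hf : ∀ a, f a = 0 → A.dv (∑ i, a i • u i) = 0 := by
    intro a ha
    have e : ∀ v, A.dv (∑ i, a i • u i) v = ∑ i, a i • A.dv (u i) v := fun v => by
      simp only [map_sum, map_zsmul, Finsupp.finset_sum_apply, Finsupp.smul_apply]
    have h1 : ∀ j, A.dv (∑ i, a i • u i) (A.q j) = 0 := fun j => by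
      rw [e]
      simpa [f, Fintype.linearCombination_apply] using congrFun ha j
    ext v
    by_cases hv : A.Off v
    · rw [e]
      exact sum_eq_zero fun i _ => by rw [ho i v hv, smul_zero]
    · unfold Off at hv
      push Not at hv
      obtain ⟨j, hj⟩ := hv
      by_cases h2 : v = A.q j
      · rw [h2]; exact h1 j
      · rw [hj h2, A.minus (A.sum_minus u hu a), h1 j]; rfl
  obtain ⟨a, a0, ha⟩ := ker_ne f (by rw [Fintype.card_fin]; omega)
  obtain ⟨i₀, hi⟩ := Function.ne_iff.1 a0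
  let g : (ι → ℤ) →ₗ[ℤ] Option (Fin r) → ℤ := LinearMap.pi fun o =>
    o.elim (LinearMap.proj i₀) fun j => (LinearMap.proj j).comp f
  obtain ⟨a', a0', ha'⟩ := ker_ne g (by rw [Fintype.card_option, Fintype.card_fin]; omega)
  have h1 : a' i₀ = 0 := congrFun ha' none
  have h2 : f a' = 0 := funext fun j => congrFun ha' (some j)
  obtain ⟨m, m', hm, e⟩ := A.unit _ _ (hf a ha) (hf a' h2)
  refine ⟨m • a + m' • a', fun h0 => ?_, ?_⟩
  · have h3 := congrFun h0 i₀
    simp only [Pi.add_apply, Pi.smul_apply, smul_eq_mul, h1, mul_zero, add_zero, Pi.zero_apply,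
      mul_eq_zero] at h3
    have m0 : m = 0 := h3.resolve_right hi
    rw [m0, zero_smul, zero_add, smul_eq_zero] at h0
    exact hm.elim (fun h => h m0) fun h => h (h0.resolve_right a0')
  · rw [← e, smul_sum, smul_sum, ← sum_add_distrib]
    refine sum_congr rfl fun i _ => ?_
    simp only [Pi.add_apply, Pi.smul_apply, smul_eq_mul, add_smul, mul_smul]

theorem desc {ι : Type} [Fintype ι] (u : ι → G) (hu : ∀ i, u i + A.τ (u i) = 0) (n : ℕ) :
    ∀ c : ι → ℤ, ∑ i, (c i).natAbs ≤ n → c ≠ 0 → ∑ i, c i • u i = 0 →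
      ∃ c : ι → ℤ, (∃ i, ¬ 3 ∣ c i) ∧ ∑ i, c i • u i = 0 := by
  induction n with
  | zero =>
    intro c h c0 _
    refine absurd (funext fun i => ?_) c0
    have := (single_le_sum (f := fun i => (c i).natAbs) (fun _ _ => Nat.zero_le _)
      (mem_univ i)).trans h
    exact Int.natAbs_eq_zero.1 (Nat.le_zero.1 this)
  | succ n ih =>
    intro c h c0 e
    by_cases h3 : ∃ i, ¬ 3 ∣ c i
    · exact ⟨c, h3, e⟩
    push Not at h3
    choose c' hc' using h3
    obtain ⟨i₀, hi⟩ := Function.ne_iff.1 c0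
    refine ih c' ?_ (fun h0 => hi (by rw [hc' i₀, h0]; rfl)) (A.no3 _ ?_ (A.sum_minus u hu c'))
    · refine Nat.le_of_lt_succ (lt_of_lt_of_le (sum_lt_sum (fun i _ => ?_) ⟨i₀, mem_univ _, ?_⟩) h)
      · rw [hc' i]; omega
      · have : c i₀ ≠ 0 := hi
        have := hc' i₀
        omega
    · rw [← e, smul_sum]
      exact sum_congr rfl fun i _ => by rw [hc' i, mul_smul]

theorem zdvd {n : ℤ} (h : n • A.z ∈ A.R) : 3 ∣ n := by
  by_contra h3
  apply A.zR
  have e : (1 : ℤ) = n * n - 3 * ((n * n - 1) / 3) := by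
    have : n % 3 = 1 ∨ n % 3 = 2 := by omega
    have h1 : (n * n) % 3 = 1 := by
      rcases this with h | h <;> simp [Int.mul_emod, h]
    omega
  rw [← one_smul ℤ A.z, e, sub_smul, mul_smul, mul_comm, mul_smul]
  exact A.R.sub_mem (A.R.zsmul_mem h _) (A.R.zsmul_mem A.z3 _)

theorem main (x : Fin (r + 1) → G) (h1 : ∀ k, x k + A.τ (x k) = 0) (h2 : ∀ k, x k ∈ A.R)
    (h3 : ∀ k v, A.Off v → 3 ∣ A.dv (x k) v) :
    ∃ c : Fin (r + 1) → ℤ, (∃ k, ¬ 3 ∣ c k) ∧ ∃ y, ∑ k, c k • x k = (3 : ℤ) • y := by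
  obtain ⟨h, hh, hM⟩ := A.exh
  obtain ⟨y₀, a1, a2, a3⟩ := hM (A.dv A.z)
  choose y b1 b2 b3 using fun k => hM ((A.dv (x k)).mapRange (· / 3) (by simp))
  let u : Option (Fin (r + 1)) → G := fun o =>
    o.elim ((2 * h) • A.z - y₀) fun k => (2 * h) • x k - (3 : ℤ) • y k
  have hu : ∀ i, u i + A.τ (u i) = 0 := by
    rintro (_ | k)
    · show (2 * h) • A.z - y₀ + A.τ ((2 * h) • A.z - y₀) = 0
      rw [map_sub, map_zsmul, sub_add_sub_comm, ← smul_add, A.zm, a2, smul_zero, sub_zero]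
    · show (2 * h) • x k - (3 : ℤ) • y k + A.τ ((2 * h) • x k - (3 : ℤ) • y k) = 0
      rw [map_sub, map_zsmul, map_zsmul, sub_add_sub_comm, ← smul_add, ← smul_add, h1, b2,
        smul_zero, smul_zero, sub_zero]
  have ho : ∀ i v, A.Off v → A.dv (u i) v = 0 := by
    rintro (_ | k) v hv
    · show A.dv ((2 * h) • A.z - y₀) v = 0
      simp only [map_sub, map_zsmul, Finsupp.sub_apply, Finsupp.smul_apply, a3 v hv,
        A.minus A.zm, smul_eq_mul]
      ring
    · show A.dv ((2 * h) • x k - (3 : ℤ) • y k) v = 0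
      obtain ⟨t, ht⟩ := h3 k v hv
      have e1 : 3 * t / 3 = t := by omega
      have e2 : -(3 * t) / 3 = -t := by omega
      simp only [map_sub, map_zsmul, Finsupp.sub_apply, Finsupp.smul_apply, b3 k v hv,
        A.minus (h1 k), smul_eq_mul, Finsupp.mapRange_apply, ht, e1, e2]
      ring
  obtain ⟨c, c0, hc⟩ := A.rel (by rw [Fintype.card_option, Fintype.card_fin]; omega) u hu ho
  obtain ⟨c, ⟨i, hi⟩, hc⟩ := A.desc u hu _ c le_rfl c0 hc
  rw [Fintype.sum_option] at hc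
  have hc' : c none • ((2 * h) • A.z - y₀) +
      ∑ k, c (some k) • ((2 * h) • x k - (3 : ℤ) • y k) = 0 := hc
  have p3 : Prime (3 : ℤ) := Int.prime_three
  have h23 : ¬ 3 ∣ 2 * h := fun hd => (p3.dvd_or_dvd hd).elim (by norm_num) hh
  have hz : 3 ∣ c none := by
    refine (p3.dvd_or_dvd (A.zdvd (n := c none * (2 * h)) ?_)).resolve_right h23
    have e : (c none * (2 * h)) • A.z = c none • y₀ -
        ∑ k, c (some k) • ((2 * h) • x k - (3 : ℤ) • y k) := by
      rw [eq_neg_of_add_eq_zero_right hc', mul_smul, smul_sub]; abel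
    rw [e]
    exact A.R.sub_mem (A.R.zsmul_mem a1 _) (A.R.sum_mem fun k _ => A.R.zsmul_mem
      (A.R.sub_mem (A.R.zsmul_mem (h2 k) _) (A.R.zsmul_mem (b1 k) _)) _)
  obtain ⟨t, ht⟩ := hz
  refine ⟨fun k => c (some k) * (2 * h), ?_,
    ∑ k, c (some k) • y k - t • ((2 * h) • A.z - y₀), ?_⟩
  · rcases i with _ | k
    · exact absurd ⟨t, ht⟩ hi
    · exact ⟨k, fun hd => (p3.dvd_or_dvd hd).elim hi h23⟩
  · rw [smul_sub, smul_smul, ← ht, eq_neg_of_add_eq_zero_left hc', sub_neg_eq_add, smul_sum,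
      ← sum_add_distrib]
    refine sum_congr rfl fun k _ => ?_
    rw [smul_sub, mul_smul, smul_comm (3 : ℤ)]
    abel

end Ab

end Vale.Agent.P027M.S.Cnt
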