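import Vale.Agent.P027M.S.Defs
import Vale.Agent.P027M.S.CountA

/-!
# P027, route M, block S: the count
-/

set_option linter.all false

noncomputable section

namespace Vale.Agent.P027M.S

open NumberField IsDedekindDomain Finset
open Vale.Agent.P022 Vale.Agent.P022.C Vale.Agent.P016Z

namespace Cnt

variable {L : Type} [Field L] [NumberField L]

theorem ordv_fin (x : Lˣ) : (Function.support fun v : Pr L => ordv v (x : L)).Finite := by
  refine ((HeightOneSpectrum.Support.finite (𝓞 L) (x : L)).union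
    (HeightOneSpectrum.Support.finite (𝓞 L) (x : L)⁻¹)).subset fun v hv => ?_
  by_contra hc
  apply hv
  simp only [Set.mem_union, HeightOneSpectrum.Support, Set.mem_setOf_eq, not_or, not_lt,
    map_inv₀] at hc
  have h0 : v.valuation L (x : L) ≠ 0 := (Valuation.ne_zero_iff _).2 x.ne_zero
  have h1 : v.valuation L (x : L) = 1 :=
    le_antisymm hc.1 ((inv_le_one₀ (zero_lt_iff.2 h0)).1 hc.2)
  simp [ordv, h1]

/-- the divisor of an element -/
def dv : Additive Lˣ →+ (Pr L →₀ ℤ) := AddMonoidHom.mk'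
  (fun x => Finsupp.ofSupportFinite (fun v : Pr L => ordv v ((x.toMul : Lˣ) : L)) (ordv_fin _)) (by
    intro x y
    ext v
    have hx : v.valuation L ((x.toMul : Lˣ) : L) ≠ 0 := (Valuation.ne_zero_iff _).2 (Units.ne_zero _)
    have hy : v.valuation L ((y.toMul : Lˣ) : L) ≠ 0 := (Valuation.ne_zero_iff _).2 (Units.ne_zero _)
    simp only [Finsupp.add_apply, Finsupp.ofSupportFinite_coe, toMul_add, Units.val_mul, ordv,
      map_mul, WithZero.log_mul hx hy]
    ring)

theorem dv_apply (x : Additive Lˣ) (v : Pr L) : dv x v = ordv v ((x.toMul : Lˣ) : L) := rfl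

theorem e2 : WithZero.exp (-2 : ℤ) < 1 := by
  rw [← WithZero.exp_zero, WithZero.exp_lt_exp]; norm_num

theorem e1 : WithZero.exp (-1 : ℤ) < 1 := by
  rw [← WithZero.exp_zero, WithZero.exp_lt_exp]; norm_num

theorem one_of (D : Dat L) {x : L} (h : D.p.valuation L (x - 1) < 1) : D.p.valuation L x = 1 := by
  have := Valuation.map_one_add_of_lt (D.p.valuation L) h
  rwa [add_sub_cancel] at this

theorem cong_val (D : Dat L) {x : L} (h : Cong D 2 x) : D.p.valuation L x = 1 :=
  one_of D (lt_of_le_of_lt h e2)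

theorem cong_ne (D : Dat L) {x : L} (h : Cong D 2 x) : x ≠ 0 := fun e => by
  have := cong_val D h
  rw [e, map_zero] at this
  exact zero_ne_one this

/-- the congruence subgroup -/
def R2 (D : Dat L) : AddSubgroup (Additive Lˣ) where
  carrier := {x | Cong D 2 ((x.toMul : Lˣ) : L)}
  zero_mem' := by simp [Cong]
  add_mem' := by
    intro x y hx hy
    have e : ((x + y).toMul : Lˣ) - (1 : L) = (x.toMul : Lˣ) * ((y.toMul : Lˣ) - 1) +
        ((x.toMul : Lˣ) - 1) := by
      rw [toMul_add, Units.val_mul]; ring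
    show D.p.valuation L _ ≤ _
    rw [e]
    refine Valuation.map_add_le _ ?_ hx
    rw [map_mul, cong_val D hx, one_mul]
    exact hy
  neg_mem' := by
    intro x hx
    have e : ((-x).toMul : Lˣ) - (1 : L) = -(((x.toMul : Lˣ) : L)⁻¹ * ((x.toMul : Lˣ) - 1)) := by
      rw [toMul_neg, Units.val_inv_eq_inv_val]
      have := (x.toMul).ne_zero
      field_simp
      ring
    show D.p.valuation L _ ≤ _
    rw [e, Valuation.map_neg, map_mul, map_inv₀, cong_val D hx, inv_one, one_mul]
    exact hx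

/-- the involution -/
def tau (D : Dat L) : Additive Lˣ →+ Additive Lˣ :=
  MonoidHom.toAdditive (Units.map (D.τ : L →* L))

theorem tau_val (D : Dat L) (x : Additive Lˣ) :
    (((tau D x).toMul : Lˣ) : L) = D.τ ((x.toMul : Lˣ) : L) := rfl

theorem ext' {x y : Additive Lˣ} (h : ((x.toMul : Lˣ) : L) = ((y.toMul : Lˣ) : L)) : x = y :=
  Additive.toMul.injective (Units.ext h)

theorem vb (D : Dat L) : D.p.valuation L D.b < 1 := by rw [D.val_b]; exact e1

theorem v1 (D : Dat L) : D.p.valuation L (1 + D.b) = 1 := Valuation.map_one_add_of_lt _ (vb D)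

theorem v2 (D : Dat L) : D.p.valuation L (1 - D.b) = 1 := Valuation.map_one_sub_of_lt _ (vb D)

theorem n1 (D : Dat L) : 1 + D.b ≠ 0 := fun e => by
  have := v1 D
  rw [e, map_zero] at this
  exact zero_ne_one this

theorem n2 (D : Dat L) : 1 - D.b ≠ 0 := fun e => by
  have := v2 D
  rw [e, map_zero] at this
  exact zero_ne_one this

/-- the element of level one -/
def zz (D : Dat L) : Additive Lˣ :=
  Additive.ofMul (Units.mk0 ((1 + D.b) / (1 - D.b)) (div_ne_zero (n1 D) (n2 D)))

theorem zz_val (D : Dat L) : (((zz D).toMul : Lˣ) : L) = (1 + D.b) / (1 - D.b) := rfl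

theorem vz (D : Dat L) : D.p.valuation L ((1 + D.b) / (1 - D.b) - 1) = WithZero.exp (-1) := by
  have e : (1 + D.b) / (1 - D.b) - 1 = -((1 - 3) * D.b / (1 - D.b)) := by
    have := n2 D
    field_simp
    ring
  rw [e, Valuation.map_neg, map_div₀, map_mul, v2, D.val_b,
    Valuation.map_one_sub_of_lt _ (lt_of_le_of_lt D.ram e2), one_mul, div_one]

theorem cube (D : Dat L) {x : L} (h : D.p.valuation L (x - 1) = WithZero.exp (-1)) :
    Cong D 2 (x ^ 3) := by
  have e : x ^ 3 - 1 = 3 * x * (x - 1) + (x - 1) ^ 2 * (x - 1) := by ring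
  have hx := one_of D (h ▸ e1)
  show D.p.valuation L _ ≤ _
  rw [e]
  refine Valuation.map_add_le _ ?_ ?_
  · rw [map_mul, map_mul, hx, mul_one, h]
    exact (mul_le_of_le_one_right' e1.le).trans D.ram
  · rw [map_mul, map_pow, h, pow_two, ← WithZero.exp_add]
    exact mul_le_of_le_one_right' e1.le

/-- the abstract data -/
def ab (hc : CLS) (hu : UNIT) (D : Dat L) {r : ℕ} (q : Fin r → Pr L) (hg : Good D)
    (hk : Kill D q) : Ab (Additive Lˣ) (Pr L) r where
  τ := tau D
  π := D.π
  dv := dv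
  R := R2 D
  q := q
  p := D.p
  H := (hc L D).choose
  z := zz D
  ττ := fun x => ext' (D.ττ _)
  ππ := D.ππ
  dτ := fun x v => by rw [dv_apply, dv_apply, tau_val, ordv, ordv, D.val_π]
  Rτ := fun x hx => by
    show D.p.valuation L (D.τ _ - 1) ≤ _
    rw [← map_one D.τ, ← map_sub, ← D.π_p, D.val_π]
    exact hx
  πp := D.π_p
  H0 := (hc L D).choose_spec.1
  cls := fun d hd => by
    obtain ⟨x, h1, h2⟩ := (hc L D).choose_spec.2 d hd
    exact ⟨Additive.ofMul (Units.mk0 x (cong_ne D h1)), h1, h2⟩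
  kill := fun lam h1 h2 h3 => hk lam ⟨h1, fun x hx =>
    h2 (Additive.ofMul (Units.mk0 x (cong_ne D hx))) hx⟩ h3
  unit := fun u u' h h' => by
    obtain ⟨a, a', h1, h2⟩ := hu L hg.rank _ _ (u.toMul).ne_zero (u'.toMul).ne_zero
      (fun v => by rw [← dv_apply, h]; rfl) (fun v => by rw [← dv_apply, h']; rfl)
    exact ⟨a, a', h1, ext' (by simpa using h2)⟩
  no3 := fun y h h' => by
    refine ext' (hg.no3 _ ?_ ?_)
    · have := congrArg (fun x : Additive Lˣ => ((x.toMul : Lˣ) : L)) h
      simpa [zpow_ofNat] using this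
    · exact congrArg (fun x : Additive Lˣ => ((x.toMul : Lˣ) : L)) h'
  zm := ext' (by
    show (1 + D.b) / (1 - D.b) * D.τ ((1 + D.b) / (1 - D.b)) = 1
    have := n1 D
    have := n2 D
    rw [map_div₀, map_add, map_sub, map_one, D.τ_b, ← sub_eq_add_neg, sub_neg_eq_add]
    field_simp)
  z3 := by
    have h := cube D (vz D)
    show Cong D 2 _
    rw [toMul_zsmul, zpow_ofNat, Units.val_pow_eq_pow_val]
    exact h
  zR := fun h => by
    have h1 : D.p.valuation L ((1 + D.b) / (1 - D.b) - 1) ≤ WithZero.exp (-2) := h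
    rw [vz, WithZero.exp_le_exp] at h1
    omega

end Cnt

theorem count (hc : CLS) (hu : UNIT) : COUNT := by
  intro L _ _ D r q x hg hk hx
  have x0 : ∀ k, x k ≠ 0 := fun k => Cnt.cong_ne D (hx k).2.1
  obtain ⟨c, ⟨k₀, hk₀⟩, y, e⟩ := (Cnt.ab hc hu D q hg hk).main
    (fun k => Additive.ofMul (Units.mk0 (x k) (x0 k))) (fun k => Cnt.ext' (hx k).1)
    (fun k => (hx k).2.1) (fun k v hv => (hx k).2.2 v hv)
  have e1 : ∏ k, x k ^ c k = ((y.toMul : Lˣ) : L) ^ 3 := by
    have := congrArg (fun x : Additive Lˣ => ((x.toMul : Lˣ) : L)) e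
    simpa [toMul_sum, zpow_ofNat] using this
  refine ⟨fun k => (c k % 3).toNat, ⟨k₀, fun h => hk₀ (by beta_reduce at h; omega)⟩,
    ((y.toMul : Lˣ) : L) / ∏ k, x k ^ (c k / 3), ?_⟩
  rw [div_pow, ← e1, ← prod_pow, ← prod_div_distrib]
  refine prod_congr rfl fun k _ => ?_
  rw [← zpow_natCast, ← zpow_natCast, ← zpow_mul, ← zpow_sub₀ (x0 k)]
  congr 1
  push_cast
  omega

end Vale.Agent.P027M.S
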