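import Vale.Agent.P027M.S.Defs
import Vale.Agent.P016Z.Cheb.Split

/-!
# P027, route M, block S: the cyclotomic extensions
-/

set_option linter.all false

noncomputable section

namespace Vale.Agent.P027M.S

open NumberField IsDedekindDomain Filter Topology Polynomial
open Vale.Agent.P022 Vale.Agent.P022.C Vale.Agent.P016Z

namespace Cyc

/-- primes which are `1` modulo `m` split completely -/
theorem spl1 (K L : Type) [Field K] [NumberField K] [Field L] [NumberField L] [Algebra K L]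
    (m : ℕ) [NeZero m] [IsCyclotomicExtension {m} K L] (p : ℕ) (hp : p.Prime) (h : m ∣ p - 1) :
    aK L p = Module.finrank K L * aK K p := by
  have hζ := IsCyclotomicExtension.zeta_spec m K L
  have : IsGalois K L := IsCyclotomicExtension.isGalois {m} K L
  refine aK_eq_of_radical (n := m) (a := 1) hp h
    (fun e => hp.one_lt.ne' (by exact_mod_cast Int.eq_one_of_dvd_one (by positivity) e))
    (by simp) ?_
  rw [eq_top_iff, ← IsCyclotomicExtension.adjoin_primitive_root_eq_top hζ]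
  exact Algebra.adjoin_mono (Set.singleton_subset_iff.2 (by simpa using hζ.pow_eq_one))

/-- the other primes have no prime of degree one above them -/
theorem spl0 (K L : Type) [Field K] [NumberField K] [Field L] [NumberField L] [Algebra K L]
    (m : ℕ) [NeZero m] [IsCyclotomicExtension {m} K L] (p : ℕ) (hp : p.Prime)
    (hc : p.Coprime m) (h : ¬ m ∣ p - 1) : aK L p = 0 := by
  have hζ := IsCyclotomicExtension.zeta_spec m K L
  rw [aK, Nat.card_eq_zero]
  left
  refine ⟨fun ⟨P, hP⟩ => h ?_⟩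
  have : P.IsPrime := Ideal.isPrime_of_irreducible_absNorm (hP ▸ (hp : Irreducible p))
  have hP0 : P ≠ ⊥ := fun e => hp.ne_zero (by rw [← hP, e, Ideal.absNorm_bot])
  have : P.IsMaximal := Ring.DimensionLEOne.maximalOfPrime hP0 inferInstance
  have h1 := hζ.toInteger_isPrimitiveRoot.idealQuotient_mk (I := P)
    (by rw [hP]; exact hp.one_lt.ne') (by rw [hP]; exact hc)
  let _ := Ideal.Quotient.field P
  have := Fintype.ofFinite (𝓞 L ⧸ P)
  have h2 := h1.dvd_of_pow_eq_one _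
    (FiniteField.pow_card_sub_one_eq_one _ (h1.ne_zero (NeZero.ne m)))
  have h4 : Fintype.card (𝓞 L ⧸ P) = p := by
    rw [← hP, Ideal.absNorm_apply, Submodule.cardQuot_apply, Nat.card_eq_fintype_card]
  rwa [h4] at h2

/-- quadratic cyclotomic extensions -/
theorem fr2 (K L : Type) [Field K] [NumberField K] [Field L] [NumberField L] [Algebra K L]
    (m : ℕ) [NeZero m] [IsCyclotomicExtension {m} K L] (hm : m.totient = 2)
    (h : ∀ x : K, ¬ IsPrimitiveRoot x m) : Module.finrank K L = 2 := by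
  rw [IsCyclotomicExtension.finrank (n := m) L, hm]
  rw [irreducible_iff_roots_eq_zero_of_degree_le_three (by rw [natDegree_cyclotomic, hm])
    (by rw [natDegree_cyclotomic, hm]; norm_num), Multiset.eq_zero_iff_forall_notMem]
  intro x hx
  rw [mem_roots (cyclotomic_ne_zero m K), isRoot_cyclotomic_iff] at hx
  exact h x hx

/-- units which are `1` modulo `3` -/
theorem unit_pow (n : ℕ) (k : ℕ) (hk : k % 3 = 1) : ((k : ZMod (3 ^ (n + 1))) ^ 3 ^ n) = 1 := by
  have h1 : ((3 : ℕ) : ℤ) ∣ (k : ℤ) - 1 := by omega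
  have h2 := dvd_sub_pow_of_dvd_sub h1 n
  rw [one_pow] at h2
  have h3 : ((((k : ℤ) ^ 3 ^ n - 1 : ℤ)) : ZMod (3 ^ (n + 1))) = 0 := by
    rw [ZMod.intCast_zmod_eq_zero_iff_dvd]
    exact_mod_cast h2
  push_cast at h3
  exact sub_eq_zero.1 h3

section Gal

variable {L T : Type} [Field L] [NumberField L] [Field T] [NumberField T] [Algebra L T] {n : ℕ}
  [IsCyclotomicExtension {3 ^ (n + 1)} L T]

theorem ex_w (L T : Type) [Field L] [Field T] [NumberField T] [Algebra L T] (n : ℕ)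
    [IsCyclotomicExtension {3 ^ (n + 1)} L T] : ∃ w : T, IsPrimitiveRoot w 3 := by
  have hζ := IsCyclotomicExtension.zeta_spec (3 ^ (n + 1)) L T
  exact ⟨_, hζ.pow (by positivity) (pow_succ 3 n)⟩

/-- the stabiliser of a cube root of unity is a `3`-group -/
theorem pow_one_of_fix {w : T} (hw : IsPrimitiveRoot w 3) (σ : Gal(T/L)) (h : σ w = w) :
    σ ^ 3 ^ n = 1 := by
  have hζ := IsCyclotomicExtension.zeta_spec (3 ^ (n + 1)) L T
  set ζ := IsCyclotomicExtension.zeta (3 ^ (n + 1)) L T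
  have hw0 : IsPrimitiveRoot (ζ ^ 3 ^ n) 3 := hζ.pow (by positivity) (pow_succ 3 n)
  obtain ⟨i, -, hi⟩ := hw.eq_pow_of_pow_eq_one hw0.pow_eq_one
  have h1 : σ (ζ ^ 3 ^ n) = ζ ^ 3 ^ n := by rw [← hi, map_pow, h]
  have h2 := hζ.autToPow_spec L σ
  set k := ((hζ.autToPow L σ : (ZMod (3 ^ (n + 1)))ˣ) : ZMod (3 ^ (n + 1))).val with hk
  have h3 : (ζ ^ 3 ^ n) ^ k = (ζ ^ 3 ^ n) ^ 1 := by
    rw [pow_one, ← pow_mul, mul_comm, pow_mul, h2, ← map_pow, h1]
  have h4 : k % 3 = 1 := by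
    have h5 : (ζ ^ 3 ^ n) ^ (k % 3) = (ζ ^ 3 ^ n) ^ 1 := by
      rw [← h3]
      conv_rhs => rw [← Nat.div_add_mod k 3, pow_add, pow_mul, hw0.pow_eq_one, one_pow, one_mul]
    exact hw0.pow_inj (Nat.mod_lt _ (by norm_num)) (by norm_num) h5
  apply hζ.autToPow_injective L
  rw [map_pow, map_one]
  ext
  have h6 := unit_pow n k h4
  rw [hk, ZMod.natCast_zmod_val] at h6
  rw [Units.val_pow_eq_pow_val, h6, Units.val_one]

theorem pow_neg (σ : Gal(T/L)) (x : T) (h : σ x = -x) (j : ℕ) : (σ ^ j) x = (-1) ^ j * x := by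
  induction j with
  | zero => simp
  | succ j ih =>
    rw [pow_succ, AlgEquiv.mul_apply, h, map_neg, ih, pow_succ]
    ring

theorem moved (n : ℕ) [IsCyclotomicExtension {3 ^ (n + 1)} L T] (x : T) (c : L) (hx : x ^ 2 = algebraMap L T c) (hc : ¬ IsSquare c) :
    ∃ σ : Gal(T/L), σ x = -x := by
  have : IsGalois L T := IsCyclotomicExtension.isGalois {3 ^ (n + 1)} L T
  have : FiniteDimensional L T := IsCyclotomicExtension.finiteDimensional {3 ^ (n + 1)} L T
  by_contra hn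
  have h1 : ∀ σ : Gal(T/L), σ x = x := by
    intro σ
    have h2 : (σ x) ^ 2 = x ^ 2 := by rw [← map_pow, hx, AlgEquiv.commutes]
    rcases sq_eq_sq_iff_eq_or_eq_neg.1 h2 with h3 | h3
    · exact h3
    · exact absurd ⟨σ, h3⟩ hn
  obtain ⟨y, hy⟩ := (IsGalois.mem_range_algebraMap_iff_fixed x).2 h1
  refine hc ⟨y, (algebraMap L T).injective ?_⟩
  rw [map_mul, hy, ← hx, sq]

/-- `i` is not in `T` -/
theorem no_i (n : ℕ) [IsCyclotomicExtension {3 ^ (n + 1)} L T] (h1 : ¬ IsSquare (-1 : L)) (h3 : ¬ IsSquare (3 : L)) (x : T) :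
    ¬ IsPrimitiveRoot x 4 := by
  intro hx
  have hi : x ^ 2 = -1 := (hx.pow (by norm_num) (by norm_num : 4 = 2 * 2)).eq_neg_one_of_two_right
  have hx0 : x ≠ 0 := hx.ne_zero (by norm_num)
  obtain ⟨w, hw⟩ := ex_w L T n
  have hw1 : w ^ 2 + w + 1 = 0 := by
    have := hw.isRoot_cyclotomic (by norm_num)
    rw [cyclotomic_three] at this
    simpa using this
  have hs : (2 * w + 1) ^ 2 = -3 := by linear_combination 4 * hw1
  have hs0 : 2 * w + 1 ≠ 0 := fun e => by rw [e] at hs; norm_num at hs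
  have key : ∀ σ : Gal(T/L), σ (2 * w + 1) = 2 * w + 1 → σ x = x := by
    intro σ hσ
    have h4 : σ w = w := by
      rw [map_add, map_mul, map_one, map_ofNat] at hσ
      have : (2 : T) * (σ w - w) = 0 := by linear_combination hσ
      exact sub_eq_zero.1 ((mul_eq_zero.1 this).resolve_left two_ne_zero)
    have h5 := pow_one_of_fix (n := n) hw σ h4
    have h2 : (σ x) ^ 2 = x ^ 2 := by rw [← map_pow, hi, map_neg, map_one]
    rcases sq_eq_sq_iff_eq_or_eq_neg.1 h2 with h6 | h6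
    · exact h6
    · have h7 := pow_neg σ x h6 (3 ^ n)
      rw [h5, Odd.neg_one_pow (Odd.pow (by decide)), AlgEquiv.one_apply] at h7
      have : (2 : T) * x = 0 := by linear_combination h7
      exact absurd ((mul_eq_zero.1 this).resolve_left two_ne_zero) hx0
  have sg : ∀ σ : Gal(T/L), σ (2 * w + 1) = 2 * w + 1 ∨ σ (2 * w + 1) = -(2 * w + 1) := by
    intro σ
    apply sq_eq_sq_iff_eq_or_eq_neg.1
    rw [← map_pow, hs, map_neg, map_ofNat]
  have neq : ∀ y : T, y ≠ 0 → y ≠ -y := by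
    intro y hy e
    have : (2 : T) * y = 0 := by linear_combination e
    exact hy ((mul_eq_zero.1 this).resolve_left two_ne_zero)
  obtain ⟨σ, hσ⟩ := moved n x (-1 : L) (by rw [hi, map_neg, map_one]) h1
  obtain ⟨τ, hτ⟩ := moved n (x * (2 * w + 1)) (3 : L)
    (by rw [mul_pow, hi, hs, map_ofNat]; norm_num) h3
  have a1 : σ (2 * w + 1) = -(2 * w + 1) := by
    rcases sg σ with h | h
    · exact absurd ((key σ h).symm.trans hσ) (neq x hx0)
    · exact h
  rw [map_mul] at hτ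
  have a2 : τ (2 * w + 1) = -(2 * w + 1) := by
    rcases sg τ with h | h
    · rw [h, key τ h] at hτ
      exact absurd hτ (neq _ (mul_ne_zero hx0 hs0))
    · exact h
  have a3 : τ x = x := by
    rw [a2] at hτ
    have : (τ x - x) * (2 * w + 1) = 0 := by linear_combination -hτ
    exact sub_eq_zero.1 ((mul_eq_zero.1 this).resolve_right hs0)
  have a4 := key (σ * τ) (by rw [AlgEquiv.mul_apply, a2, map_neg, a1, neg_neg])
  rw [AlgEquiv.mul_apply, a3, hσ] at a4
  exact neq x hx0 a4.symm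

theorem fr_dvd : Module.finrank L T ∣ Nat.totient (3 ^ (n + 1)) := by
  have hζ := IsCyclotomicExtension.zeta_spec (3 ^ (n + 1)) L T
  have : IsGalois L T := IsCyclotomicExtension.isGalois {3 ^ (n + 1)} L T
  have : FiniteDimensional L T := IsCyclotomicExtension.finiteDimensional {3 ^ (n + 1)} L T
  have h := Subgroup.card_dvd_of_injective _ (hζ.autToPow_injective L)
  rwa [IsGalois.card_aut_eq_finrank, Nat.card_eq_fintype_card, ZMod.card_units_eq_totient] at h

theorem tot (n : ℕ) : Nat.totient (3 ^ (n + 1)) = 3 ^ n * 2 := by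
  rw [Nat.totient_prime_pow_succ Nat.prime_three]

theorem fr_le (w : L) (hw : IsPrimitiveRoot w 3) : Module.finrank L T ≤ 3 ^ n := by
  have : IsGalois L T := IsCyclotomicExtension.isGalois {3 ^ (n + 1)} L T
  have : FiniteDimensional L T := IsCyclotomicExtension.finiteDimensional {3 ^ (n + 1)} L T
  have : Fact (Nat.Prime 3) := ⟨Nat.prime_three⟩
  have h1 : IsPGroup 3 Gal(T/L) := fun σ =>
    ⟨n, pow_one_of_fix (hw.map_of_injective (algebraMap L T).injective) σ (σ.commutes w)⟩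
  obtain ⟨j, hj⟩ := IsPGroup.iff_card.1 h1
  rw [IsGalois.card_aut_eq_finrank] at hj
  have h2 := fr_dvd (L := L) (T := T) (n := n)
  rw [tot, hj] at h2
  rw [hj]
  exact Nat.le_of_dvd (by positivity)
    (Nat.Coprime.dvd_of_dvd_mul_right (Nat.Coprime.pow_left j (by norm_num)) h2)

end Gal

section Chr

variable {L : Type} [Field L] [NumberField L] {N : ℕ}

theorem chi_norm (χ : DirichletCharacter ℂ N)
    (h : ∀ v : Pr L, (3 : 𝓞 L) ∉ v.asIdeal → χ (Nr v : ℕ) = 1) (I : Ideal (𝓞 L)) :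
    I ≠ 0 → IsCoprime I (Ideal.span {(3 : 𝓞 L)}) → χ (Ideal.absNorm I : ℕ) = 1 := by
  induction I using UniqueFactorizationMonoid.induction_on_prime with
  | h₁ => exact fun h0 => absurd rfl h0
  | h₂ I hI =>
    intro _ _
    rw [Ideal.isUnit_iff.1 hI, Ideal.absNorm_top, Nat.cast_one, map_one]
  | h₃ I P hI hP ih =>
    intro _ hc
    have hP' : P.IsPrime := Ideal.isPrime_of_prime hP
    have h1 := h ⟨P, hP', hP.ne_zero⟩ (by
      intro h3
      have h4 := hc.of_mul_left_left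
      rw [Ideal.isCoprime_iff_sup_eq, sup_eq_left.2 ((Ideal.span_singleton_le_iff_mem _).2 h3)]
        at h4
      exact hP'.ne_top h4)
    rw [map_mul, Nat.cast_mul, map_mul, ih hI hc.of_mul_left_right, mul_one]
    exact h1

theorem chi_four (hL : Module.finrank ℚ L = 4) (χ : DirichletCharacter ℂ N)
    (h : ∀ v : Pr L, (3 : 𝓞 L) ∉ v.asIdeal → χ (Nr v : ℕ) = 1) (a : ℕ) (ha : a % 3 ≠ 0) :
    χ a ^ 4 = 1 := by
  have ha0 : (a : 𝓞 L) ≠ 0 := by
    have : a ≠ 0 := by rintro rfl; exact ha rfl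
    exact_mod_cast this
  have h1 := chi_norm χ h (Ideal.span {(a : 𝓞 L)})
    (by rw [Ne, Submodule.zero_eq_bot, Ideal.span_singleton_eq_bot]; exact ha0) (by
      rw [Ideal.isCoprime_span_singleton_iff]
      have h2 : Nat.Coprime a 3 := by
        rw [Nat.coprime_comm, Nat.Prime.coprime_iff_not_dvd Nat.prime_three]
        omega
      have := h2.cast (R := 𝓞 L)
      simpa using this)
  have h2 : Ideal.absNorm (Ideal.span {(a : 𝓞 L)}) = a ^ 4 := by
    rw [Ideal.absNorm_span_singleton]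
    have : (a : 𝓞 L) = algebraMap ℤ (𝓞 L) (a : ℤ) := by simp
    rw [this, Algebra.norm_algebraMap, RingOfIntegers.rank, hL]
    simp
  rwa [h2, Nat.cast_pow, map_pow] at h1

theorem chi_one (hL : Module.finrank ℚ L = 4) {n : ℕ} (χ : DirichletCharacter ℂ (3 ^ (n + 1)))
    (h : ∀ v : Pr L, (3 : 𝓞 L) ∉ v.asIdeal → χ (Nr v : ℕ) = 1) (a : ℕ) (ha : a % 3 = 1) :
    χ a = 1 := by
  have h1 := chi_four hL χ h a (by omega)
  have h2 : χ a ^ 3 ^ n = 1 := by rw [← map_pow, unit_pow n a ha, map_one]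
  have h3 := pow_gcd_eq_one.2 ⟨h1, h2⟩
  rwa [(Nat.Coprime.pow_right n (by norm_num : Nat.Coprime 4 3)).gcd_eq_one, pow_one] at h3

theorem unit_val {n : ℕ} (u : (ZMod (3 ^ (n + 1)))ˣ) : (u : ZMod (3 ^ (n + 1))).val % 3 ≠ 0 := by
  intro e
  have h1 := ZMod.val_coe_unit_coprime u
  have h2 : 3 ∣ Nat.gcd (u : ZMod (3 ^ (n + 1))).val (3 ^ (n + 1)) :=
    Nat.dvd_gcd (by omega) (dvd_pow_self 3 (by omega))
  rw [h1.gcd_eq_one] at h2
  omega

/-- the characters are determined by one value -/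
theorem chi_ext (hL : Module.finrank ℚ L = 4) {n : ℕ}
    (χ χ' : DirichletCharacter ℂ (3 ^ (n + 1)))
    (h : ∀ v : Pr L, (3 : 𝓞 L) ∉ v.asIdeal → χ (Nr v : ℕ) = 1)
    (h' : ∀ v : Pr L, (3 : 𝓞 L) ∉ v.asIdeal → χ' (Nr v : ℕ) = 1) (b : ℕ) (hb : b % 3 = 2)
    (e : χ b = χ' b) : χ = χ' := by
  ext u
  have h1 := unit_val u
  rw [← ZMod.natCast_zmod_val (u : ZMod (3 ^ (n + 1)))]
  set a := (u : ZMod (3 ^ (n + 1))).val
  by_cases h2 : a % 3 = 1
  · rw [chi_one hL χ h a h2, chi_one hL χ' h' a h2]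
  · have h3 : (a * b) % 3 = 1 := by
      have : a % 3 = 2 := by omega
      rw [Nat.mul_mod, this, hb]
    have h4 := chi_one hL χ h _ h3
    have h5 := chi_one hL χ' h' _ h3
    rw [Nat.cast_mul, map_mul] at h4 h5
    rw [← e] at h5
    have h6 : χ b ≠ 0 := fun z => by rw [z, mul_zero] at h4; exact zero_ne_one h4
    exact mul_right_cancel₀ h6 (h4.trans h5.symm)

theorem card_two (hL : Module.finrank ℚ L = 4) (n : ℕ) :
    Nat.card {χ : DirichletCharacter ℂ (3 ^ (n + 1)) //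
      ∀ v : Pr L, (3 : 𝓞 L) ∉ v.asIdeal → χ (Nr v : ℕ) = 1} ≤ 2 := by
  classical
  have h := Nat.card_le_card_of_injective (α := {χ : DirichletCharacter ℂ (3 ^ (n + 1)) //
      ∀ v : Pr L, (3 : 𝓞 L) ∉ v.asIdeal → χ (Nr v : ℕ) = 1}) (β := Bool)
    (fun χ => decide (χ.1 (2 : ℕ) = 1)) (by
      intro χ χ' e
      have sq : ∀ ψ : {χ : DirichletCharacter ℂ (3 ^ (n + 1)) //
          ∀ v : Pr L, (3 : 𝓞 L) ∉ v.asIdeal → χ (Nr v : ℕ) = 1},
          ψ.1 (2 : ℕ) = 1 ∨ ψ.1 (2 : ℕ) = -1 := by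
        intro ψ
        have h1 := chi_one hL ψ.1 ψ.2 (2 * 2) (by norm_num)
        rw [Nat.cast_mul, map_mul] at h1
        exact mul_self_eq_one_iff.1 h1
      have e' : χ.1 (2 : ℕ) = 1 ↔ χ'.1 (2 : ℕ) = 1 := decide_eq_decide.1 e
      refine Subtype.ext (chi_ext hL _ _ χ.2 χ'.2 2 (by norm_num) ?_)
      rcases sq χ with h1 | h1
      · rw [h1, e'.1 h1]
      · rcases sq χ' with h2 | h2
        · rw [h2, e'.2 h2]
        · rw [h1, h2])
  simpa using h

theorem card_one (hL : Module.finrank ℚ L = 4) (n : ℕ) (v : Pr L) (hv : (3 : 𝓞 L) ∉ v.asIdeal)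
    (h2 : Nr v % 3 = 2) :
    Nat.card {χ : DirichletCharacter ℂ (3 ^ (n + 1)) //
      ∀ v : Pr L, (3 : 𝓞 L) ∉ v.asIdeal → χ (Nr v : ℕ) = 1} ≤ 1 := by
  have h := Nat.card_le_card_of_injective (α := {χ : DirichletCharacter ℂ (3 ^ (n + 1)) //
      ∀ v : Pr L, (3 : 𝓞 L) ∉ v.asIdeal → χ (Nr v : ℕ) = 1}) (β := Unit) (fun _ => ()) (by
      intro χ χ' _
      exact Subtype.ext (chi_ext hL _ _ χ.2 χ'.2 (Nr v) h2 (by rw [χ.2 v hv, χ'.2 v hv])))
  simpa using h

end Chr

theorem P1_univ (K : Type) [Field K] [NumberField K] (s : ℝ) :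
    P1 K Set.univ s = ∑' p : ℕ, if p.Prime then (aK K p : ℝ) * (p : ℝ) ^ (-s) else 0 := by
  simp only [P1, Set.indicator_univ]

/-- not all primes split completely -/
theorem not_split (hZ : Z1) (K L : Type) [Field K] [NumberField K] [Field L] [NumberField L]
    (h : ∀ p : ℕ, p.Prime → 3 < p → aK L p = 2 * aK K p) : False := by
  obtain ⟨hK, C, hC⟩ := hZ K
  obtain ⟨hL, C', hC'⟩ := hZ L
  have key : ∀ s : ℝ, 1 < s → 2 * P1 K Set.univ s - P1 L Set.univ s ≤
      ∑ p ∈ Finset.range 4, 2 * (aK K p : ℝ) := by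
    intro s hs
    rw [P1_univ, P1_univ, ← tsum_mul_left,
      ← Summable.tsum_sub ((hK s hs).2.mul_left 2) (hL s hs).2, tsum_eq_sum (s := Finset.range 4)]
    · refine Finset.sum_le_sum fun p _ => ?_
      split_ifs with hp
      · have h1 : (p : ℝ) ^ (-s) ≤ 1 :=
          Real.rpow_le_one_of_one_le_of_nonpos (by exact_mod_cast hp.one_lt.le) (by linarith)
        have h2 : (0 : ℝ) ≤ (p : ℝ) ^ (-s) := by positivity
        have h3 : (0 : ℝ) ≤ (aK K p : ℝ) := by positivity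
        have h4 : (0 : ℝ) ≤ (aK L p : ℝ) := by positivity
        nlinarith [mul_nonneg h4 h2, mul_le_mul_of_nonneg_left h1 h3]
      · have h3 : (0 : ℝ) ≤ (aK K p : ℝ) := by positivity
        linarith
    · intro p hp
      rw [Finset.mem_range] at hp
      split_ifs with hp'
      · rw [h p hp' (by omega)]
        push_cast
        ring
      · simp
  have t1 : Tendsto (fun s : ℝ => Real.log (1 / (s - 1))) (𝓝[>] 1) atTop := by
    refine Real.tendsto_log_atTop.comp ?_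
    simp only [one_div]
    refine tendsto_inv_nhdsGT_zero.comp ?_
    refine tendsto_nhdsWithin_iff.2 ⟨?_, ?_⟩
    · have : Tendsto (fun s : ℝ => s - 1) (𝓝 1) (𝓝 (1 - 1)) :=
        (continuous_id.sub continuous_const).tendsto 1
      rw [sub_self] at this
      exact this.mono_left nhdsWithin_le_nhds
    · filter_upwards [self_mem_nhdsWithin] with s hs
      exact sub_pos.2 (Set.mem_Ioi.1 hs)
  have ev := (hC.and hC').and ((t1.eventually_gt_atTop
    (2 * C + C' + ∑ p ∈ Finset.range 4, 2 * (aK K p : ℝ))).and self_mem_nhdsWithin)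
  obtain ⟨s, ⟨⟨-, a1⟩, -, a2⟩, a3, a4⟩ := ev.exists
  have a5 := key s a4
  rw [abs_le] at a1 a2
  linarith [a1.1, a2.2]

/-- a prime of norm `2` modulo `3` -/
theorem ex_two (hZ : Z1) (L : Type) [Field L] [NumberField L]
    (hw : ∀ w : L, ¬ IsPrimitiveRoot w 3) :
    ∃ v : Pr L, (3 : 𝓞 L) ∉ v.asIdeal ∧ Nr v % 3 = 2 := by
  by_contra hn
  refine not_split hZ L (CyclotomicField 3 L) fun p hp h3 => ?_
  have hc : p.Coprime 3 := (Nat.coprime_primes hp Nat.prime_three).2 (by omega)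
  by_cases hd : 3 ∣ p - 1
  · rw [spl1 L (CyclotomicField 3 L) 3 p hp hd, fr2 L (CyclotomicField 3 L) 3 (by decide) hw]
  · rw [spl0 L (CyclotomicField 3 L) 3 p hp hc hd]
    have : aK L p = 0 := by
      rw [aK, Nat.card_eq_zero]
      left
      refine ⟨fun ⟨P, hP⟩ => hn ?_⟩
      have hP1 : P.IsPrime := Ideal.isPrime_of_irreducible_absNorm (hP ▸ (hp : Irreducible p))
      have hP0 : P ≠ ⊥ := fun e => hp.ne_zero (by rw [← hP, e, Ideal.absNorm_bot])
      have h4 : ¬ 3 ∣ p := (Nat.Prime.coprime_iff_not_dvd Nat.prime_three).1 hc.symm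
      refine ⟨⟨P, hP1, hP0⟩, fun h5 => ?_, ?_⟩
      · have h6 : (p : 𝓞 L) ∈ P := hP ▸ Ideal.absNorm_mem P
        obtain ⟨a, b, hab⟩ := hc.cast (R := 𝓞 L)
        apply hP1.ne_top
        rw [Ideal.eq_top_iff_one, ← hab]
        exact P.add_mem (P.mul_mem_left _ h6) (P.mul_mem_left _ (by exact_mod_cast h5))
      · show Ideal.absNorm P % 3 = 2
        rw [hP]
        omega
    rw [this]

end Cyc

open Cyc in
theorem cyc (hZ : Z1) : CYC := by
  intro L _ _ n hL h1 h3
  refine ⟨CyclotomicField (3 ^ (n + 1)) L, CyclotomicField 4 (CyclotomicField (3 ^ (n + 1)) L),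
    inferInstance, inferInstance, inferInstance, inferInstance,
    Module.finrank L (CyclotomicField (3 ^ (n + 1)) L), fun p hp hp3 => ?_, ?_⟩
  · have hc : p.Coprime (3 ^ (n + 1)) :=
      Nat.Coprime.pow_right _ ((Nat.coprime_primes hp Nat.prime_three).2 (by omega))
    refine ⟨fun h4 => ?_, ?_, fun hd => spl0 L _ _ p hp hc hd⟩
    · rw [spl1 (CyclotomicField (3 ^ (n + 1)) L) _ 4 p hp (by omega),
        fr2 (CyclotomicField (3 ^ (n + 1)) L) _ 4 (by decide) (no_i n h1 h3)]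
    · by_cases hd : 3 ^ (n + 1) ∣ p - 1
      · rw [spl1 L _ _ p hp hd]
      · rw [spl0 L _ _ p hp hc hd]
        exact Nat.zero_le _
  · by_cases hw : ∃ w : L, IsPrimitiveRoot w 3
    · obtain ⟨w, hw⟩ := hw
      rw [tot]
      exact Nat.mul_le_mul (fr_le w hw) (card_two hL n)
    · obtain ⟨v, hv, h2⟩ := ex_two hZ L fun w h => hw ⟨w, h⟩
      refine (Nat.mul_le_mul (Nat.le_of_dvd (by rw [tot]; positivity) (fr_dvd (n := n)))
        (card_one hL n v hv h2)).trans ?_
      rw [mul_one]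

end Vale.Agent.P027M.S
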