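import Vale.Agent.P027M.S.Defs
import Vale.Agent.P016Z.Cheb.ExpLog

/-!
# P027, route M, block S: the Euler product and the pole of the zeta function
-/

set_option linter.all false

noncomputable section

namespace Vale.Agent.P027M.S

open NumberField IsDedekindDomain Filter Topology Polynomial
open Vale.Agent.P022 Vale.Agent.P022.C Vale.Agent.P016Z

namespace Eul

open EP

variable {K : Type} [Field K] [NumberField K]

/-- the weight of a prime -/
def fv (θ : Ideal (𝓞 K) →* ℂ) (s : ℝ) (v : Pr K) : ℂ :=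
  θ v.asIdeal * (Nv v : ℂ) ^ (-(s : ℂ))

theorem gw_fv (θ : Ideal (𝓞 K) →* ℂ) (s : ℝ) (m : Multiset (Pr K)) :
    gw (fv θ s) m = θ (m.map HeightOneSpectrum.asIdeal).prod * (EP.Nm m : ℂ) ^ (-(s : ℂ)) := by
  induction m using Multiset.induction_on with
  | empty =>
    rw [gw_zero, Multiset.map_zero, Multiset.prod_zero, map_one, EP.Nm, Multiset.map_zero,
      Multiset.prod_zero, Nat.cast_one, Complex.one_cpow, mul_one]
  | cons v m ih =>
    have h : EP.Nm (v ::ₘ m) = Nv v * EP.Nm m := by simp [EP.Nm]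
    rw [gw_cons, ih, h, Multiset.map_cons, Multiset.prod_cons, map_mul, fv, Nat.cast_mul,
      Complex.natCast_mul_natCast_cpow]
    ring

theorem norm_le_aux {a : ℂ} (ha : ‖a‖ ≤ 1) {n : ℕ} (hn : 0 < n) (s : ℝ) :
    ‖a * (n : ℂ) ^ (-(s : ℂ))‖ ≤ (n : ℝ) ^ (-s) := by
  rw [norm_mul, norm_natCast_cpow_neg hn, Complex.ofReal_re]
  exact mul_le_of_le_one_left (by positivity) ha

theorem summable_Nm {s : ℝ} (hs : 1 < s) :
    Summable fun m : Multiset (Pr K) => (EP.Nm m : ℝ) ^ (-s) :=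
  summable_multiset (E := K) (F := fun n => (n : ℝ) ^ (-s)) (fun n => by positivity)
    (summable_aK K hs)

theorem summable_Nv {s : ℝ} (hs : 1 < s) : Summable fun v : Pr K => (Nv v : ℝ) ^ (-s) := by
  have h2 : Function.Injective (fun v : Pr K => ({v} : Multiset _)) :=
    fun a b h => Multiset.singleton_inj.mp h
  refine ((summable_Nm (K := K) hs).comp_injective h2).congr fun v => ?_
  simp [EP.Nm]

theorem summable_gw_fv {θ : Ideal (𝓞 K) →* ℂ} (hθ : ∀ I, ‖θ I‖ ≤ 1) {s : ℝ} (hs : 1 < s) :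
    Summable fun m : Multiset (Pr K) => ‖gw (fv θ s) m‖ := by
  refine Summable.of_nonneg_of_le (fun m => norm_nonneg _) (fun m => ?_) (summable_Nm hs)
  rw [gw_fv]
  exact norm_le_aux (hθ _) (Nm_pos m) s

theorem LI_eq (θ : Ideal (𝓞 K) →* ℂ) (s : ℝ) :
    LI θ s = ∑' m : Multiset (Pr K), gw (fv θ s) m := by
  rw [LI, ← (idealEquiv K).tsum_eq]
  refine tsum_congr fun m => ?_
  rw [gw_fv, absNorm_idealEquiv]
  rfl

theorem re_fv (θ : Ideal (𝓞 K) →* ℂ) (s : ℝ) (v : Pr K) :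
    (fv θ s v).re = (θ v.asIdeal).re * (Nv v : ℝ) ^ (-s) := by
  have h : (Nv v : ℂ) ^ (-(s : ℂ)) = (((Nv v : ℝ) ^ (-s) : ℝ) : ℂ) := by
    rw [Complex.ofReal_cpow (Nat.cast_nonneg _)]
    push_cast
    rfl
  rw [fv, h, Complex.re_mul_ofReal]

theorem Nv_le {s : ℝ} (hs : 1 < s) (v : Pr K) : (Nv v : ℝ) ^ (-s) ≤ (Nv v : ℝ)⁻¹ := by
  rw [← Real.rpow_neg_one]
  exact Real.rpow_le_rpow_of_exponent_le (by exact_mod_cast Nv_pos v) (by linarith)

theorem log_bound {z : ℂ} (hz : ‖z‖ ≤ 1 / 2) : |z.re + Real.log ‖1 - z‖| ≤ ‖z‖ ^ 2 := by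
  have h2 := Complex.norm_log_one_add_sub_self_le (z := -z) (by rw [norm_neg]; linarith)
  rw [norm_neg, sub_neg_eq_add, ← sub_eq_add_neg] at h2
  have h3 : (1 - ‖z‖)⁻¹ ≤ 2 := by
    rw [inv_le_comm₀ (by linarith) (by norm_num)]
    linarith
  have h4 : ‖Complex.log (1 - z) + z‖ ≤ ‖z‖ ^ 2 := by
    refine h2.trans ?_
    nlinarith [sq_nonneg ‖z‖]
  refine le_trans ?_ h4
  have h5 : z.re + Real.log ‖1 - z‖ = (Complex.log (1 - z) + z).re := by
    rw [Complex.add_re, Complex.log_re, add_comm]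
  rw [h5]
  exact Complex.abs_re_le_norm _

/-- the constant -/
def cst (K : Type) [Field K] [NumberField K] : ℝ :=
  Module.finrank ℚ K * ∑' n : ℕ, 1 / (n : ℝ) ^ 2

theorem sum_le (T : Finset (Pr K)) : ∑ v ∈ T, 1 / (rc v : ℝ) ^ 2 ≤ cst K :=
  sum_rc_le (E := K) (g := fun n => 1 / (n : ℝ) ^ 2) (fun n => by positivity)
    hasSum_zeta_two.summable T

theorem term_le {θ : Ideal (𝓞 K) →* ℂ} (hθ : ∀ I, ‖θ I‖ ≤ 1) {s : ℝ} (hs : 1 < s) (v : Pr K) :
    |(fv θ s v).re + Real.log ‖1 - fv θ s v‖| ≤ 1 / (rc v : ℝ) ^ 2 := by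
  have h1 : ‖fv θ s v‖ ≤ (Nv v : ℝ)⁻¹ := (norm_le_aux (hθ _) (Nv_pos v) s).trans (Nv_le hs v)
  have hr : (0 : ℝ) < rc v := by exact_mod_cast (rc_prime v).pos
  have h2 : ‖fv θ s v‖ ≤ (rc v : ℝ)⁻¹ :=
    h1.trans (inv_anti₀ hr (by exact_mod_cast rc_le_Nv v))
  have h3 : ‖fv θ s v‖ ≤ 1 / 2 := by
    rw [one_div]
    exact h1.trans (inv_anti₀ two_pos (by exact_mod_cast two_le_Nv v))
  refine (log_bound h3).trans ?_
  rw [one_div, ← inv_pow]
  exact pow_le_pow_left₀ (norm_nonneg _) h2 2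

theorem main {θ : Ideal (𝓞 K) →* ℂ} (hθ : ∀ I, ‖θ I‖ ≤ 1) {s : ℝ} (hs : 1 < s) :
    LI θ s ≠ 0 ∧ |PI (fun v : Pr K => (θ v.asIdeal).re) s - Real.log ‖LI θ s‖| ≤ cst K := by
  classical
  have hg := summable_gw_fv hθ hs
  have h0 : LI θ s ≠ 0 := by
    rw [LI_eq]
    exact tsum_gw_ne_zero hg
  refine ⟨h0, ?_⟩
  have h1 : Summable fun v : Pr K => (fv θ s v).re := by
    refine Summable.of_norm_bounded (summable_Nv hs) fun v => ?_
    exact (Complex.abs_re_le_norm _).trans (norm_le_aux (hθ _) (Nv_pos v) s)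
  have h2 : PI (fun v : Pr K => (θ v.asIdeal).re) s = ∑' v : Pr K, (fv θ s v).re :=
    tsum_congr fun v => (re_fv θ s v).symm
  have h3 : Tendsto (fun S : Finset (Pr K) => ∑ v ∈ S, (fv θ s v).re) atTop
      (𝓝 (∑' v : Pr K, (fv θ s v).re)) := h1.hasSum
  have h4 := tendsto_prod hg
  rw [← LI_eq] at h4
  have h5 := h4.norm.log (norm_ne_zero_iff.mpr (inv_ne_zero h0))
  rw [norm_inv, Real.log_inv] at h5
  have h6 := (h3.add h5).abs
  rw [← sub_eq_add_neg, ← h2] at h6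
  refine le_of_tendsto' h6 fun S => ?_
  rw [norm_prod, Real.log_prod (fun v _ => norm_ne_zero_iff.mpr (one_sub_ne_zero hg v)),
    ← Finset.sum_add_distrib]
  refine (Finset.abs_sum_le_sum_abs _ _).trans ?_
  exact (Finset.sum_le_sum fun v _ => term_le hθ hs v).trans (sum_le S)

theorem LI_one {s : ℝ} (hs : 1 < s) :
    LI (1 : Ideal (𝓞 K) →* ℂ) s = dedekindZeta K s := by
  have h1 := Lf_eq (E := K) (χ := (1 : ℕ →* ℂ)) (fun n => by simp) (s := (s : ℂ))
    (by simpa using hs)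
  have h2 : fw (E := K) (1 : ℕ →* ℂ) (s : ℂ) = fv (1 : Ideal (𝓞 K) →* ℂ) s := by
    funext v
    rw [fw, fv, MonoidHom.one_apply, MonoidHom.one_apply]
  rw [LI_eq, ← h2, ← h1, LK, dedekindZeta]
  congr 1
  funext n
  rw [MonoidHom.one_apply, one_mul, aK]

theorem summable_P1 {s : ℝ} (hs : 1 < s) :
    Summable fun p : ℕ => if p.Prime then (aK K p : ℝ) * (p : ℝ) ^ (-s) else 0 := by
  refine Summable.of_nonneg_of_le (fun n => ?_) (fun n => ?_) (summable_aK K hs)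
  · split_ifs <;> positivity
  · by_cases hn : n.Prime
    · rw [if_pos hn, if_neg hn.ne_zero]
    · rw [if_neg hn]
      split_ifs <;> positivity

theorem P1_eq {s : ℝ} (hs : 1 < s) :
    P1 K Set.univ s = ∑' v : Pr K, if (Nv v).Prime then (Nv v : ℝ) ^ (-s) else 0 := by
  have h0 : Summable fun v : Pr K => if (Nv v).Prime then (Nv v : ℝ) ^ (-s) else 0 := by
    refine Summable.of_nonneg_of_le (fun v => ?_) (fun v => ?_) (summable_Nv hs)
    · split_ifs <;> positivity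
    · split_ifs
      · exact le_rfl
      · positivity
  have h1 := tsum_Nv (E := K)
    (F := fun n => ((if n.Prime then (n : ℝ) ^ (-s) else 0 : ℝ) : ℂ))
    (fun n hn => by rw [if_neg hn, Complex.ofReal_zero]) (Complex.summable_ofReal.mpr h0)
  apply Complex.ofReal_injective
  rw [Complex.ofReal_tsum, h1, P1, Complex.ofReal_tsum]
  refine tsum_congr fun n => ?_
  rw [Set.indicator_univ]
  split_ifs
  · push_cast
    rfl
  · rw [Complex.ofReal_zero, mul_zero]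

theorem diff_le {s : ℝ} (hs : 1 < s) :
    |PI (fun _ : Pr K => 1) s - P1 K Set.univ s| ≤ cst K := by
  have h0 : Summable fun v : Pr K => if (Nv v).Prime then (Nv v : ℝ) ^ (-s) else 0 := by
    refine Summable.of_nonneg_of_le (fun v => ?_) (fun v => ?_) (summable_Nv hs)
    · split_ifs <;> positivity
    · split_ifs
      · exact le_rfl
      · positivity
  have h1 : PI (fun _ : Pr K => 1) s = ∑' v : Pr K, (Nv v : ℝ) ^ (-s) :=
    tsum_congr fun v => one_mul _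
  have h2 : Tendsto (fun S : Finset (Pr K) => ∑ v ∈ S, ((Nv v : ℝ) ^ (-s) -
      if (Nv v).Prime then (Nv v : ℝ) ^ (-s) else 0)) atTop (𝓝 _) :=
    ((summable_Nv (K := K) hs).hasSum.sub h0.hasSum)
  rw [h1, P1_eq hs]
  refine le_of_tendsto' h2.abs fun S => ?_
  refine (Finset.abs_sum_le_sum_abs _ _).trans ?_
  refine (Finset.sum_le_sum fun v _ => ?_).trans (sum_le S)
  have hr : (0 : ℝ) < rc v := by exact_mod_cast (rc_prime v).pos
  split_ifs with hp
  · rw [sub_self, abs_zero]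
    positivity
  · rw [sub_zero, abs_of_nonneg (by positivity), one_div]
    refine (Nv_le hs v).trans (inv_anti₀ (by positivity) ?_)
    exact_mod_cast Nat.minFac_sq_le_self (Nv_pos v) hp

end Eul

theorem eul : EUL := fun K _ _ => ⟨Eul.cst K, fun _ hθ _ hs => Eul.main hθ hs⟩

theorem z1 : Z1 := by
  intro K _ _
  refine ⟨fun s hs => ⟨Eul.summable_Nv hs, Eul.summable_P1 hs⟩, ?_⟩
  have hr := dedekindZeta_residue_pos K
  have h1 := (tendsto_sub_one_mul_dedekindZeta_nhdsGT K).norm.log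
    (by rw [Complex.norm_real]; exact norm_ne_zero_iff.mpr hr.ne')
  set l : ℝ := Real.log ‖((dedekindZeta_residue K : ℝ) : ℂ)‖ with hl
  have h2 := h1.abs.eventually (eventually_le_nhds (lt_add_one |l|))
  refine ⟨2 * Eul.cst K + (|l| + 1), ?_⟩
  filter_upwards [h2, self_mem_nhdsWithin] with s h3 hs
  have hs' : 1 < s := hs
  obtain ⟨h4, h5⟩ := Eul.main (θ := (1 : Ideal (𝓞 K) →* ℂ)) (fun I => by simp) hs'
  have h6 := Eul.diff_le (K := K) hs'
  have h7 : PI (fun v : Pr K => ((1 : Ideal (𝓞 K) →* ℂ) v.asIdeal).re) s =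
      PI (fun _ : Pr K => 1) s := rfl
  rw [h7, Eul.LI_one hs'] at h5
  rw [Eul.LI_one hs'] at h4
  have h8 : ‖((s : ℂ) - 1)‖ = s - 1 := by
    rw [← Complex.ofReal_one, ← Complex.ofReal_sub, Complex.norm_real, Real.norm_eq_abs,
      abs_of_pos (by linarith)]
  rw [norm_mul, h8, Real.log_mul (by linarith) (norm_ne_zero_iff.mpr h4)] at h3
  rw [one_div, Real.log_inv]
  have h9 : 0 ≤ Eul.cst K := (abs_nonneg _).trans h6
  rw [abs_le] at h3 h5 h6
  constructor
  · rw [abs_le]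
    constructor <;> linarith [h3.1, h3.2, h5.1, h5.2]
  · rw [abs_le]
    constructor <;> linarith [h3.1, h3.2, h5.1, h5.2, h6.1, h6.2]

end Vale.Agent.P027M.S
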