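import Vale.Agent.P027M.S.Defs

/-!
# P027, route M, block S: the Eisenstein field
-/

set_option linter.all false

noncomputable section

namespace Vale.Agent.P027M.S

open NumberField IsDedekindDomain Polynomial WithZero
open Vale.Agent.P022

namespace Gen

variable {L : Type} [Field L] [NumberField L]

theorem val_int (v : Pr L) (r : 𝓞 L) : v.valuation L (r : L) = v.intValuation r :=
  HeightOneSpectrum.valuation_of_algebraMap v r

theorem over3 {e : ℕ} {c : ℤ} {β : L} (he : 0 < e) (h3 : 3 ∣ c) (h9 : ¬ 9 ∣ c) (hβ : β ^ e = c)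
    (hn : Module.finrank ℚ L ≤ e) (v : Pr L) (hv : (3 : 𝓞 L) ∈ v.asIdeal) :
    v.valuation L β = exp (-1) ∧ v.valuation L 3 = exp (-(e : ℤ)) ∧ Nr v = 3 ∧
      Module.finrank ℚ L = e ∧ Ideal.span {(3 : 𝓞 L)} = v.asIdeal ^ e := by
  obtain ⟨c', rfl⟩ := h3
  have h3' : ¬ (3 : ℤ) ∣ c' := fun ⟨k, hk⟩ => h9 ⟨k, by rw [hk]; ring⟩
  have cop : IsCoprime (3 : ℤ) c' := (Int.prime_three.irreducible.coprime_iff_not_dvd).2 h3'
  have hc : ((c' : ℤ) : 𝓞 L) ∉ v.asIdeal := by
    intro h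
    obtain ⟨a, b, hab⟩ := cop
    apply v.isPrime.ne_top
    rw [Ideal.eq_top_iff_one]
    have : ((a : 𝓞 L) * 3 + (b : 𝓞 L) * (c' : 𝓞 L)) = 1 := by exact_mod_cast congrArg (Int.cast : ℤ → 𝓞 L) hab
    rw [← this]
    exact add_mem (Ideal.mul_mem_left _ _ hv) (Ideal.mul_mem_left _ _ h)
  have v3 : v.valuation L 3 = v.intValuation 3 := val_int v 3
  have vc : v.valuation L (c' : L) = 1 := by
    have := val_int v ((c' : ℤ) : 𝓞 L)
    rw [HeightOneSpectrum.intValuation_eq_one_iff.2 hc] at this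
    simpa using this
  have h1 : v.valuation L β ^ e = v.valuation L 3 := by
    rw [← map_pow, hβ]
    push_cast
    rw [map_mul, vc, mul_one]
  have n3 : v.valuation L 3 ≠ 0 := by simp
  have nβ : v.valuation L β ≠ 0 := by
    intro h
    rw [h, zero_pow he.ne'] at h1
    exact n3 h1.symm
  have l3 : v.valuation L 3 < 1 := by
    rw [v3]
    exact (HeightOneSpectrum.intValuation_lt_one_iff_mem v 3).2 hv
  obtain ⟨m, hm⟩ : ∃ m : ℤ, v.valuation L β = exp (-m) :=
    ⟨-log (v.valuation L β), by rw [neg_neg, exp_log nβ]⟩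
  have h2 : v.valuation L 3 = exp (-((e : ℤ) * m)) := by
    rw [← h1, hm, ← exp_nsmul]
    congr 1
    simp
  have m0 : 0 < m := by
    rw [h2, ← exp_zero, exp_lt_exp] at l3
    by_contra h
    have : (e : ℤ) * m ≤ 0 := mul_nonpos_of_nonneg_of_nonpos (by positivity) (not_lt.1 h)
    omega
  obtain ⟨k, rfl⟩ := Int.eq_ofNat_of_zero_le m0.le
  have k0 : 0 < k := by exact_mod_cast m0
  have mem : (3 : 𝓞 L) ∈ v.asIdeal ^ (e * k) := by
    rw [← HeightOneSpectrum.intValuation_le_pow_iff_mem, ← v3, h2]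
    push_cast
    exact le_rfl
  have N3 : Ideal.absNorm (Ideal.span {(3 : 𝓞 L)}) = 3 ^ Module.finrank ℚ L := by
    have := Ideal.absNorm_span_natCast (S := 𝓞 L) 3
    rw [RingOfIntegers.rank] at this
    simpa using this
  have dv : Nr v ^ (e * k) ∣ 3 ^ Module.finrank ℚ L := by
    rw [← N3, ← map_pow]
    exact Ideal.absNorm_dvd_absNorm_of_le ((Ideal.span_singleton_le_iff_mem _).2 mem)
  obtain ⟨a, -, ha⟩ := (Nat.dvd_prime_pow Nat.prime_three).1
    ((dvd_pow_self (Nr v) (by positivity : e * k ≠ 0)).trans dv)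
  have a0 : 0 < a := by
    rcases Nat.eq_zero_or_pos a with h | h
    · rw [h, pow_zero] at ha
      exact absurd (Ideal.absNorm_eq_one_iff.1 ha) v.isPrime.ne_top
    · exact h
  rw [ha, ← pow_mul, Nat.pow_dvd_pow_iff_le_right (by norm_num)] at dv
  have ak : a * k ≤ 1 := by
    have : e * (a * k) ≤ e * 1 := by nlinarith
    exact Nat.le_of_mul_le_mul_left this he
  have a1 : a = 1 := by nlinarith
  have k1 : k = 1 := by nlinarith
  subst a1 k1
  have fr : Module.finrank ℚ L = e := by omega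
  refine ⟨by simpa using hm, by simpa using h2, by simpa using ha, fr, ?_⟩
  rw [mul_one] at mem
  obtain ⟨J, hJ⟩ := Ideal.dvd_span_singleton.2 mem
  have := congrArg Ideal.absNorm hJ
  rw [N3, map_mul, map_pow, fr] at this
  change _ = Nr v ^ e * _ at this
  rw [ha, pow_one] at this
  have J1 : Ideal.absNorm J = 1 := by
    have h : 3 ^ e * Ideal.absNorm J = 3 ^ e * 1 := by omega
    exact Nat.eq_of_mul_eq_mul_left (by positivity) h
  rw [hJ, Ideal.absNorm_eq_one_iff.1 J1, Ideal.mul_top]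

theorem ex3 : ∃ v : Pr L, (3 : 𝓞 L) ∈ v.asIdeal := by
  have N3 : Ideal.absNorm (Ideal.span {(3 : 𝓞 L)}) = 3 ^ Module.finrank ℚ L := by
    have := Ideal.absNorm_span_natCast (S := 𝓞 L) 3
    rw [RingOfIntegers.rank] at this
    simpa using this
  have ne : Ideal.span {(3 : 𝓞 L)} ≠ ⊤ := by
    intro h
    rw [h, Ideal.absNorm_top] at N3
    have := Module.finrank_pos (R := ℚ) (M := L)
    exact absurd N3.symm (Nat.one_lt_pow this.ne' (by norm_num)).ne'
  obtain ⟨P, hP⟩ := (HeightOneSpectrum.ideal_ne_top_iff_exists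
    (RingOfIntegers.not_isField L) _).1 ne
  exact ⟨P, (Ideal.span_singleton_le_iff_mem _).1 hP⟩

theorem res3 (p : Pr L) (hp : Nr p = 3) (x : L) (hx : p.valuation L x = 1) :
    p.valuation L (x - 1) < 1 ∨ p.valuation L (x + 1) < 1 := by
  obtain ⟨a, ha⟩ := HeightOneSpectrum.exists_valuation_sub_lt_of_integer p hx.le 1
  replace ha : p.valuation L ((a : L) - x) < 1 := ha
  have na : a ∉ p.asIdeal := by
    intro h
    have h1 : p.valuation L (a : L) < 1 := by
      rw [val_int]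
      exact (HeightOneSpectrum.intValuation_lt_one_iff_mem p a).2 h
    have := Valuation.map_sub_lt _ h1 ha
    rw [sub_sub_cancel, hx] at this
    exact lt_irrefl _ this
  have := p.isMaximal
  letI := Ideal.Quotient.field p.asIdeal
  have fin : Finite (𝓞 L ⧸ p.asIdeal) := (Ideal.absNorm_ne_zero_iff _).1 (by
    change Nr p ≠ 0
    omega)
  letI := Fintype.ofFinite (𝓞 L ⧸ p.asIdeal)
  have cd : Fintype.card (𝓞 L ⧸ p.asIdeal) = 3 := by
    rw [← Nat.card_eq_fintype_card, ← Submodule.cardQuot_apply]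
    exact hp
  have h2 := FiniteField.pow_card_sub_one_eq_one (Ideal.Quotient.mk p.asIdeal a)
    (fun h => na (Ideal.Quotient.eq_zero_iff_mem.1 h))
  rw [cd] at h2
  have h3 : (a - 1) * (a + 1) ∈ p.asIdeal := by
    rw [← Ideal.Quotient.eq_zero_iff_mem]
    simp only [map_mul, map_sub, map_add, map_one]
    linear_combination h2
  rcases p.isPrime.mem_or_mem h3 with h | h
  · left
    have h1 : p.valuation L ((a - 1 : 𝓞 L) : L) < 1 := by
      rw [val_int]
      exact (HeightOneSpectrum.intValuation_lt_one_iff_mem p _).2 h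
    have := Valuation.map_sub_lt _ h1 ha
    convert this using 2
    simp
  · right
    have h1 : p.valuation L ((a + 1 : 𝓞 L) : L) < 1 := by
      rw [val_int]
      exact (HeightOneSpectrum.intValuation_lt_one_iff_mem p _).2 h
    have := Valuation.map_sub_lt _ h1 ha
    convert this using 2
    simp
    ring

/-- the prime `σ⁻¹ v` -/
def cm (σ : L ≃+* L) (v : Pr L) : Pr L :=
  HeightOneSpectrum.comap (RingOfIntegers.mapRingEquiv σ : 𝓞 L →+* 𝓞 L)
    (RingOfIntegers.mapRingEquiv σ).surjective v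

theorem mem_cm (σ : L ≃+* L) (v : Pr L) (y : 𝓞 L) :
    y ∈ (cm σ v).asIdeal ↔ RingOfIntegers.mapRingEquiv σ y ∈ v.asIdeal := Iff.rfl

theorem mem_cm_pow (σ : L ≃+* L) (v : Pr L) (y : 𝓞 L) (n : ℕ) :
    y ∈ (cm σ v).asIdeal ^ n ↔ RingOfIntegers.mapRingEquiv σ y ∈ v.asIdeal ^ n := by
  have h : (cm σ v).asIdeal = v.asIdeal.map (RingOfIntegers.mapRingEquiv σ).symm :=
    (Ideal.map_symm (RingOfIntegers.mapRingEquiv σ)).symm
  rw [h, ← Ideal.map_pow, Ideal.map_symm]
  rfl

theorem le_of_pow (v w : Pr L) (x y : 𝓞 L)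
    (h : ∀ n : ℕ, y ∈ w.asIdeal ^ n → x ∈ v.asIdeal ^ n) (hy : y ≠ 0) :
    v.intValuation x ≤ w.intValuation y := by
  rw [w.intValuation_eq_exp_neg_multiplicity hy, HeightOneSpectrum.intValuation_le_pow_iff_mem]
  apply h
  rw [← HeightOneSpectrum.intValuation_le_pow_iff_mem, w.intValuation_eq_exp_neg_multiplicity hy]

theorem int_cm (σ : L ≃+* L) (v : Pr L) (y : 𝓞 L) :
    (cm σ v).intValuation y = v.intValuation (RingOfIntegers.mapRingEquiv σ y) := by
  by_cases hy : y = 0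
  · simp [hy]
  · refine le_antisymm (le_of_pow _ _ _ _ (fun n h => (mem_cm_pow σ v y n).2 h) ?_)
      (le_of_pow _ _ _ _ (fun n h => (mem_cm_pow σ v y n).1 h) hy)
    simpa using hy

theorem val_cm (σ : L ≃+* L) (v : Pr L) (y : L) :
    (cm σ v).valuation L y = v.valuation L (σ y) := by
  obtain ⟨a, s, hs, rfl⟩ := IsFractionRing.div_surjective (A := 𝓞 L) y
  rw [map_div₀, map_div₀, map_div₀]
  have e : ∀ r : 𝓞 L, (cm σ v).valuation L (algebraMap (𝓞 L) L r) =
      v.valuation L (σ (algebraMap (𝓞 L) L r)) := by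
    intro r
    rw [HeightOneSpectrum.valuation_of_algebraMap, int_cm, ← val_int]
    rfl
  rw [e, e]

theorem norm_cm (σ : L ≃+* L) (v : Pr L) : Nr (cm σ v) = Nr v := by
  have h : v.asIdeal = (cm σ v).asIdeal.map
      (RingOfIntegers.mapRingEquiv σ : 𝓞 L →+* 𝓞 L) :=
    (Ideal.map_comap_of_surjective _ (RingOfIntegers.mapRingEquiv σ).surjective _).symm
  exact Nat.card_congr (Ideal.quotientEquiv _ _ (RingOfIntegers.mapRingEquiv σ) h).toEquiv

theorem lev3 {e : ℕ} (j : L →+* Qb) (p : Pr L) (h3 : p.valuation L 3 = exp (-(e : ℤ)))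
    (hu : ∀ v : Pr L, (3 : 𝓞 L) ∈ v.asIdeal → v = p) (P : Ideal (𝓞 Qb)) (hP : P.IsPrime)
    (h : (3 : 𝓞 Qb) ∈ P) (x : L) (hx : p.valuation L (x - 1) = exp (-1)) : Lev P e (j x) := by
  have m3 : (3 : 𝓞 L) ∈ below j P := by
    change RingOfIntegers.mapRingHom j 3 ∈ P
    rw [map_ofNat]
    exact h
  have pr : (below j P).IsPrime := Ideal.comap_isPrime _ _
  have nb : below j P ≠ ⊥ := by
    intro e
    rw [e, Ideal.mem_bot] at m3
    norm_num at m3
  have ep : below j P = p.asIdeal := congrArg HeightOneSpectrum.asIdeal (hu ⟨_, pr, nb⟩ m3)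
  have v1 : p.valuation L ((x - 1) ^ e / 3) = 1 := by
    rw [map_div₀, map_pow, hx, h3, ← exp_nsmul]
    simp
  obtain ⟨n, ⟨d, hd⟩, hnd⟩ := HeightOneSpectrum.exists_primeCompl_mul_eq_of_integer p _ v1.le
  have hn : n ∉ p.asIdeal := by
    replace hnd : (x - 1) ^ e / 3 * (d : L) = (n : L) := hnd
    rw [← HeightOneSpectrum.intValuation_eq_one_iff, ← val_int, ← hnd, map_mul, v1, one_mul,
      val_int]
    exact HeightOneSpectrum.intValuation_eq_one_iff.2 hd
  refine ⟨RingOfIntegers.mapRingHom j d, RingOfIntegers.mapRingHom j n, ?_, ?_, ?_⟩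
  · intro hh
    exact hd (ep ▸ hh)
  · intro hh
    exact hn (ep ▸ hh)
  · have e1 : (d : L) * (x - 1) ^ e = 3 * (n : L) := by
      have : (x - 1) ^ e / 3 * (d : L) = (n : L) := hnd
      rw [← this]
      ring
    have := congrArg j e1
    simpa [map_ofNat] using this

theorem den_of (pb : PowerBasis ℚ L) (hi : IsIntegral ℤ pb.gen) :
    ∃ d : ℕ, d ≠ 0 ∧ ∀ x : 𝓞 L, ∃ f : ℤ[X], (d : L) * x = aeval pb.gen f := by
  have h1 : IsIntegral ℤ (Algebra.discr ℚ pb.basis) := by
    refine Algebra.discr_isIntegral ℚ fun i => ?_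
    rw [pb.coe_basis]
    exact hi.pow _
  obtain ⟨z, hz⟩ := IsIntegrallyClosed.isIntegral_iff.1 h1
  have z0 : z ≠ 0 := by
    rintro rfl
    exact Algebra.discr_not_zero_of_basis ℚ pb.basis (by rw [← hz]; simp)
  refine ⟨z.natAbs ^ 2, by positivity, fun x => ?_⟩
  have h2 := Algebra.discr_mul_isIntegral_mem_adjoin ℚ hi x.isIntegral_coe
  rw [Algebra.adjoin_singleton_eq_range_aeval] at h2
  obtain ⟨f, hf⟩ := h2
  refine ⟨C z * f, ?_⟩
  replace hf : aeval pb.gen f = Algebra.discr ℚ pb.basis • (x : L) := hf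
  rw [map_mul, hf, ← hz, Algebra.smul_def]
  have : ((z.natAbs ^ 2 : ℕ) : L) = (z : L) ^ 2 := by
    have : ((z.natAbs ^ 2 : ℕ) : ℤ) = z ^ 2 := by simp
    rw [← Int.cast_natCast, this, Int.cast_pow]
  rw [this]
  simp
  ring

theorem emb_of {e : ℕ} {c : ℤ} {b : Qb} (he : e = 2 ∨ e = 4) (h3 : 3 ∣ c) (h9 : ¬ 9 ∣ c)
    (j : L →+* Qb) (pb : PowerBasis ℚ L) (jb : j pb.gen = b) (hβ : pb.gen ^ e = c)
    (rg : ∀ y ∈ IntermediateField.adjoin ℚ {b}, ∃ x, j x = y) : ∃ D : Dat L, Emb e c b j D := by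
  have a1 : Algebra.IsAlgebraic ℚ Qb := AlgebraicClosure.isAlgebraic ℚ
  have a2 : IsAlgClosure ℚ Qb := ⟨inferInstance, inferInstance⟩
  have a3 : IsGalois ℚ Qb := IsAlgClosure.isGalois ℚ Qb
  have e0 : 0 < e := by omega
  have ev : Even e := by rcases he with rfl | rfl <;> decide
  have mo : (X ^ e - C (c : ℚ) : ℚ[X]).Monic := monic_X_pow_sub_C _ e0.ne'
  have rt : aeval pb.gen (X ^ e - C (c : ℚ) : ℚ[X]) = 0 := by simp [hβ]
  have hn : Module.finrank ℚ L ≤ e := by
    have := pb.dim_le_natDegree_of_root mo.ne_zero rt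
    rwa [natDegree_X_pow_sub_C, ← pb.finrank] at this
  obtain ⟨p, hp⟩ := ex3 (L := L)
  obtain ⟨p1, p2, p3, p4, p5⟩ := over3 e0 h3 h9 hβ hn p hp
  have hu : ∀ v : Pr L, (3 : 𝓞 L) ∈ v.asIdeal → v = p := by
    intro v hv
    have h1 : p.asIdeal ^ e ≤ v.asIdeal := by
      rw [← p5]
      exact (Ideal.span_singleton_le_iff_mem _).2 hv
    have := v.isPrime
    exact (HeightOneSpectrum.ext
      (p.isMaximal.eq_of_le v.isPrime.ne_top (Ideal.IsPrime.le_of_pow_le h1))).symm
  have mp : minpoly ℚ pb.gen = X ^ e - C (c : ℚ) := by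
    refine (eq_of_monic_of_dvd_of_natDegree_le (minpoly.monic pb.isIntegral_gen) mo
      (minpoly.dvd _ _ rt) ?_).symm
    rw [natDegree_X_pow_sub_C, pb.natDegree_minpoly, ← pb.finrank, p4]
  have rn : aeval (-pb.gen) (minpoly ℚ pb.gen) = 0 := by simp [mp, ev.neg_pow, hβ]
  let t0 : L →ₐ[ℚ] L := pb.lift (-pb.gen) rn
  have t1 : t0 pb.gen = -pb.gen := pb.lift_gen _ _
  have tt : t0.comp t0 = AlgHom.id ℚ L := pb.algHom_ext (by simp [t1])
  let τ : L ≃ₐ[ℚ] L := AlgEquiv.ofAlgHom t0 t0 tt tt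
  have τg : τ pb.gen = -pb.gen := t1
  have ττ : ∀ x, τ (τ x) = x := fun x => DFunLike.congr_fun tt x
  have mem : ∀ (v : Pr L) (x y : 𝓞 L), (y : L) = τ x →
      (y ∈ (cm (τ : L ≃+* L) v).asIdeal ↔ x ∈ v.asIdeal) := by
    intro v x y h
    have : RingOfIntegers.mapRingEquiv (τ : L ≃+* L) y = x := by
      ext
      change τ (y : L) = x
      rw [h, ττ]
    rw [mem_cm, this]
  let D : Dat L :=
    { τ := τ
      π := cm (τ : L ≃+* L)
      p := p
      b := pb.gen
      ττ := ττ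
      ππ := by
        intro v
        ext y
        rw [mem_cm]
        exact mem v y _ rfl
      val_π := by
        intro v x
        rw [val_cm]
        exact congrArg _ (ττ x)
      mem_π := mem
      norm_π := norm_cm _
      π_p := hu _ ((mem p 3 3 (map_ofNat τ 3).symm).2 hp)
      τ_b := τg
      val_b := p1
      three := fun v => ⟨hu v, fun h => h ▸ hp⟩
      ram := by
        rw [p2, exp_le_exp]
        omega
      res := res3 p p3 }
  have hi : IsIntegral ℤ pb.gen :=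
    ⟨X ^ e - C c, monic_X_pow_sub_C _ e0.ne', by
      rw [eval₂_sub, eval₂_X_pow, eval₂_C, hβ]
      simp⟩
  refine ⟨D, jb, hβ, p4, ?_, den_of pb hi, ?_, ?_, ?_, ?_, p2, ?_⟩
  · intro x
    obtain ⟨f, h1, h2⟩ := pb.exists_eq_aeval x
    exact ⟨f, by rwa [← pb.finrank, p4] at h1, h2⟩
  · intro g hg x
    have : (g : Qb →ₐ[ℚ] Qb).comp j.toRatAlgHom = j.toRatAlgHom :=
      pb.algHom_ext (by simpa [jb] using hg)
    exact DFunLike.congr_fun this x
  · intro g hg x
    have : (g : Qb →ₐ[ℚ] Qb).comp j.toRatAlgHom = j.toRatAlgHom.comp t0 :=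
      pb.algHom_ext (by simpa [jb, t1] using hg)
    exact DFunLike.congr_fun this x
  · intro y hy
    apply rg
    rw [← InfiniteGalois.fixedField_fixingSubgroup (IntermediateField.adjoin ℚ {b}),
      IntermediateField.mem_fixedField_iff]
    intro g hg
    refine hy g ?_
    exact (IntermediateField.mem_fixingSubgroup_iff _ _).1 hg b
      (IntermediateField.mem_adjoin_simple_self ℚ b)
  · intro b' hb'
    refine minpoly.exists_algEquiv_of_root' (Algebra.IsAlgebraic.isAlgebraic b) ?_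
    have : minpoly ℚ b = X ^ e - C (c : ℚ) := by
      rw [← mp, ← jb]
      exact minpoly.algHom_eq j.toRatAlgHom j.injective pb.gen
    simp [this, hb']
  · intro P hP h x c1 c2
    refine lev3 j p p2 hu P hP h x ?_
    replace c1 : p.valuation L (x - 1) ≤ exp (-1) := c1
    replace c2 : exp (-2) < p.valuation L (x - 1) := not_le.1 c2
    have n0 : p.valuation L (x - 1) ≠ 0 := (zero_le'.trans_lt c2).ne'
    rw [← exp_log n0] at c1 c2 ⊢
    rw [exp_le_exp] at c1
    rw [exp_lt_exp] at c2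
    congr 1
    omega

end Gen

theorem gen : GEN := by
  intro e c b he h3 h9 hb
  have a1 : Algebra.IsAlgebraic ℚ Qb := AlgebraicClosure.isAlgebraic ℚ
  have hi : IsIntegral ℚ b := (Algebra.IsAlgebraic.isAlgebraic b).isIntegral
  haveI := IntermediateField.adjoin.finiteDimensional hi
  haveI : NumberField (IntermediateField.adjoin ℚ {b}) := {}
  obtain ⟨D, hD⟩ := Gen.emb_of (L := IntermediateField.adjoin ℚ {b}) (b := b) he h3 h9
    (algebraMap _ Qb) (IntermediateField.adjoin.powerBasis hi) rfl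
    (Subtype.ext (by simpa using hb)) (fun y hy => ⟨⟨y, hy⟩, rfl⟩)
  exact ⟨_, _, _, _, D, hD⟩

end Vale.Agent.P027M.S
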