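import Vale.Agent.P027M.S.Defs

/-!
# P027, route M, block S: the bound for classes with values in `ZMod 3`
-/

set_option linter.all false

noncomputable section

namespace Vale.Agent.P027M.S

open NumberField IsDedekindDomain WithZero
open Vale.Agent.P022 Vale.Agent.P022.C Vale.Agent.P016Z

namespace Half

variable {L : Type} [Field L] [NumberField L] {e : ℕ} {c : ℤ} {w b : Qb} {j : L →+* Qb}
  {D : Dat L} {Γ : Subgroup GQ} {Q : Finset ℕ} {φ : GQ → ZMod 3}

theorem val_one {x : L} (h : x * D.τ x = 1) {v : Pr L} (hv : D.π v = v) : v.valuation L x = 1 := by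
  have t := D.val_π v x
  have s := congrArg (v.valuation L) h
  rw [hv] at t
  rw [map_mul, map_one, t, ← sq] at s
  exact (pow_eq_one_iff.1 s).resolve_right two_ne_zero

theorem gen (K : KUM) (he : e = 2 ∨ e = 4) (E : Emb e c b j D) (B : Base Γ)
    (hw : w ^ 2 + w + 1 = 0) (hf : ∀ g ∈ Γ, g w = w ∧ g b = b) (A : Adm Γ w Q φ)
    (G : Eig Γ w b φ) : ∃ (y : Qb) (x : L), y ≠ 0 ∧ Law Γ w φ y ∧ y ^ 3 = j x ∧
      x * D.τ x = 1 ∧ Cong D 2 x := by
  have b0 : b ≠ 0 := fun z => by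
    have := D.val_b
    rw [(map_eq_zero j).1 (E.jb.trans z), map_zero] at this
    exact exp_ne_zero this.symm
  obtain ⟨t, ht⟩ := E.cnj (-b) (by
    rw [Even.neg_pow (by rcases he with rfl | rfl <;> decide), ← E.jb, ← map_pow, E.pw, map_intCast])
  obtain ⟨y, y0, l, f, n⟩ := K Γ w b Q φ t B hw b0 hf A G ht
  obtain ⟨x, hx⟩ := E.rng _ f
  have m : x * D.τ x = 1 := j.injective (by rw [map_mul, ← E.act t ht, hx, n, map_one])
  obtain ⟨P, p1, p2, p3⟩ := A.font
  have k : ∀ (y : Qb) (x : L), Law Γ w φ y → y ^ 3 = j x → D.p.valuation L (x - 1) < 1 →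
      Cong D 2 x := fun y x l h s => by_contra fun u => by
    have := E.lev P p1 p2 x ((lt_mul_exp_iff_le exp_ne_zero).1 (by rwa [← exp_add])) u
    rw [← h] at this
    rcases he with rfl | rfl
    exacts [(p3 y l).2 this, (p3 y l).1 this]
  rcases D.res x (val_one m D.π_p) with s | s
  · exact ⟨y, x, y0, l, hx.symm, m, k y x l hx.symm s⟩
  · have l' : Law Γ w φ (-y) := fun σ h => by rw [map_neg, l σ h, mul_neg]
    have h' : (-y) ^ 3 = j (-x) := by rw [map_neg, hx]; ring
    exact ⟨-y, -x, neg_ne_zero.2 y0, l', h', by rw [map_neg, neg_mul_neg, m],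
      k _ _ l' h' (by rwa [← neg_add', Valuation.map_neg])⟩

end Half

open Half in
theorem half (K : KUM) (I : INERT) (C : COUNT) : HALF := by
  intro L _ _ e c w b j D Γ Q r q he E G hk B hw hf hQ φ hφ
  choose y x y0 l h m g using fun k => gen K he E B hw hf (hφ k).1 (hφ k).2
  obtain ⟨n, ⟨k, hn⟩, z, hz⟩ := C L D r q x G hk fun k => ⟨m k, g k, fun v hv => by
    by_cases p : D.π v = v
    · simp [ordv, val_one (m k) p]
    have n : ¬ (EP.rc v = 2 ∨ EP.rc v ∈ Q) := fun s => (hQ _ s v (EP.rc_mem v)).elim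
      (fun ⟨i, s⟩ => s.elim (hv i).1 (hv i).2) p
    have n3 : EP.rc v ≠ 3 := fun s => p (by
      rw [(D.three v).1 (by simpa [s] using EP.rc_mem v), D.π_p])
    have l3 : 3 < EP.rc v := by
      have := (EP.rc_prime v).two_le
      omega
    refine I L j Γ (x k) (y k) _ B (left_ne_zero_of_mul_eq_one (m k)) (h k) (EP.rc_prime v) l3
      (fun P p1 p2 s s1 s2 => ?_) v (EP.rc_mem v)
    rw [l k s s1, (hφ k).1.unr _ (EP.rc_prime v) l3 (not_or.1 n).2 P p1 p2 s s1 s2]
    simp⟩
  refine ⟨fun k => n k, fun s => hn ((ZMod.natCast_eq_zero_iff _ 3).1 (congrFun s k)), fun σ s => ?_⟩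
  have hY : (∏ k, y k ^ n k) ^ 3 = j z ^ 3 := by
    rw [← map_pow, ← hz, map_prod, ← Finset.prod_pow]
    exact Finset.prod_congr rfl fun k _ => by rw [pow_right_comm, h, map_pow]
  have t : σ (∏ k, y k ^ n k) = w ^ (∑ k, n k * (φ k σ).val) * ∏ k, y k ^ n k := by
    rw [map_prod, ← Finset.prod_pow_eq_pow_sum, ← Finset.prod_mul_distrib]
    exact Finset.prod_congr rfl fun k _ => by rw [map_pow, l k σ s, mul_pow, pow_mul']
  have Y0 : ∏ k, y k ^ n k ≠ 0 := Finset.prod_ne_zero_iff.2 fun k _ => pow_ne_zero _ (y0 k)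
  generalize ∏ k, y k ^ n k = Y at *
  have f : σ Y = Y := by
    have a := E.fix σ (hf σ s).2 z
    have a' := (hf σ s).1
    have : (Y - j z) * (Y - w * j z) * (Y - w ^ 2 * j z) = 0 := by
      linear_combination hY + (-Y ^ 2 * j z + w * Y * j z ^ 2 - (w - 1) * j z ^ 3) * hw
    simp only [mul_eq_zero, sub_eq_zero] at this
    rcases this with (rfl | rfl) | rfl <;> simp [a, a']
  haveI : Fact (Nat.Prime 3) := ⟨by decide⟩
  have o : orderOf w = 3 := orderOf_eq_prime (by linear_combination (w - 1) * hw) fun u => by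
    rw [u] at hw; norm_num at hw
  have d := orderOf_dvd_of_pow_eq_one ((mul_eq_right₀ Y0).1 (t.symm.trans f))
  rw [o, ← ZMod.natCast_eq_zero_iff] at d
  simpa using d

end Vale.Agent.P027M.S
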