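import Vale.Agent.P027M.S.Defs
import Vale.Agent.P022.H916.Fld
import Vale.Agent.P022.H269.Unrv

/-!
# P027, route M, block S: unramified Kummer extensions
-/

set_option linter.all false

noncomputable section

namespace Vale.Agent.P027M.S

open NumberField IsDedekindDomain
open Vale.Agent.P022 Vale.Agent.P022.C Vale.Agent.P022.H916

theorem inert_cube {w y z : Qb} (hw : w ^ 2 + w + 1 = 0) (h : z ^ 3 = y ^ 3) :
    z = y ∨ z = w * y ∨ z = w ^ 2 * y := by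
  have : (z - y) * ((z - w * y) * (z - w ^ 2 * y)) = 0 := by
    linear_combination h + (-(z ^ 2 * y) + z * y ^ 2 * w - y ^ 3 * (w - 1)
      + z * y ^ 2 * (1 - 1)) * hw
  rcases mul_eq_zero.1 this with h | h
  · exact Or.inl (sub_eq_zero.1 h)
  · exact Or.inr ((mul_eq_zero.1 h).imp sub_eq_zero.1 sub_eq_zero.1)

theorem Inert.pow {P : Ideal (𝓞 Qb)} {g : GQ} (h : Inert P g) (n : ℕ) : Inert P (g ^ n) := by
  induction n with
  | zero => intro x; simp
  | succ n ih =>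
    intro x
    have := P.add_mem (h ((g ^ n) • x)) (ih x)
    rwa [sub_add_sub_cancel, ← mul_smul, ← pow_succ'] at this

theorem Inert.fix_w {P : Ideal (𝓞 Qb)} (hP : P.IsPrime) {ℓ : ℕ} (hℓ : ℓ.Prime) (h3 : 3 < ℓ)
    (hl : (ℓ : 𝓞 Qb) ∈ P) {g : GQ} (h : Inert P g) {w : Qb} (hw : w ^ 2 + w + 1 = 0) :
    g w = w := by
  have h1 : g w ^ 2 + g w + 1 = 0 := by
    have := congrArg g hw
    simpa using this
  have h2 : (g w - w) * (g w - w ^ 2) = 0 := by linear_combination h1 + (w - 1 - g w) * hw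
  rcases mul_eq_zero.1 h2 with h4 | h4
  · exact sub_eq_zero.1 h4
  exfalso
  have hi : IsIntegral ℤ w := by
    refine IsIntegral.of_pow (n := 3) (by norm_num) ?_
    have : w ^ 3 = 1 := by linear_combination (w - 1) * hw
    rw [this]
    exact isIntegral_one
  obtain ⟨W, hW⟩ : ∃ W : 𝓞 Qb, (W : Qb) = w := ⟨⟨w, hi⟩, rfl⟩
  have h5 := h W
  have h6 : (g • W - W) * (g • W - W) = -3 := by
    apply RingOfIntegers.ext
    show (g (W : Qb) - (W : Qb)) * (g (W : Qb) - (W : Qb)) = -3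
    rw [hW, sub_eq_zero.1 h4]
    linear_combination (w ^ 2 - 3 * w + 3) * hw
  have h7 : (3 : 𝓞 Qb) ∈ P := by
    have h9 : (-3 : 𝓞 Qb) ∈ P := by rw [← h6]; exact P.mul_mem_left _ h5
    exact (neg_mem_iff).1 h9
  have h8 : IsCoprime ((3 : ℕ) : 𝓞 Qb) (ℓ : 𝓞 Qb) :=
    Nat.Coprime.cast ((Nat.coprime_primes Nat.prime_three hℓ).2 h3.ne)
  obtain ⟨a, b, hab⟩ := h8
  refine hP.ne_top ((Ideal.eq_top_iff_one _).2 ?_)
  rw [← hab]
  exact P.add_mem (P.mul_mem_left _ (by exact_mod_cast h7)) (P.mul_mem_left _ hl)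

theorem inert : INERT := by
  intro L _ _ j Γ x y ℓ hΓ hx hy hℓ h3 hI v hv
  obtain ⟨s, hs⟩ := IsAlgClosed.exists_pow_nat_eq (-3 : Qb) (n := 2) (by norm_num)
  obtain ⟨w, hw⟩ : ∃ w : Qb, w ^ 2 + w + 1 = 0 :=
    ⟨(s - 1) / 2, by linear_combination (1 / 4 : Qb) * hs⟩
  have hw3 : w ^ 3 = 1 ^ 3 := by linear_combination (w - 1) * hw
  have hy0 : y ≠ 0 := by
    rintro rfl
    exact hx ((map_eq_zero j).1 (by rw [← hy]; simp))
  have hcube : ∀ g ∈ GK j, (g y) ^ 3 = y ^ 3 := fun g hg => by rw [← map_pow, hy, hg x]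
  let U : Subgroup GQ := GK j ⊓ (MulAction.stabilizer GQ y ⊓ MulAction.stabilizer GQ w)
  have hU : IsOpen (U : Set GQ) := (isOpen_GK j).inter
    ((stabilizer_isOpen_of_isIntegral y).inter (stabilizer_isOpen_of_isIntegral w))
  have hmem : ∀ g, g ∈ U ↔ g ∈ GK j ∧ g y = y ∧ g w = w := fun g => Iff.rfl
  have hn : ∀ g ∈ GK j, ∀ u ∈ U, g * u * g⁻¹ ∈ U := by
    intro g hg u hu
    obtain ⟨u1, u2, u3⟩ := (hmem u).1 hu
    have key : ∀ z : Qb, u (g⁻¹ z) = g⁻¹ z → (g * u * g⁻¹) z = z := fun z hz => by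
      rw [AlgEquiv.mul_apply, AlgEquiv.mul_apply, hz, ← AlgEquiv.mul_apply, mul_inv_cancel]
      rfl
    refine (hmem _).2 ⟨(GK j).mul_mem ((GK j).mul_mem hg u1) ((GK j).inv_mem hg), key _ ?_, key _ ?_⟩
    · rcases inert_cube hw (hcube _ ((GK j).inv_mem hg)) with h | h | h <;> rw [h] <;>
        simp only [map_mul, map_pow, u2, u3]
    · have : (g⁻¹ w) ^ 3 = 1 ^ 3 := by rw [← map_pow, hw3, one_pow, map_one]
      rcases inert_cube hw this with h | h | h <;> rw [h] <;>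
        simp only [map_mul, map_pow, map_one, u3]
  obtain ⟨M, _, _, _, _, jM, ρ, D, hM, hker⟩ := exists_fld j U hU inf_le_left hn
  obtain ⟨y', hy'⟩ : ∃ y', jM y' = y := fixed jM fun g => ((hmem g).1 (hM ▸ g.2)).2.1
  obtain ⟨P, hP, hPv⟩ := exists_above j v.asIdeal v.isPrime
  have hl : (ℓ : 𝓞 Qb) ∈ P := by
    rw [← hPv] at hv
    have : RingOfIntegers.mapRingHom j (ℓ : 𝓞 L) ∈ P := hv
    rwa [map_natCast] at this
  have hne : below jM P ≠ ⊥ := by
    intro h0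
    have : (ℓ : 𝓞 M) ∈ below jM P := by
      show RingOfIntegers.mapRingHom jM (ℓ : 𝓞 M) ∈ P
      rwa [map_natCast]
    rw [h0, Ideal.mem_bot] at this
    exact hℓ.ne_zero (by exact_mod_cast this)
  let v' : HeightOneSpectrum (𝓞 M) := ⟨below jM P, Ideal.IsPrime.comap _, hne⟩
  have hin : ∀ g : GK j, (∀ x : 𝓞 Qb, (g : GQ) • x - x ∈ P) → ρ g = 1 := by
    intro g hg
    have gw : (g : GQ) w = w := Inert.fix_w hP hℓ h3 hl hg hw
    refine (hker g).2 ((hmem _).2 ⟨g.2, ?_, gw⟩)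
    obtain ⟨ζ, z1, z2, z3⟩ : ∃ ζ : Qb, (g : GQ) y = ζ * y ∧ (g : GQ) ζ = ζ ∧ ζ ^ 3 = 1 := by
      rcases inert_cube hw (hcube _ g.2) with h | h | h
      · exact ⟨1, by rw [h, one_mul], map_one _, one_pow _⟩
      · exact ⟨w, h, gw, by rw [hw3, one_pow]⟩
      · exact ⟨w ^ 2, h, by rw [map_pow, gw], by rw [← pow_mul, mul_comm, pow_mul, hw3]; simp⟩
    have hp : ∀ n : ℕ, ((g : GQ) ^ n) y = ζ ^ n * y := by
      intro n
      induction n with
      | zero => simp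
      | succ n ih => rw [pow_succ', AlgEquiv.mul_apply, ih, map_mul, map_pow, z1, z2]; ring
    obtain ⟨a, ha⟩ := hΓ.two g
    have h1 := hI P hP hl _ ha (Inert.pow hg _)
    rw [hp] at h1
    have h2 : ζ ^ 2 ^ a = 1 := mul_right_cancel₀ hy0 (by rw [h1, one_mul])
    have h4 : ζ = 1 := (pow_eq_one_iff_of_coprime
      (Nat.Coprime.pow_left a (by norm_num : Nat.Coprime 2 3))).1 ⟨h2, z3⟩
    rw [z1, h4, one_mul]
  have key := H269.UNRV L M v v' ((D.below_comap P).trans hPv)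
    (fun g hg => D.inertia_eq_bot hP hin hg) x
  have e : algebraMap L M x = y' ^ 3 := jM.injective (by rw [D.comp, map_pow, hy', hy])
  rw [← key, e]
  unfold ordv
  rw [map_pow, WithZero.log_pow]
  exact ⟨-WithZero.log (v'.valuation M y'), by simp⟩

end Vale.Agent.P027M.S
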