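import Vale.Agent.P027M.S.Defs
import Vale.Agent.P016Z.Cheb.ExpLog

/-!
# P027, route M, block S: the auxiliary primes exist
-/

set_option linter.all false

noncomputable section

namespace Vale.Agent.P027M.S

open NumberField IsDedekindDomain Filter Topology
open Vale.Agent.P022 Vale.Agent.P022.C Vale.Agent.P016Z

namespace Prm

variable {L : Type} [Field L] [NumberField L]

theorem norm_nonneg' [IsTotallyComplex L] (x : 𝓞 L) : 0 ≤ Algebra.norm ℤ x := by
  classical
  have h := Algebra.norm_eq_prod_embeddings ℚ ℂ (x : L)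
  rw [← Fintype.prod_equiv (RingHom.equivRatAlgHom L ℂ) (fun f => f x) (fun φ => φ x)
    (fun _ => rfl), ← Finset.prod_fiberwise Finset.univ InfinitePlace.mk] at h
  have k : ∀ w : InfinitePlace L, ∏ φ ∈ Finset.univ.filter (fun φ => InfinitePlace.mk φ = w),
      φ (x : L) = (Complex.normSq (w.embedding x) : ℝ) := fun w => by
    have e : Finset.univ.filter (fun φ : L →+* ℂ => InfinitePlace.mk φ = w) =
        {w.embedding, ComplexEmbedding.conjugate w.embedding} := by
      ext φ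
      simp only [Finset.mem_filter, Finset.mem_univ, true_and, Finset.mem_insert,
        Finset.mem_singleton]
      conv_lhs => rw [← InfinitePlace.mk_embedding w, eq_comm, InfinitePlace.mk_eq_iff]
      simp only [eq_comm]
    rw [e, Finset.prod_pair (fun c => IsTotallyComplex.complexEmbedding_not_isReal _
      (ComplexEmbedding.isReal_iff.2 c.symm)), ComplexEmbedding.conjugate_coe_eq, Complex.mul_conj]
  rw [Finset.prod_congr rfl fun w _ => k w, ← Complex.ofReal_prod, ← Algebra.coe_norm_int,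
    eq_ratCast] at h
  have h2 : ((Algebra.norm ℤ x : ℤ) : ℝ) = ∏ w : InfinitePlace L,
      Complex.normSq (w.embedding (x : L)) := by exact_mod_cast h
  have h3 : (0 : ℝ) ≤ ((Algebra.norm ℤ x : ℤ) : ℝ) :=
    h2 ▸ Finset.prod_nonneg fun w _ => Complex.normSq_nonneg _
  exact_mod_cast h3

theorem norm_one (z : 𝓞 L) (M : ℕ) : ((Algebra.norm ℤ (1 + M * z) : ℤ) : ZMod M) = 1 := by
  classical
  rw [Algebra.norm_eq_matrix_det (RingOfIntegers.basis L)]
  have h := fun X : Matrix (Module.Free.ChooseBasisIndex ℤ (𝓞 L))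
      (Module.Free.ChooseBasisIndex ℤ (𝓞 L)) ℤ => (Int.castRingHom (ZMod M)).map_det X
  simp only [eq_intCast] at h
  rw [h, map_add, map_mul, map_natCast, map_add, map_mul, map_natCast, map_one, map_one]
  have h0 : ((M : ℕ) : Matrix (Module.Free.ChooseBasisIndex ℤ (𝓞 L))
      (Module.Free.ChooseBasisIndex ℤ (𝓞 L)) (ZMod M)) = 0 := by
    rw [← map_natCast (algebraMap (ZMod M) _), ZMod.natCast_self, map_zero]
  rw [h0, zero_mul, add_zero, Matrix.det_one]

theorem cop (v : Pr L) (h : (3 : 𝓞 L) ∉ v.asIdeal) (n : ℕ) : (Nr v).Coprime (3 ^ n) := by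
  refine Nat.Coprime.pow_right _ (Nat.Coprime.symm ((Nat.Prime.coprime_iff_not_dvd
    Nat.prime_three).2 fun k => h ?_))
  have hfin : Finite (𝓞 L ⧸ v.asIdeal) := Ideal.finiteQuotientOfFreeOfNeBot _ v.ne_bot
  haveI : Fact (Nat.Prime 3) := ⟨Nat.prime_three⟩
  haveI := v.isPrime
  obtain ⟨x, hx⟩ := exists_prime_addOrderOf_dvd_card' (G := 𝓞 L ⧸ v.asIdeal) 3 k
  have h1 := addOrderOf_nsmul_eq_zero x
  rw [hx, nsmul_eq_mul] at h1
  rcases mul_eq_zero.1 h1 with h2 | h2
  · exact Ideal.Quotient.eq_zero_iff_mem.1 (by rw [map_ofNat]; exact_mod_cast h2)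
  · rw [h2, addOrderOf_zero] at hx
    omega

/-- the multiplicity -/
def ct (v : Pr L) (I : Ideal (𝓞 L)) : ℕ :=
  (Associates.mk v.asIdeal).count (Associates.mk I).factors

/-- the additive extension to ideals -/
def Lm (lam : Pr L → ZMod 3) (I : Ideal (𝓞 L)) : ZMod 3 := ∑ᶠ v, (ct v I : ZMod 3) * lam v

theorem fin_ct (lam : Pr L → ZMod 3) {I : Ideal (𝓞 L)} (hI : I ≠ 0) :
    Function.HasFiniteSupport fun v => (ct v I : ZMod 3) * lam v := by
  refine (Filter.eventually_cofinite.1 (Associates.finite_factors hI)).subset fun v hv h => hv ?_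
  have : ct v I = 0 := by exact_mod_cast h
  simp only [this, Nat.cast_zero, zero_mul]

theorem Lm_mul (lam : Pr L → ZMod 3) {I J : Ideal (𝓞 L)} (hI : I ≠ 0) (hJ : J ≠ 0) :
    Lm lam (I * J) = Lm lam I + Lm lam J := by
  rw [Lm, Lm, Lm, ← finsum_add_distrib (fin_ct lam hI) (fin_ct lam hJ)]
  refine finsum_congr fun v => ?_
  rw [ct, ← Associates.mk_mul_mk, Associates.count_mul (Associates.mk_ne_zero.2 hI)
    (Associates.mk_ne_zero.2 hJ) v.associates_irreducible, Nat.cast_add, add_mul, ct, ct]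

theorem Lm_prime (lam : Pr L → ZMod 3) (v : Pr L) : Lm lam v.asIdeal = lam v := by
  rw [Lm, finsum_eq_single _ v fun w hw => ?_, ct, Associates.count_self v.associates_irreducible,
    Nat.cast_one, one_mul]
  rw [ct, Associates.count_eq_zero_of_ne w.associates_irreducible v.associates_irreducible
    fun h => hw (HeightOneSpectrum.ext (associated_iff_eq.1 (Associates.mk_eq_mk_iff_associated.1 h))),
    Nat.cast_zero, zero_mul]

theorem Lm_span (lam : Pr L → ZMod 3) {x : 𝓞 L} (hx : x ≠ 0) :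
    Lm lam (Ideal.span {x}) = ∑ᶠ v, (ordv v (x : L) : ZMod 3) * lam v := by
  refine finsum_congr fun v => ?_
  rw [ordv, show (x : L) = algebraMap (𝓞 L) L x from rfl, v.valuation_of_algebraMap,
    v.intValuation_if_neg hx, WithZero.log_exp, neg_neg, Int.cast_natCast, ct]

instance (n : ℕ) : Nontrivial (ZMod (3 ^ (n + 1))) :=
  ZMod.nontrivial_iff.2 (Nat.one_lt_pow n.succ_ne_zero (by norm_num)).ne'

/-- the characters -/
def th (lam : Pr L → ZMod 3) (n : ℕ) (a : ZMod 3) (χ : DirichletCharacter ℂ (3 ^ (n + 1))) :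
    Ideal (𝓞 L) →* ℂ where
  toFun I := χ (Ideal.absNorm I : ℕ) * ZMod.stdAddChar (a * Lm lam I)
  map_one' := by
    have := Lm_mul lam (I := 1) (J := 1) one_ne_zero one_ne_zero
    rw [mul_one, left_eq_add] at this
    rw [this, map_one, Nat.cast_one, map_one, mul_zero, AddChar.map_zero_eq_one, mul_one]
  map_mul' I J := by
    by_cases hI : I = 0
    · simp only [hI, zero_mul, map_zero, Nat.cast_zero, MulChar.map_zero]
    by_cases hJ : J = 0
    · simp only [hJ, zero_mul, mul_zero, map_zero, Nat.cast_zero, MulChar.map_zero]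
    rw [Lm_mul lam hI hJ, map_mul, Nat.cast_mul, map_mul, mul_add, AddChar.map_add_eq_mul]
    ring

theorem th_apply (lam : Pr L → ZMod 3) (n : ℕ) (a : ZMod 3)
    (χ : DirichletCharacter ℂ (3 ^ (n + 1))) (I : Ideal (𝓞 L)) :
    th lam n a χ I = χ (Ideal.absNorm I : ℕ) * ZMod.stdAddChar (a * Lm lam I) := rfl

theorem th_ray [IsTotallyComplex L] {D : Dat L} {lam : Pr L → ZMod 3} (R : Ray D lam) (n : ℕ)
    (a : ZMod 3) (χ : DirichletCharacter ℂ (3 ^ (n + 1))) :
    RayCh (3 ^ (n + 1)) (th lam n a χ) := by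
  refine ⟨fun I => ?_, fun I h => ?_, fun x hx ⟨z, hz⟩ => ?_⟩
  · rw [th_apply, norm_mul, ZMod.stdAddChar_apply, Circle.norm_coe, mul_one]
    exact χ.norm_le_one _
  · rw [th_apply, MulChar.map_nonunit _ fun k => h ((ZMod.isUnit_iff_coprime _ _).1 k), zero_mul]
  · have c : Cong D 2 (x : L) := by
      have e : (x : L) - 1 = 3 * algebraMap (𝓞 L) L (3 ^ n * z) := by
        have := congrArg (algebraMap (𝓞 L) L) hz
        simp only [map_sub, map_one, map_mul, map_natCast, map_pow, map_ofNat] at this ⊢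
        push_cast at this
        rw [show (x : L) = algebraMap (𝓞 L) L x from rfl, this]
        ring
      rw [Cong, e, map_mul]
      exact (mul_le_of_le_one_right' (D.p.valuation_le_one _)).trans D.ram
    have e1 : ((Ideal.absNorm (Ideal.span {x}) : ℕ) : ZMod (3 ^ (n + 1))) = 1 := by
      rw [Ideal.absNorm_span_singleton, ← Int.cast_natCast,
        Int.natAbs_of_nonneg (norm_nonneg' x), show x = 1 + ((3 ^ (n + 1) : ℕ) : 𝓞 L) * z by
          rw [← hz]; ring, norm_one]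
    rw [th_apply, e1, map_one, Lm_span lam hx, R.ray _ c, mul_zero, AddChar.map_zero_eq_one,
      mul_one]

theorem th_triv {D : Dat L} {lam : Pr L → ZMod 3} (R : Ray D lam) (h0 : lam ≠ 0) {n : ℕ}
    {a : ZMod 3} {χ : DirichletCharacter ℂ (3 ^ (n + 1))}
    (h : ∀ I : Ideal (𝓞 L), I ≠ ⊥ → (Ideal.absNorm I).Coprime (3 ^ (n + 1)) →
      th lam n a χ I = 1) :
    a = 0 ∧ ∀ v : Pr L, (3 : 𝓞 L) ∉ v.asIdeal → χ (Nr v : ℕ) = 1 := by
  obtain ⟨v, hv⟩ := Function.ne_iff.1 h0
  have h3 : (3 : 𝓞 L) ∉ v.asIdeal := fun k => by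
    have := R.neg v
    rw [(D.three v).1 k, D.π_p] at this
    rw [(D.three v).1 k] at hv
    exact hv ((by decide : ∀ b : ZMod 3, b = -b → b = 0) _ this)
  have c := cop v h3 (n + 1)
  have e1 := h _ v.ne_bot c
  have e2 := h _ (D.π v).ne_bot (by rw [show Ideal.absNorm (D.π v).asIdeal = _ from D.norm_π v]; exact c)
  rw [th_apply, Lm_prime] at e1 e2
  rw [show Ideal.absNorm (D.π v).asIdeal = _ from D.norm_π v, R.neg] at e2
  have ha : a = 0 := (by decide : ∀ a b : ZMod 3, b ≠ 0 → a * b = a * -b → a = 0) _ _ hv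
    (ZMod.injective_stdAddChar (mul_left_cancel₀ (left_ne_zero_of_mul_eq_one e1)
      (e1.trans e2.symm)))
  refine ⟨ha, fun w hw => ?_⟩
  have := h _ w.ne_bot (cop w hw _)
  rwa [th_apply, ha, zero_mul, AddChar.map_zero_eq_one, mul_one] at this

theorem sum_th (lam : Pr L → ZMod 3) (n : ℕ) (v : Pr L) :
    ∑ a : ZMod 3, ∑ χ : DirichletCharacter ℂ (3 ^ (n + 1)), (th lam n a χ v.asIdeal).re =
      if lam v = 0 ∧ ((Nr v : ℕ) : ZMod (3 ^ (n + 1))) = 1 then
        3 * (Nat.totient (3 ^ (n + 1)) : ℝ) else 0 := by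
  simp only [← Complex.re_sum, th_apply, Lm_prime, ← Finset.sum_mul, ← Finset.mul_sum]
  rw [DirichletCharacter.sum_characters_eq, AddChar.sum_mulShift _ (ZMod.isPrimitive_stdAddChar 3)]
  by_cases h1 : lam v = 0 <;> by_cases h2 : ((Nr v : ℕ) : ZMod (3 ^ (n + 1))) = 1 <;>
    simp [h1, h2, mul_comm]

theorem summ {f : Pr L → ℝ} {B s : ℝ} (hf : ∀ v, |f v| ≤ B)
    (hs : Summable fun v : Pr L => (Nr v : ℝ) ^ (-s)) :
    Summable fun v : Pr L => f v * (Nr v : ℝ) ^ (-s) :=
  Summable.of_norm_bounded (hs.mul_left B) fun v => by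
    rw [norm_mul, Real.norm_of_nonneg (by positivity : 0 ≤ (Nr v : ℝ) ^ (-s))]
    exact mul_le_mul_of_nonneg_right (hf v) (by positivity)

open Classical in
theorem ind_le (hR : RAY) (hE : EUL) (hZ : Z1) [IsTotallyComplex L] {D : Dat L}
    {lam : Pr L → ZMod 3} (R : Ray D lam) (h0 : lam ≠ 0) (n : ℕ) : ∃ C : ℝ, ∀ᶠ s : ℝ in 𝓝[>] 1,
      3 * (Nat.totient (3 ^ (n + 1)) : ℝ) * PI (fun v : Pr L =>
        if lam v = 0 ∧ ((Nr v : ℕ) : ZMod (3 ^ (n + 1))) = 1 then 1 else 0) s ≤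
      Nat.card {χ : DirichletCharacter ℂ (3 ^ (n + 1)) //
        ∀ v : Pr L, (3 : 𝓞 L) ∉ v.asIdeal → χ (Nr v : ℕ) = 1} * PI (fun _ : Pr L => 1) s + C := by
  obtain ⟨C1, hC1⟩ := hE L
  have re1 : ∀ a χ (v : Pr L), |(th lam n a χ v.asIdeal).re| ≤ 1 := fun a χ v =>
    (Complex.abs_re_le_norm _).trans ((th_ray R n a χ).le _)
  have one : ∀ (a : ZMod 3) (χ : DirichletCharacter ℂ (3 ^ (n + 1))), ∃ C : ℝ,
      ∀ᶠ s : ℝ in 𝓝[>] 1, PI (fun v : Pr L => (th lam n a χ v.asIdeal).re) s ≤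
        (if a = 0 ∧ ∀ v : Pr L, (3 : 𝓞 L) ∉ v.asIdeal → χ (Nr v : ℕ) = 1 then
          PI (fun _ : Pr L => 1) s else 0) + C := by
    intro a χ
    by_cases h : a = 0 ∧ ∀ v : Pr L, (3 : 𝓞 L) ∉ v.asIdeal → χ (Nr v : ℕ) = 1
    · refine ⟨0, ?_⟩
      filter_upwards [self_mem_nhdsWithin] with s hs
      rw [if_pos h, add_zero]
      have hs' := ((hZ L).1 s hs).1
      exact (summ (re1 a χ) hs').tsum_le_tsum (fun v => mul_le_mul_of_nonneg_right
        (le_of_abs_le (re1 a χ v)) (by positivity)) (summ (B := 1) (by simp) hs')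
    · obtain ⟨C, hC⟩ := hR L _ _ (Nat.one_lt_pow n.succ_ne_zero (by norm_num)) (th_ray R n a χ) (by
        by_contra k
        push Not at k
        exact h (th_triv R h0 k))
      refine ⟨C + C1, ?_⟩
      filter_upwards [self_mem_nhdsWithin, hC] with s hs k
      obtain ⟨k1, k2⟩ := hC1 _ (th_ray R n a χ).le s hs
      have := Real.log_le_sub_one_of_pos (norm_pos_iff.2 k1)
      rw [if_neg h]
      linarith [le_of_abs_le k2]
  choose C hC using one
  refine ⟨∑ a, ∑ χ, C a χ, ?_⟩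
  filter_upwards [self_mem_nhdsWithin,
    eventually_all.2 fun a => eventually_all.2 fun χ => hC a χ] with s hs k
  have hs' := ((hZ L).1 s hs).1
  have e1 : 3 * (Nat.totient (3 ^ (n + 1)) : ℝ) * PI (fun v : Pr L =>
      if lam v = 0 ∧ ((Nr v : ℕ) : ZMod (3 ^ (n + 1))) = 1 then 1 else 0) s =
      ∑ a, ∑ χ, PI (fun v : Pr L => (th lam n a χ v.asIdeal).re) s := by
    simp only [PI]
    rw [← Finset.sum_product', ← Summable.tsum_finsetSum fun x _ => summ (re1 x.1 x.2) hs',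
      ← tsum_mul_left]
    refine tsum_congr fun v => ?_
    rw [← Finset.sum_mul, Finset.sum_product' (f := fun a χ => (th lam n a χ v.asIdeal).re),
      sum_th, ← mul_assoc, mul_ite, mul_one, mul_zero]
  rw [e1]
  refine (Finset.sum_le_sum fun a _ => Finset.sum_le_sum fun χ _ => k a χ).trans (le_of_eq ?_)
  simp only [Finset.sum_add_distrib]
  congr 1
  rw [Finset.sum_eq_single 0 (fun a _ h => by simp [h]) (by simp)]
  simp only [true_and]
  rw [← Finset.sum_filter, Finset.sum_const, nsmul_eq_mul, Nat.card_eq_fintype_card,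
    Fintype.card_subtype]

theorem tsum_Nr {F : ℕ → ℝ} (hF : ∀ n, ¬n.Prime → F n = 0)
    (h0 : Summable fun v : Pr L => F (Nr v)) :
    ∑' n : ℕ, (aK L n : ℝ) * F n = ∑' v : Pr L, F (Nr v) := by
  have := EP.tsum_Nv (E := L) (F := fun n => (F n : ℂ)) (fun n h => by rw [hF n h]; rfl)
    (Complex.summable_ofReal.2 h0)
  apply Complex.ofReal_injective
  rw [Complex.ofReal_tsum, Complex.ofReal_tsum]
  simp only [Complex.ofReal_mul, Complex.ofReal_natCast]
  exact this.symm

end Prm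

open Prm

theorem prime (hR : RAY) (hE : EUL) (hZ : Z1) (hC : CYC) : PRIME := by
  classical
  intro L _ _ D tc h4 s1 s3 lam R h0 n B
  by_contra k
  push Not at k
  obtain ⟨T, T', _, _, _, _, d, H1, H2⟩ := hC L n h4 s1 s3
  obtain ⟨C0, hC0⟩ := ind_le hR hE hZ R h0 n
  obtain ⟨C1, hC1⟩ := (hZ L).2
  obtain ⟨C2, hC2⟩ := (hZ T).2
  obtain ⟨C3, hC3⟩ := (hZ T').2
  set S0 : Finset ℕ := B ∪ {2, 3} with hS0
  have lim : Tendsto (fun s : ℝ => Real.log (1 / (s - 1))) (𝓝[>] 1) atTop := by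
    refine Real.tendsto_log_atTop.comp ?_
    simp only [one_div]
    refine tendsto_inv_nhdsGT_zero.comp (tendsto_nhdsWithin_iff.2 ⟨?_, ?_⟩)
    · exact ((continuous_sub_right 1).tendsto' 1 0 (sub_self 1)).mono_left nhdsWithin_le_nhds
    · filter_upwards [self_mem_nhdsWithin] with s hs using sub_pos.2 (show 1 < s from hs)
  obtain ⟨s, hs, k0, k1, k2, k3, k4⟩ := ((show ∀ᶠ s : ℝ in 𝓝[>] 1, 1 < s from
    self_mem_nhdsWithin).and (hC0.and (hC1.and (hC2.and
      (hC3.and (lim.eventually_gt_atTop (6 * (C2 + ∑ p ∈ S0, (aK T p : ℝ) + C3 / 2 + C1 / 3 +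
        d * |C0|)))))))).exists
  set l := Real.log (1 / (s - 1))
  let Rr : ℕ → Prop := fun p => p.Prime ∧ p ∉ S0 ∧ p % 4 = 3 ∧ 3 ^ (n + 1) ∣ p - 1
  let F : ℕ → ℝ := fun p => if Rr p then (p : ℝ) ^ (-s) else 0
  have sL := (hZ L).1 s hs
  have sT := ((hZ T).1 s hs).2
  have sT' := ((hZ T').1 s hs).2
  have sF : Summable fun p : ℕ => (aK L p : ℝ) * F p :=
    Summable.of_nonneg_of_le (fun p => by simp only [F]; positivity) (fun p => by
      simp only [F]
      by_cases h : Rr p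
      · rw [if_pos h, if_pos h.1]
      · rw [if_neg h, mul_zero]
        positivity) sL.2
  have Fle : ∀ v : Pr L, F (Nr v) ≤ (if lam v = 0 ∧ ((Nr v : ℕ) : ZMod (3 ^ (n + 1))) = 1 then 1
      else 0) * (Nr v : ℝ) ^ (-s) := fun v => by
    simp only [F]
    by_cases h : Rr (Nr v)
    · rw [if_pos h, if_pos, one_mul]
      refine ⟨k v ⟨h.1, h.2.2.1, (pow_dvd_pow 3 n.le_succ).trans h.2.2.2,
        fun c => h.2.1 (Finset.mem_union_left _ c)⟩, ?_⟩
      exact ((ZMod.natCast_eq_natCast_iff _ _ _).2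
        ((Nat.modEq_iff_dvd' h.1.one_le).2 h.2.2.2).symm).trans Nat.cast_one
    · rw [if_neg h]
      positivity
  have sI := summ (f := fun v : Pr L => if lam v = 0 ∧ ((Nr v : ℕ) : ZMod (3 ^ (n + 1))) = 1
    then 1 else 0) (B := 1) (fun v => by split_ifs <;> simp) sL.1
  have sF' : Summable fun v : Pr L => F (Nr v) :=
    Summable.of_nonneg_of_le (fun p => by simp only [F]; positivity) Fle sI
  have a1 : ∑' p : ℕ, (aK L p : ℝ) * F p ≤ PI (fun v : Pr L =>
      if lam v = 0 ∧ ((Nr v : ℕ) : ZMod (3 ^ (n + 1))) = 1 then 1 else 0) s := by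
    refine (tsum_Nr (F := F) (fun p h => if_neg fun c : Rr p => h c.1) sF').le.trans ?_
    exact sF'.tsum_le_tsum Fle sI
  have s0 : HasSum (fun p : ℕ => if p ∈ S0 then (aK T p : ℝ) else 0) (∑ p ∈ S0, (aK T p : ℝ)) := by
    have := hasSum_sum_of_ne_finset_zero (f := fun p : ℕ => if p ∈ S0 then (aK T p : ℝ) else 0)
      (s := S0) (L := SummationFilter.unconditional ℕ) fun p hp => if_neg hp
    rwa [Finset.sum_congr rfl fun p hp => if_pos hp] at this
  have a2 : P1 T Set.univ s ≤ ∑ p ∈ S0, (aK T p : ℝ) + 1 / 2 * P1 T' Set.univ s +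
      d * ∑' p : ℕ, (aK L p : ℝ) * F p := by
    simp only [P1, Set.indicator_univ]
    refine hasSum_le (fun p => ?_) sT.hasSum
      ((s0.add (sT'.hasSum.mul_left _)).add (sF.hasSum.mul_left _))
    have n1 : 0 ≤ if p ∈ S0 then (aK T p : ℝ) else 0 := by positivity
    have n2 : 0 ≤ 1 / 2 * if p.Prime then (aK T' p : ℝ) * (p : ℝ) ^ (-s) else 0 := by positivity
    have n3 : 0 ≤ d * ((aK L p : ℝ) * F p) := by simp only [F]; positivity
    by_cases hp : p.Prime
    swap
    · rw [if_neg hp]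
      linarith
    rw [if_pos hp]
    by_cases h1 : p ∈ S0
    · rw [if_pos h1] at n1 ⊢
      have : (p : ℝ) ^ (-s) ≤ 1 :=
        Real.rpow_le_one_of_one_le_of_nonpos (by exact_mod_cast hp.one_le) (by linarith)
      have := mul_le_of_le_one_right n1 this
      linarith
    have p3 : 3 < p := by
      have := hp.two_le
      simp only [hS0, Finset.mem_union, Finset.mem_insert, Finset.mem_singleton, not_or] at h1
      omega
    obtain ⟨u1, u2, u3⟩ := H1 p hp p3
    by_cases h2 : p % 4 = 1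
    · rw [if_pos hp, u1 h2]
      push_cast
      linarith
    by_cases h3 : 3 ^ (n + 1) ∣ p - 1
    · have : Rr p := ⟨hp, h1, by have := hp.eq_two_or_odd; omega, h3⟩
      simp only [F, if_pos this]
      have u : (aK T p : ℝ) ≤ d * aK L p := by exact_mod_cast u2
      have := mul_le_mul_of_nonneg_right u (by positivity : 0 ≤ (p : ℝ) ^ (-s))
      linarith
    · rw [if_neg h1, u3 h3, Nat.cast_zero, zero_mul]
      linarith
  set t : ℝ := (Nat.card {χ : DirichletCharacter ℂ (3 ^ (n + 1)) //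
    ∀ v : Pr L, (3 : 𝓞 L) ∉ v.asIdeal → χ (Nr v : ℕ) = 1} : ℝ) with ht
  set X := PI (fun v : Pr L =>
      if lam v = 0 ∧ ((Nr v : ℕ) : ZMod (3 ^ (n + 1))) = 1 then 1 else 0) s
  set Y := PI (fun _ : Pr L => 1) s
  have Y0 : 0 ≤ Y := tsum_nonneg fun v => by positivity
  have φ1 : (1 : ℝ) ≤ Nat.totient (3 ^ (n + 1)) := by
    exact_mod_cast Nat.totient_pos.2 (by positivity)
  have H2' : (d : ℝ) * t ≤ Nat.totient (3 ^ (n + 1)) := by rw [ht]; exact_mod_cast H2
  set φ : ℝ := (Nat.totient (3 ^ (n + 1)) : ℝ)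
  have d0 : (0 : ℝ) ≤ d := by positivity
  have a3 : d * X ≤ Y / 3 + d * |C0| := by
    refine le_of_mul_le_mul_left ?_ (by linarith : 0 < 3 * φ)
    have b1 := mul_le_mul_of_nonneg_left (k0.trans (add_le_add_right (le_abs_self C0) _)) d0
    have b2 := mul_le_mul_of_nonneg_right H2' Y0
    have b3 : 0 ≤ d * |C0| := by positivity
    nlinarith
  have a4 := mul_le_mul_of_nonneg_left a1 d0
  linarith [le_of_abs_le k1.1, neg_le_of_abs_le k2.2, le_of_abs_le k3.2]

end Vale.Agent.P027M.S
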