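import Vale.Agent.P027M.S.Defs

/-!
# P027, route M, block S: the quartic field
-/

set_option linter.all false

noncomputable section

namespace Vale.Agent.P027M.S

open NumberField IsDedekindDomain Polynomial WithZero
open Vale.Agent.P022 Vale.Agent.P022.C Vale.Agent.P016Z

namespace Quart

section val

variable {L : Type} [Field L] [CharZero L] {v : Valuation L (WithZero (Multiplicative ℤ))}
  (h3 : v 3 = exp (-4))
include h3

theorem one_of {n : ℤ} (h : ¬ 3 ∣ n) : v n = 1 := by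
  have l : ∀ m : ℤ, v (3 * m) < 1 := fun m => by
    rw [map_mul, h3]
    exact (mul_le_of_le_one_right' (intCast_mem v.integer m)).trans_lt
      (exp_lt_exp (b := 0).2 (by decide))
  obtain ⟨m, rfl | rfl⟩ : ∃ m, n = 1 + 3 * m ∨ n = -(1 + 3 * m) :=
    if e : n % 3 = 1 then ⟨n / 3, .inl (by omega)⟩ else ⟨-(n / 3) - 1, .inr (by omega)⟩
  · push_cast; exact v.map_one_add_of_lt (l m)
  · rw [Int.cast_neg, v.map_neg]; push_cast; exact v.map_one_add_of_lt (l m)

theorem int_val {n : ℤ} (h : n ≠ 0) : ∃ m : ℤ, v n = exp (4 * m) := by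
  obtain ⟨k, a, e, rfl⟩ := WfDvdMonoid.max_power_factor' h (x := 3) (by decide)
  refine ⟨-k, ?_⟩
  push_cast
  rw [map_mul, map_pow, h3, one_of h3 e, mul_one, ← exp_nsmul]
  congr 1; simp; ring

theorem rat_val {a : ℚ} (h : a ≠ 0) : ∃ m : ℤ, v a = exp (4 * m) := by
  obtain ⟨m, e⟩ := int_val h3 (Rat.num_ne_zero.2 h)
  obtain ⟨m', e'⟩ := int_val h3 (n := a.den) (by exact_mod_cast a.den_nz)
  rw [Int.cast_natCast] at e'
  exact ⟨m - m', by rw [Rat.cast_def, map_div₀, e, e', mul_sub, exp_sub]⟩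

theorem pw (n : ℕ) {a a' : ℚ} {x : L} {k : ℤ} (hx : v x = exp k) (h : (a : L) ^ n = a' ^ n * x)
    (hk : ¬ 4 * (n : ℤ) ∣ k) : a' = 0 := by
  by_contra c
  obtain ⟨m', e'⟩ := rat_val h3 c
  have e := congrArg v h
  rw [map_mul, map_pow, map_pow, hx, e', ← exp_nsmul, ← exp_add] at e
  rcases eq_or_ne a 0 with rfl | z
  · rcases n with _ | n
    · rw [pow_zero, ← exp_zero, exp_inj] at e
      exact hk (by simp at e ⊢; omega)
    · simp [exp_ne_zero.symm] at e
  · obtain ⟨m, e''⟩ := rat_val h3 z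
    rw [e'', ← exp_nsmul, exp_inj, nsmul_eq_mul, nsmul_eq_mul] at e
    exact hk ⟨m - m', by linarith⟩

end val

section ring

variable {O : Type} [CommRing O] {P P' : Ideal O} {q d : ℕ} {β : O}

theorem int_mem [hP : P.IsPrime] (hq : q.Prime) (h : (q : O) ∈ P) (n : ℤ) :
    (n : O) ∈ P ↔ (q : ℤ) ∣ n := by
  refine ⟨fun e => by_contra fun c => ?_, ?_⟩
  · obtain ⟨x, y, t⟩ := (Nat.prime_iff_prime_int.1 hq).irreducible.coprime_iff_not_dvd.2 c
    refine hP.ne_top ((Ideal.eq_top_iff_one _).2 ?_)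
    have t' := congrArg (Int.cast : ℤ → O) t
    push_cast at t'
    exact t' ▸ P.add_mem (P.mul_mem_left _ h) (P.mul_mem_left _ e)
  · rintro ⟨m, rfl⟩
    push_cast
    exact P.mul_mem_right _ h

theorem red (n : ℤ) (h : β ^ 2 - n ∈ P) (f : ℤ[X]) : ∃ A B : ℤ, aeval β f - (A + B * β) ∈ P ∧
    aeval (-β) f - (A - B * β) ∈ P := by
  induction f using Polynomial.induction_on with
  | C a => exact ⟨a, 0, by simp, by simp⟩
  | add f g a b =>
    obtain ⟨A, B, a, a'⟩ := a
    obtain ⟨A', B', b, b'⟩ := b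
    refine ⟨A + A', B + B', ?_, ?_⟩
    · convert P.add_mem a b using 1; push_cast; rw [map_add]; ring
    · convert P.add_mem a' b' using 1; push_cast; rw [map_add]; ring
  | monomial k a b =>
    obtain ⟨A, B, b, b'⟩ := b
    refine ⟨B * n, A, ?_, ?_⟩ <;> rw [pow_succ, ← mul_assoc, map_mul, aeval_X]
    · convert P.add_mem (P.mul_mem_right β b) (P.mul_mem_left B h) using 1; push_cast; ring
    · convert P.add_mem (P.mul_mem_right (-β) b') (P.mul_mem_left B h) using 1; push_cast; ring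

variable [hP : P.IsPrime] [P'.IsPrime] (hq : q.Prime) (hd : ¬ q ∣ d)
  (den : ∀ x : O, ∃ f : ℤ[X], d * x = aeval β f)
include hq hd den

theorem le_of (a : ℤ) (h : (q : O) ∈ P) (h' : (q : O) ∈ P') (e : β - a ∈ P) (e' : β - a ∈ P') :
    P ≤ P' := fun x hx => by
  obtain ⟨f, t⟩ := den x
  have m : β - a ∈ P ⊓ P' := ⟨e, e'⟩
  obtain ⟨A, B, r, -⟩ := red (P := P ⊓ P') (β := β) (a * a)
    (by convert (P ⊓ P').mul_mem_left (β + a) m using 1; push_cast; ring) f
  have r' : d * x - (A + B * a : ℤ) ∈ P ⊓ P' := by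
    convert (P ⊓ P').add_mem r ((P ⊓ P').mul_mem_left B m) using 1; push_cast; rw [t]; ring
  have s := (int_mem hq h' _).2 ((int_mem hq h _).1 ((P.sub_mem_iff_right (P.mul_mem_left _ hx)).1 r'.1))
  exact (‹P'.IsPrime›.mem_or_mem ((P'.sub_mem_iff_left s).1 r'.2)).resolve_left fun c =>
    hd (Int.natCast_dvd_natCast.1 ((int_mem hq h' d).1 (by simpa using c)))

theorem fix (T : O →+* O) (hT : T β = -β) (a : ℤ) (h4 : q % 4 = 3) (h : (q : O) ∈ P)
    (e : β ^ 2 + a ^ 2 ∈ P) {x : O} (hx : x ∈ P) : T x ∈ P := by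
  obtain ⟨f, t⟩ := den x
  have t' : d * T x = aeval (-β) f := by
    rw [← hT, ← map_natCast T, ← map_mul, t]
    exact (aeval_algHom_apply T.toIntAlgHom β f).symm
  obtain ⟨A, B, r, r'⟩ := red (P := P) (β := β) (-a ^ 2) (by simpa using e) f
  rw [← t] at r
  have s := (P.sub_mem_iff_right (P.mul_mem_left _ hx)).1 r
  have u : (q : ℤ) ∣ A ^ 2 + (a * B) ^ 2 := (int_mem hq h _).1 (by
    convert P.add_mem (P.mul_mem_right (A - B * β) s) (P.mul_mem_left (B ^ 2) e) using 1
    push_cast; ring)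
  haveI := Fact.mk hq
  have w : (A : O) ∈ P := (int_mem hq h A).2 ((ZMod.intCast_zmod_eq_zero_iff_dvd A q).1
    (by_contra fun c => ZMod.mod_four_ne_three_of_sq_eq_neg_sq (y := a * B) c
      (eq_neg_of_add_eq_zero_left (by
        exact_mod_cast (ZMod.intCast_zmod_eq_zero_iff_dvd _ q).2 u)) h4))
  have z : d * T x ∈ P := by
    convert P.add_mem r' (P.sub_mem (P.add_mem w w) s) using 1; rw [t']; ring
  exact (hP.mem_or_mem z).resolve_left fun c =>
    hd (Int.natCast_dvd_natCast.1 ((int_mem hq h d).1 (by simpa using c)))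

end ring

variable {L : Type} [Field L] [NumberField L] {c : ℤ} {b : Qb} {j : L →+* Qb} {D : Dat L}
  (hc : c < 0) (E : Emb 4 c b j D)
include E

theorem coords (x : L) : ∃ a₀ a₁ a₂ a₃ : ℚ, x + D.τ x = 2 * (a₀ + a₂ * D.b ^ 2) ∧
    x - D.τ x = 2 * (a₁ * D.b + a₃ * D.b ^ 3) := by
  obtain ⟨f, l, rfl⟩ := E.gen x
  refine ⟨f.coeff 0, f.coeff 1, f.coeff 2, f.coeff 3, ?_, ?_⟩ <;>
  · rw [← aeval_algHom_apply, D.τ_b, aeval_eq_sum_range' l, aeval_eq_sum_range' l]
    simp only [Finset.sum_range_succ, Finset.sum_range_zero, Algebra.smul_def, eq_ratCast]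
    ring

theorem vb (n : ℕ) : D.p.valuation L (D.b ^ n) = exp (-n : ℤ) := by
  rw [map_pow, D.val_b, ← exp_nsmul]; simp

theorem odd {s : L} {r : ℚ} (h : D.τ s = -s) (e : s ^ 2 = r) : s = 0 := by
  obtain ⟨-, a, -, a', -, t⟩ := coords E s
  have t : s = a * D.b + a' * D.b ^ 3 := by rw [h] at t; linear_combination t / 2
  have p := E.pw
  have z := pw E.val3 1 (a := r - 2 * a * a' * c) (a' := a ^ 2 + a' ^ 2 * c) (vb E 2) (by
    push_cast
    rw [← e, t]
    linear_combination (2 * a * a' + a' ^ 2 * D.b ^ 2) * p) (by decide)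
  have z' : a' = 0 := pw E.val3 2 (a := a) (x := -D.b ^ 4) (by rw [Valuation.map_neg, vb E 4])
    (by rw [p]; exact_mod_cast (by linear_combination z : a ^ 2 = a' ^ 2 * -(c : ℚ))) (by decide)
  have z'' : a = 0 := by simpa [z'] using z
  simp [t, z', z'']

include hc

theorem ns3 : ¬ IsSquare (3 : L) := by
  rintro ⟨s, e⟩
  have e : s ^ 2 = 3 := by rw [e, sq]
  rcases sq_eq_sq_iff_eq_or_eq_neg.1 (show D.τ s ^ 2 = s ^ 2 by rw [← map_pow, e, map_ofNat])
    with h | h
  · obtain ⟨a, -, a', -, t, -⟩ := coords E s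
    have t : s = a + a' * D.b ^ 2 := by rw [h] at t; linear_combination t / 2
    have p := E.pw
    have k : (3 - a ^ 2 - a' ^ 2 * c : L) = 2 * a * a' * D.b ^ 2 := by
      rw [← e, t]; linear_combination a' ^ 2 * p
    have z := pw E.val3 1 (a := 3 - a ^ 2 - a' ^ 2 * c) (a' := 2 * a * a') (vb E 2)
      (by push_cast; linear_combination k) (by decide)
    have k' : (3 - a ^ 2 - a' ^ 2 * c : ℚ) = 0 := by
      rw [show (2 * a * a' : L) = ((2 * a * a' : ℚ) : L) by push_cast; rfl, z, Rat.cast_zero,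
        zero_mul] at k
      exact_mod_cast k
    have c0 : (c : ℚ) < 0 := by exact_mod_cast hc
    rcases mul_eq_zero.1 z with z | rfl
    · nlinarith [sq_nonneg a', show a = 0 by linarith]
    · exact one_ne_zero (pw E.val3 2 (a := a) (a' := 1) E.val3
        (by exact_mod_cast (by linear_combination -k')) (by decide))
  · rw [odd E (r := 3) h (by exact_mod_cast e)] at e
    norm_num at e

omit hc in
theorem ns1 : ¬ IsSquare (-1 : L) := by
  rintro ⟨s, e⟩
  have v1 : D.p.valuation L s = 1 := by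
    have := congrArg (D.p.valuation L) e
    rw [Valuation.map_neg, map_one, map_mul, ← sq] at this
    exact (pow_eq_one_iff.1 this.symm).resolve_right two_ne_zero
  have v2 : D.p.valuation L ((s - 1) * (s + 1)) = 1 := by
    rw [show (s - 1) * (s + 1) = ((-2 : ℤ) : L) by push_cast; linear_combination -e]
    exact one_of E.val3 (by decide)
  have a := (D.p.valuation L).map_sub_le v1.le (map_one _).le
  have a' := (D.p.valuation L).map_add_le v1.le (map_one _).le
  rw [map_mul] at v2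
  rcases D.res s v1 with h | h
  · exact ((mul_le_of_le_one_right' a').trans_lt h).ne v2
  · exact ((mul_le_of_le_one_left' a).trans_lt h).ne v2

theorem tc : IsTotallyComplex L := ⟨fun w => InfinitePlace.not_isReal_iff_isComplex.1 fun h => by
  have e := congrArg (InfinitePlace.embedding_of_isReal h) E.pw
  rw [map_pow, map_intCast] at e
  exact (show (c : ℝ) < 0 by exact_mod_cast hc).not_ge (e ▸ by positivity)⟩

end Quart

open Quart in
theorem quart : QUART := by
  intro L _ _ c b j D hc E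
  haveI := tc hc E
  refine ⟨‹_›, ⟨?_, fun y h t => by_contra fun n => ?_⟩, ns1 E, ns3 hc E, fun i hi => ?_, ?_⟩
  · have := IsTotallyComplex.finrank L
    rw [Units.rank, InfinitePlace.card_eq_nrRealPlaces_add_nrComplexPlaces,
      IsTotallyComplex.nrRealPlaces_eq_zero]
    have := E.fr
    omega
  · have k : y ^ 2 + y + 1 = 0 := mul_left_cancel₀ (sub_ne_zero.2 n) (by linear_combination h)
    have t' : D.τ y = y ^ 2 := by linear_combination y ^ 2 * t - D.τ y * h
    have s : (2 * y + 1) ^ 2 = ((-3 : ℚ) : L) := by push_cast; linear_combination 4 * k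
    rw [odd E (by rw [map_add, map_mul, map_ofNat, map_one, t']; linear_combination 2 * k) s] at s
    norm_num at s
  · have pm : ∀ g : GQ, g i = i ∨ g i = -i := fun g =>
      sq_eq_sq_iff_eq_or_eq_neg.1 (by rw [← map_pow, hi, map_neg, map_one])
    obtain ⟨s, s1, s2⟩ : ∃ s : GQ, s b = b ∧ s i = -i := by
      by_contra! n
      obtain ⟨x, hx⟩ := E.rng i fun g hg => (pm g).resolve_right (n g hg)
      exact ns1 E ⟨x, j.injective (by rw [map_neg, map_one, map_mul, hx, ← sq, hi])⟩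
    obtain ⟨g, hg⟩ := E.cnj (i * b) (by
      rw [← E.jb, ← map_intCast j, ← E.pw, map_pow]
      linear_combination (i ^ 2 - 1) * j D.b ^ 4 * hi)
    refine ⟨⟨s, s1, s2⟩, (pm g).elim (fun h => ⟨g, h, hg⟩) fun h => ⟨g * s, ?_, ?_⟩⟩
    · rw [AlgEquiv.mul_apply, s2, map_neg, h, neg_neg]
    · rw [AlgEquiv.mul_apply, s1, hg]
  · obtain ⟨d, d0, den⟩ := E.den
    let β : 𝓞 L := ⟨D.b, IsIntegral.of_pow (n := 4) (by decide) (E.pw ▸ isIntegral_intCast c)⟩
    let T := RingOfIntegers.mapRingHom (D.τ : L →+* L)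
    have hT : T β = -β := RingOfIntegers.ext D.τ_b
    have p : β ^ 4 = c := RingOfIntegers.ext E.pw
    have den : ∀ x : 𝓞 L, ∃ f : ℤ[X], d * x = aeval β f := fun x => (den x).imp fun f e =>
      RingOfIntegers.ext (e.trans (aeval_algebraMap_apply L β f))
    refine ⟨d.primeFactors, fun v hq h4 hB v' h' => ?_⟩
    have hd : ¬ Nr v ∣ d := fun e => hB (Nat.mem_primeFactors.2 ⟨hq, e, d0⟩)
    have h := Ideal.absNorm_mem v.asIdeal
    haveI := Fact.mk hq
    obtain ⟨a, ha⟩ := mem_zmultiples_of_prime_card (G := 𝓞 L ⧸ v.asIdeal) (p := Nr v) rfl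
      (g' := Ideal.Quotient.mk _ β) one_ne_zero
    have ha : β - a ∈ v.asIdeal := Ideal.Quotient.eq.1 (by simpa using ha.symm)
    have eq : ∀ (u u' : Pr L) (a : ℤ), (Nr v : 𝓞 L) ∈ u.asIdeal → (Nr v : 𝓞 L) ∈ u'.asIdeal →
        β - a ∈ u.asIdeal → β - a ∈ u'.asIdeal → u = u' := fun u u' a x y z t =>
      HeightOneSpectrum.ext ((le_of hq hd den a x y z t).antisymm (le_of hq hd den a y x t z))
    have m : (β - a) * ((β + a) * (β ^ 2 + a ^ 2)) ∈ v'.asIdeal := by
      have r : (β - a) * ((β + a) * (β ^ 2 + a ^ 2)) = (c - a ^ 4 : ℤ) := by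
        push_cast; linear_combination p
      rw [r, int_mem hq h', ← int_mem hq h, ← r]
      exact Ideal.mul_mem_right _ _ ha
    have mp := fun (u : Pr L) x => D.mem_π u x (T x) rfl
    rcases v'.isPrime.mem_or_mem m with m | m
    · exact .inl (eq _ _ a h' h m ha)
    rcases v'.isPrime.mem_or_mem m with m | m
    · refine .inr (.inl (eq _ _ (-a) h' (by simpa using (mp v _).2 h) (by simpa using m) ?_))
      convert neg_mem ((mp v _).2 ha) using 1
      rw [map_sub, hT, map_intCast]; push_cast; ring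
    · have TT : ∀ x, T (T x) = x := fun x => RingOfIntegers.ext (D.ττ x)
      refine .inr (.inr (HeightOneSpectrum.ext (Ideal.ext fun x => ?_)))
      rw [← TT x, mp]
      exact ⟨fix hq hd den T hT a h4 h' m, fun e => TT (T x) ▸ fix hq hd den T hT a h4 h' m e⟩

end Vale.Agent.P027M.S
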