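import Vale.Agent.P027M.S.Ray2

/-!
# P027, block S: L-series of nontrivial ray class characters are bounded at `1`
-/

set_option linter.all false

namespace Vale.Agent.P027M.S.Ry

open NumberField NumberField.Units Complex Finset Module MeasureTheory Filter Topology
open Vale.Agent.P016Z Vale.Agent.P016Z.TH Vale.Agent.P016Z.Pois
open scoped Real nonZeroDivisors

variable {K ι : Type} [Field K] [NumberField K] [Fintype ι] (C : CM K ι)
variable {D : ℕ} {θ : Ideal (𝓞 K) →* ℂ}

/-- the scaling factor -/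
noncomputable def sc (ι : Type) [Fintype ι] (D : ℕ) : ℝ := Real.exp (-∑ _j : ι, 2 * Real.log D)

theorem iI_zero (A : FI K) : iI A 0 = ⊥ :=
  iI_of_span (by rw [FractionalIdeal.spanSingleton_zero, FractionalIdeal.coeIdeal_bot, zero_mul])

theorem exists_rem (hD : 2 ≤ D) (hθ : RayCh D θ) (A : FI K) :
    ∃ (B' : ℝ) (b : ι → ℝ), 0 ≤ B' ∧ ∀ y,
      ‖rem C A θ (TT θ D A * ((vol A)⁻¹ * sc ι D : ℝ)) y‖ ≤
        B' * Real.exp (-∑ j, y j) * thr C (dl A) (b - y) := by
  classical
  have hM0 : D ≠ 0 := by omega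
  have hMK : (D : K) ≠ 0 := by exact_mod_cast hM0
  have := finite_Qt A hM0
  let _ : Fintype (Qt A D) := Fintype.ofFinite _
  let f : K → ℂ := fun x => θ (iI A x)
  let o : Qt A D → K := fun q => (Quotient.out q : V A)
  let ψ : Qt A D × El A → El A := fun p => ⟨o p.1 + D * p.2, by
    have := ((Quotient.out p.1 : V A) + D • (⟨p.2.1, p.2.2⟩ : V A)).2
    simpa only [Submodule.coe_add, AddSubgroupClass.coe_nsmul, nsmul_eq_mul,
      Submodule.coe_smul_of_tower, FractionalIdeal.mem_coe] using this⟩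
  have hψ : Function.Bijective ψ := by
    constructor
    · rintro ⟨q, z⟩ ⟨q', z'⟩ h
      have h0 : o q + D * z = o q' + D * z' := congrArg Subtype.val h
      have h1 : q = q' := by
        rw [← QuotientAddGroup.out_eq' q, ← QuotientAddGroup.out_eq' q', mk_eq_iff]
        refine ⟨⟨z.1, z.2⟩ - ⟨z'.1, z'.2⟩, ?_⟩
        change o q' = o q + D * (z.1 - z'.1)
        linear_combination -h0
      subst h1
      rw [Subtype.ext (mul_left_cancel₀ hMK (add_left_cancel h0))]
    · intro x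
      obtain ⟨z, hz⟩ := (mk_eq_iff (D := D) _ (⟨x.1, x.2⟩ : V A)).1
        (QuotientAddGroup.out_eq' (QuotientAddGroup.mk (⟨x.1, x.2⟩ : V A) : Qt A D))
      exact ⟨(QuotientAddGroup.mk (⟨x.1, x.2⟩ : V A), ⟨z.1, z.2⟩), Subtype.ext hz.symm⟩
  let b' : ι → ℝ := fun _ => 2 * Real.log D
  let v : ℝ := (vol A)⁻¹ * sc ι D
  have hv : 0 ≤ v := by have := vol_pos A; unfold v sc; positivity
  refine ⟨(∑ q : Qt A D, ‖f (o q)‖) * v, -b', by positivity, fun y => ?_⟩
  let G : El A → ℂ := fun x => f x * (gs (ex y) (C.em x) : ℂ)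
  have h1 : Summable G := by
    refine Summable.of_norm_bounded
      ((summable_El C A (t := ex y) (fun _ => Real.exp_pos _) 0).mul_left 1) fun x => ?_
    rw [norm_mul, norm_real, Real.norm_of_nonneg (gs_pos _ _).le, zero_add]
    exact mul_le_mul_of_nonneg_right (hθ.le _) (gs_pos _ _).le
  have h3 : HasSum G (th C A θ y) := by
    have h2 := tsum_El A (fun x => f x * (gs (ex y) (C.em x) : ℂ)) h1
    have h0 : f 0 = 0 := by simp only [f, iI_zero, th_bot hD hθ]
    rw [h0, zero_mul, zero_add] at h2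
    have h4 := h1.hasSum
    rwa [h2] at h4
  rw [← (Equiv.ofBijective ψ hψ).hasSum_iff] at h3
  let t : Qt A D → ℝ := fun q => ∑' z : El A, gs (ex (y + b')) (C.em (o q / D) + C.em z)
  have h4 : ∀ q : Qt A D, HasSum (fun z : El A => (G ∘ Equiv.ofBijective ψ hψ) (q, z))
      (f (o q) * t q) := by
    intro q
    have h5 := (hasSum_ofReal.2 (summable_El C A (t := ex (y + b'))
      (fun _ => Real.exp_pos _) (C.em (o q / D))).hasSum).mul_left (f (o q))
    refine h5.congr_fun fun z => ?_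
    change f (o q + D * z) * (gs (ex y) (C.em (o q + D * z)) : ℂ) = _
    have h7 : f (o q + D * z) = f (o q) := per hD hθ (Quotient.out q : V A) ⟨z.1, z.2⟩
    rw [h7]
    congr 2
    unfold gs
    congr 3
    refine sum_congr rfl fun j _ => ?_
    have h6 : Real.exp (2 * Real.log D) = normSq (D : ℂ) := by
      rw [normSq_natCast, two_mul, Real.exp_add, Real.exp_log (by positivity)]
    have h7 : (D : ℂ) ≠ 0 := by exact_mod_cast hM0
    simp only [ex, b', Pi.add_apply, Real.exp_add, h6, mul_assoc, ← map_mul normSq, CM.em_apply,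
      map_add, map_mul (C.sig j), map_natCast, map_div₀]
    congr 2
    field_simp
  have h8 := (h3.prod_fiberwise h4).unique (hasSum_fintype _)
  have h9 : ((vol A)⁻¹ * Real.exp (-∑ j, (y + b') j) : ℝ) =
      v * Real.exp (-∑ j, y j) := by
    simp only [v, sc, b', Pi.add_apply, sum_add_distrib, neg_add, Real.exp_add]
    ring
  have h10 : rem C A θ (TT θ D A * ((vol A)⁻¹ * sc ι D : ℝ)) y =
      ∑ q : Qt A D, f (o q) * ((t q : ℂ) - (v * Real.exp (-∑ j, y j) : ℝ)) := by
    rw [TT, finsum_eq_sum_of_fintype]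
    simp only [rem, ← h8, mul_sub, sum_sub_distrib, ← sum_mul, v, f, o]
    push_cast
    ring
  rw [h10, sum_mul, sum_mul, sum_mul]
  refine (norm_sum_le _ _).trans (sum_le_sum fun q _ => ?_)
  have h11 := poisson_rem C A (y + b') (C.em (o q / D))
  rw [h9, show -(y + b') = -b' - y by abel] at h11
  rw [norm_mul]
  exact (mul_le_mul_of_nonneg_left h11 (norm_nonneg _)).trans_eq (by ring)

theorem sum_TT (hD : 2 ≤ D) (hθ : RayCh D θ) (A : ClassGroup (𝓞 K) → FI K)
    (hA : ∀ c, ClassGroup.mk K (A c) = c) {I : Ideal (𝓞 K)} (h0 : I ≠ ⊥)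
    (hI : (Ideal.absNorm I).Coprime D) (h1 : θ I ≠ 1) : ∑ c, TT θ D (A c) = 0 := by
  let I' : (Ideal (𝓞 K))⁰ := ⟨I, mem_nonZeroDivisors_of_ne_zero h0⟩
  have h2 : ∀ c, TT θ D (A c) = θ I * TT θ D (A (ClassGroup.mk0 I' * c)) := by
    intro c
    have h3 : ClassGroup.mk K (A (ClassGroup.mk0 I' * c)) =
        ClassGroup.mk K (FractionalIdeal.mk0 K I' * A c) := by
      rw [hA, map_mul, hA, ClassGroup.mk_mk0]
    rw [← mul_inv_eq_one, ← map_inv, ← map_mul, ← inv_eq_one, ← map_inv, ClassGroup.mk_eq_one_iff,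
      FractionalIdeal.isPrincipal_iff] at h3
    obtain ⟨a, ha⟩ := h3
    have h4 : (I : FractionalIdeal (𝓞 K)⁰ K) * A c =
        FractionalIdeal.spanSingleton (𝓞 K)⁰ a * A (ClassGroup.mk0 I' * c) := by
      rw [← ha, ← Units.val_mul, mul_inv_rev, inv_inv, inv_mul_cancel_right, Units.val_mul,
        FractionalIdeal.coe_mk0]
    refine TT_mul hD hθ hI (fun h => ?_) h4
    rw [h, FractionalIdeal.spanSingleton_zero] at ha
    exact Units.ne_zero _ ha
  have h5 : ∑ c, TT θ D (A c) = θ I * ∑ c, TT θ D (A c) := by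
    have h7 := Equiv.sum_comp (Equiv.mulLeft (ClassGroup.mk0 I')) fun c => TT θ D (A c)
    conv_rhs => rw [← h7, mul_sum]
    exact sum_congr rfl fun c _ => h2 c
  have h6 : (1 - θ I) * ∑ c, TT θ D (A c) = 0 := by linear_combination h5
  exact (mul_eq_zero.1 h6).resolve_left (sub_ne_zero.2 h1.symm)

end Vale.Agent.P027M.S.Ry

namespace Vale.Agent.P027M.S

open NumberField NumberField.Units Complex Finset Filter Topology
open Vale.Agent.P016Z Vale.Agent.P016Z.TH Vale.Agent.P016Z.Pois Ry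
open scoped Real nonZeroDivisors

theorem ray : RAY := by
  intro K _ _ _ D θ hD hθ ⟨I, h0, hI, h1⟩
  obtain ⟨C⟩ := exists_CM' K
  choose J hJ using ClassGroup.mk0_surjective (R := 𝓞 K)
  let A : ClassGroup (𝓞 K) → FI K := fun k => FractionalIdeal.mk0 K (J k)
  have hA : ∀ c, ClassGroup.mk K (A c) = c := fun c => by rw [ClassGroup.mk_mk0, hJ]
  have hA' : Function.Bijective fun c => ClassGroup.mk K (A c) := by
    simp only [hA]; exact Function.bijective_id
  choose B' b hB hP using fun k => Ry.exists_rem C hD hθ (A k)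
  have hF := fun k => Ry.FA_spec C _ _ hθ.le _ (b k) (hB k) (hP k)
  set F : ℂ → ℂ := fun s => ∑ k, Ry.FA C (A k) θ
    (TT θ D (A k) * ((vol (A k))⁻¹ * sc (InfinitePlace K) D : ℝ)) s with hFd
  have hd : DifferentiableAt ℂ F 1 := by
    refine (DifferentiableOn.fun_sum fun k _ => (hF k).1).differentiableAt ?_
    exact (isOpen_lt continuous_const continuous_re).mem_nhds (by simp)
  have hL : ∀ s : ℝ, 1 < s → F s = (s - 1) * LI θ s := by
    intro s hs
    have hs' : 1 < (s : ℂ).re := by simpa using hs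
    rw [LI, ← Ry.sum_zc A hA' hθ.le hs', mul_sum]
    exact sum_congr rfl fun k _ => (hF k).2 s hs'
  have h1F : F 1 = 0 := by
    have h2 := sum_TT hD hθ A hA h0 hI h1
    have h3 : ∀ k, Ry.FA C (A k) θ
        (TT θ D (A k) * ((vol (A k))⁻¹ * sc (InfinitePlace K) D : ℝ)) 1 =
        (pre K (InfinitePlace K) 1 1 * ((√|(discr K : ℝ)|)⁻¹ * sc (InfinitePlace K) D : ℝ) *
          kap C) * TT θ D (A k) := by
      intro k
      have h4 : (nrm (A k) : ℂ) ≠ 0 := by exact_mod_cast (nrm_pos (A k)).ne'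
      simp only [Ry.FA, pre, sub_self, zero_mul, zero_add, one_mul, nrm_one, Real.log_one,
        ofReal_zero, Complex.exp_zero, vol, ← ofReal_exp, Real.exp_log (nrm_pos (A k))]
      push_cast
      field_simp
    rw [hFd]
    simp only [h3, ← mul_sum, h2, mul_zero]
  have h5 := hd.isBigO_sub
  rw [h1F] at h5
  obtain ⟨c, hc⟩ := h5.bound
  have h6 : Tendsto (fun s : ℝ => (s : ℂ)) (𝓝[>] 1) (𝓝 1) :=
    (continuous_ofReal.tendsto' 1 1 ofReal_one).mono_left nhdsWithin_le_nhds
  refine ⟨c, ?_⟩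
  filter_upwards [h6.eventually hc, self_mem_nhdsWithin] with s hs hs1
  rw [sub_zero, hL s hs1, norm_mul, mul_comm] at hs
  refine le_of_mul_le_mul_right hs (norm_pos_iff.2 (sub_ne_zero.2 ?_))
  exact_mod_cast (ne_of_gt hs1)

end Vale.Agent.P027M.S
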