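import Vale.Agent.P027M.S.Defs
import Vale.Agent.P016Z.Cheb.Kum

/-!
# P027, route M, block S: the field of the square root of `3`
-/

set_option linter.all false

noncomputable section

namespace Vale.Agent.P027M.S

open NumberField IsDedekindDomain Filter Topology Polynomial
open Vale.Agent.P022 Vale.Agent.P022.C Vale.Agent.P016Z

namespace Sq3

variable {L : Type} [Field L] [NumberField L] {D : Dat L}

/-- what is used of the embedding -/
structure Q3 (D : Dat L) : Prop where
  sq : D.b ^ 2 = 3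
  fr : Module.finrank ℚ L = 2
  gen : ∀ x : L, ∃ α β : ℚ, x = α + β * D.b

lemma q3 {b : Qb} {j : L →+* Qb} (h : Emb 2 3 b j D) : Q3 D := by
  refine ⟨by simpa using h.pw, h.fr, fun x => ?_⟩
  obtain ⟨f, hf, rfl⟩ := h.gen x
  refine ⟨f.coeff 0, f.coeff 1, ?_⟩
  rw [aeval_eq_sum_range' hf]
  simp [Finset.sum_range_succ, Algebra.smul_def]

lemma tau (α β : ℚ) : D.τ (α + β * D.b) = α - β * D.b := by
  rw [map_add, map_mul, map_ratCast, map_ratCast, D.τ_b]
  ring

lemma ind (h : Q3 D) {α β : ℚ} (e : (α : L) + β * D.b = 0) : β = 0 := by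
  have h1 := tau (D := D) α β
  rw [e, map_zero] at h1
  have h2 : ((6 * β : ℚ) : L) = 0 := by
    push_cast
    linear_combination D.b * e + D.b * h1 - 2 * β * h.sq
  have h3 : 6 * β = 0 := by exact_mod_cast h2
  linarith

lemma int_b (h : Q3 D) : IsIntegral ℤ D.b := by
  refine IsIntegral.of_pow (n := 2) (by norm_num) ?_
  rw [h.sq]
  simpa using isIntegral_algebraMap (R := ℤ) (A := L) (x := 3)

lemma int_of {q : ℚ} (h : IsIntegral ℤ (q : L)) : ∃ m : ℤ, (m : ℚ) = q := by
  have h1 : IsIntegral ℤ q := (isIntegral_algebraMap_iff (algebraMap ℚ L).injective).1 h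
  exact IsIntegrallyClosed.isIntegral_iff.1 h1

lemma par (m k N : ℤ) (h : 12 * N = 3 * m ^ 2 - k ^ 2) : 2 ∣ m ∧ 6 ∣ k := by
  have h3 : (3 : ℤ) ∣ k := Int.prime_three.dvd_of_dvd_pow (n := 2) ⟨m ^ 2 - 4 * N, by linarith⟩
  obtain ⟨k', rfl⟩ := h3
  have h4 : 4 * N = m ^ 2 - 3 * k' ^ 2 := by linarith
  rcases Int.even_or_odd' m with ⟨a, rfl | rfl⟩ <;> rcases Int.even_or_odd' k' with ⟨c, rfl | rfl⟩
  · exact ⟨⟨a, rfl⟩, ⟨c, by ring⟩⟩
  · exfalso
    have : 4 * (N - a ^ 2 + 3 * c ^ 2 + 3 * c) = -3 := by linarith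
    omega
  · exfalso
    have : 4 * (N - a ^ 2 - a + 3 * c ^ 2) = 1 := by linarith
    omega
  · exfalso
    have : 4 * (N - a ^ 2 - a + 3 * c ^ 2 + 3 * c) = -2 := by linarith
    omega

lemma ints (h : Q3 D) (x : 𝓞 L) : ∃ m n : ℤ, (x : L) = m + n * D.b := by
  obtain ⟨α, β, e⟩ := h.gen x
  have i1 : IsIntegral ℤ ((α : L) + β * D.b) := e ▸ x.isIntegral_coe
  have i2 : IsIntegral ℤ ((α : L) - β * D.b) := by
    rw [← tau]
    exact i1.map (D.τ.toAlgHom.restrictScalars ℤ)
  obtain ⟨m, hm⟩ := int_of (L := L) (q := 2 * α) (by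
    rw [show ((2 * α : ℚ) : L) = α + β * D.b + (α - β * D.b) by push_cast; ring]
    exact i1.add i2)
  obtain ⟨k, hk⟩ := int_of (L := L) (q := 6 * β) (by
    rw [show ((6 * β : ℚ) : L) = D.b * (α + β * D.b - (α - β * D.b)) by
      push_cast; linear_combination -2 * (β : L) * h.sq]
    exact (int_b h).mul (i1.sub i2))
  obtain ⟨N, hN⟩ := int_of (L := L) (q := α ^ 2 - 3 * β ^ 2) (by
    rw [show ((α ^ 2 - 3 * β ^ 2 : ℚ) : L) = (α + β * D.b) * (α - β * D.b) by
      push_cast; linear_combination (β : L) ^ 2 * h.sq]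
    exact i1.mul i2)
  have h1 : ((12 * N : ℤ) : ℚ) = ((3 * m ^ 2 - k ^ 2 : ℤ) : ℚ) := by
    push_cast
    rw [hm, hk, hN]
    ring
  obtain ⟨⟨a, rfl⟩, ⟨c, rfl⟩⟩ := par m k N (by exact_mod_cast h1)
  push_cast at hm hk
  refine ⟨a, c, ?_⟩
  rw [e, show α = a by linarith, show β = c by linarith]
  push_cast
  rfl

lemma real (h : Q3 D) : IsTotallyReal L := by
  refine ⟨fun w => ?_⟩
  rw [InfinitePlace.isReal_iff, ComplexEmbedding.isReal_iff]
  have h1 : w.embedding D.b ^ 2 = 3 := by rw [← map_pow, h.sq, map_ofNat]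
  have h2 : (w.embedding D.b).im = 0 := by
    have a := congrArg Complex.re h1
    have b := congrArg Complex.im h1
    simp only [sq, Complex.mul_re, Complex.mul_im, Complex.re_ofNat, Complex.im_ofNat] at a b
    by_contra hn
    have : (w.embedding D.b).re = 0 := by
      have c : (w.embedding D.b).re * (w.embedding D.b).im = 0 := by linarith
      exact (mul_eq_zero.1 c).resolve_right hn
    rw [this] at a
    nlinarith [mul_self_nonneg (w.embedding D.b).im]
  ext x
  obtain ⟨α, β, rfl⟩ := h.gen x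
  rw [ComplexEmbedding.conjugate_coe_eq]
  simp only [map_add, map_mul, map_ratCast, Complex.conj_eq_iff_im.2 h2]

lemma pid (h : Q3 D) : IsPrincipalIdealRing (𝓞 L) := by
  have := real h
  apply RingOfIntegers.isPrincipalIdealRing_of_abs_discr_lt
  rw [IsTotallyReal.nrComplexPlaces_eq_zero, h.fr]
  have sp : ⊤ ≤ Submodule.span ℚ (Set.range ![(1 : L), D.b]) := fun x _ => by
    obtain ⟨α, β, rfl⟩ := h.gen x
    refine Submodule.add_mem _ ?_ ?_
    · have := Submodule.smul_mem (Submodule.span ℚ (Set.range ![(1 : L), D.b])) α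
        (Submodule.subset_span ⟨0, rfl⟩)
      simpa [Algebra.smul_def] using this
    · have := Submodule.smul_mem (Submodule.span ℚ (Set.range ![(1 : L), D.b])) β
        (Submodule.subset_span ⟨1, rfl⟩)
      simpa [Algebra.smul_def] using this
  have h1 := kum_discr_le (basisOfTopLeSpanOfCardEqFinrank ![(1 : L), D.b] sp (by simp [h.fr]))
    (fun i => by
      rw [coe_basisOfTopLeSpanOfCardEqFinrank]
      fin_cases i
      exacts [isIntegral_one, int_b h])
  have t1 : Algebra.trace ℚ L 1 = 2 := by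
    have := Algebra.trace_algebraMap (R := ℚ) (S := L) 1
    rw [map_one, h.fr] at this
    rw [this]
    norm_num
  have t2 : Algebra.trace ℚ L D.b = 0 := by
    have := Algebra.trace_eq_of_algEquiv D.τ D.b
    rw [D.τ_b, map_neg] at this
    linarith
  have t3 : Algebra.trace ℚ L (D.b * D.b) = 6 := by
    have := Algebra.trace_algebraMap (R := ℚ) (S := L) 3
    rw [map_ofNat, h.fr] at this
    rw [← sq, h.sq, this]
    norm_num
  have h2 : Algebra.discr ℚ ![(1 : L), D.b] = 12 := by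
    rw [Algebra.discr_def, Matrix.det_fin_two]
    simp only [Algebra.traceMatrix_apply, Algebra.traceForm_apply, Matrix.cons_val_zero,
      Matrix.cons_val_one, one_mul, mul_one, t1, t2, t3]
    norm_num
  rw [coe_basisOfTopLeSpanOfCardEqFinrank, h2] at h1
  rw [Int.cast_abs]
  refine h1.trans_lt ?_
  norm_num [Nat.factorial]

lemma good (h : Q3 D) : Good D := by
  constructor
  · have h1 := InfinitePlace.card_add_two_mul_card_eq_rank L
    have h2 := InfinitePlace.card_eq_nrRealPlaces_add_nrComplexPlaces L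
    rw [h.fr] at h1
    unfold Units.rank
    omega
  · intro y h1 _
    obtain ⟨α, β, rfl⟩ := h.gen y
    have h2 : ((α ^ 3 + 9 * α * β ^ 2 - 1 : ℚ) : L) + ((3 * β * (α ^ 2 + β ^ 2) : ℚ) : L) * D.b =
        0 := by
      push_cast
      linear_combination h1 - (3 * α * β ^ 2 + β ^ 3 * D.b) * h.sq
    have h3 := ind h h2
    have h4 : β = 0 := by
      by_contra hn
      have : 0 < α ^ 2 + β ^ 2 := by positivity
      exact mul_ne_zero (mul_ne_zero three_ne_zero hn) this.ne' h3
    subst h4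
    simp only [Rat.cast_zero, zero_mul, add_zero] at h1 ⊢
    have h5 : α ^ 3 = 1 := by exact_mod_cast h1
    have h6 : α = 1 := (pow_eq_one_iff_of_ne_zero (by norm_num)).1 h5 |>.resolve_right
      (fun h => absurd h.2 (by decide))
    rw [h6, Rat.cast_one]

lemma lt_one {v : Pr L} {x : L} (h : v.valuation L x < 1) :
    v.valuation L x ≤ WithZero.exp (-1) := by
  by_cases h0 : v.valuation L x = 0
  · rw [h0]
    exact zero_le
  · rw [← WithZero.exp_log h0] at h ⊢
    rw [← WithZero.exp_zero, WithZero.exp_lt_exp] at h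
    rw [WithZero.exp_le_exp]
    omega

lemma unit (h : Q3 D) {u u' : L} (h1 : IsIntegral ℤ u) (h2 : IsIntegral ℤ u') (e : u * u' = 1)
    (v : Pr L) : v.valuation L u = 1 := by
  have a := v.valuation_le_one (K := L) ⟨u, h1⟩
  have b := v.valuation_le_one (K := L) ⟨u', h2⟩
  have c : v.valuation L u * v.valuation L u' = 1 := by rw [← map_mul, e, map_one]
  refine le_antisymm a ?_
  calc (1 : WithZero (Multiplicative ℤ)) = v.valuation L u * v.valuation L u' := c.symm
    _ ≤ v.valuation L u * 1 := mul_le_mul_right b _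
    _ = _ := mul_one _

lemma adj (h : Q3 D) {x : L} (hx : D.p.valuation L (x - 1) < 1) :
    ∃ u : L, (∀ v : Pr L, v.valuation L u = 1) ∧ Cong D 2 (u * x) := by
  have b0 : D.b ≠ 0 := fun e => by
    have := h.sq
    rw [e] at this
    norm_num at this
  obtain ⟨t, rfl⟩ : ∃ t, x = 1 + D.b * t := ⟨(x - 1) / D.b, by field_simp; ring⟩
  have e2 : (WithZero.exp (-2 : ℤ) : WithZero (Multiplicative ℤ)) =
      WithZero.exp (-1) * WithZero.exp (-1) := by
    rw [← WithZero.exp_add]
    norm_num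
  have hm : ∀ s : L, D.p.valuation L s < 1 → D.p.valuation L (D.b * s) ≤ WithZero.exp (-2) :=
    fun s hs => by
      rw [map_mul, D.val_b, e2]
      exact mul_le_mul_right (lt_one hs) _
  have t1 : D.p.valuation L t ≤ 1 := by
    have := lt_one hx
    rw [add_sub_cancel_left, map_mul, D.val_b] at this
    exact (mul_le_iff_le_one_right WithZero.exp_pos).1 this
  have h3 : ∀ s : L, D.p.valuation L s ≤ 1 → D.p.valuation L (3 * s) ≤ WithZero.exp (-2) :=
    fun s hs => by
      rw [map_mul]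
      exact (mul_le_mul' D.ram hs).trans_eq (mul_one _)
  have vb : D.p.valuation L D.b ≤ 1 := D.p.valuation_le_one (K := L) ⟨D.b, int_b h⟩
  have i2 : IsIntegral ℤ (2 : L) := by
    simpa using isIntegral_algebraMap (R := ℤ) (A := L) (x := 2)
  have s1 : D.p.valuation L (1 + t + D.b * t) ≤ 1 :=
    Valuation.map_add_le _ (Valuation.map_add_le _ (map_one _).le t1)
      (by rw [map_mul]; exact mul_le_one' vb t1)
  have s2 : D.p.valuation L (1 - t + D.b * t) ≤ 1 :=
    Valuation.map_add_le _ (Valuation.map_sub_le _ (map_one _).le t1)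
      (by rw [map_mul]; exact mul_le_one' vb t1)
  rcases t1.lt_or_eq with t2 | t2
  · refine ⟨1, fun v => map_one _, ?_⟩
    unfold Cong
    rw [one_mul, add_sub_cancel_left]
    exact hm t t2
  · rcases D.res t t2 with t3 | t3
    · refine ⟨-(2 + D.b), unit h (i2.add (int_b h)).neg (i2.sub (int_b h)).neg
        (by linear_combination -h.sq), ?_⟩
      unfold Cong
      rw [show -(2 + D.b) * (1 + D.b * t) - 1 = D.b * (t - 1) - 3 * (1 + t + D.b * t) by
        linear_combination -t * h.sq]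
      exact Valuation.map_sub_le _ (hm _ t3) (h3 _ s1)
    · refine ⟨-(2 - D.b), unit h (i2.sub (int_b h)).neg (i2.add (int_b h)).neg
        (by linear_combination -h.sq), ?_⟩
      unfold Cong
      rw [show -(2 - D.b) * (1 + D.b * t) - 1 = D.b * (t + 1) - 3 * (1 - t + D.b * t) by
        linear_combination t * h.sq]
      exact Valuation.map_sub_le _ (hm _ t3) (h3 _ s2)

lemma ray (h : Q3 D) (lam : Pr L → ZMod 3) (hl : Ray D lam) : lam = 0 := by
  funext v
  by_cases hv : v = D.p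
  · have := hl.neg D.p
    rw [D.π_p] at this
    rw [hv]
    exact (by decide : ∀ z : ZMod 3, z = -z → z = 0) _ this
  have := pid h
  obtain ⟨x, hx⟩ := (IsPrincipalIdealRing.principal v.asIdeal).principal
  have hx' : v.asIdeal = Ideal.span {x} := hx
  have x0 : x ≠ 0 := fun e => v.ne_bot (by rw [hx', e]; simp)
  have o1 : ∀ v' : Pr L, v' ≠ v → v'.valuation L (x : L) = 1 := fun v' hv' =>
    v'.valuation_eq_one_iff_notMem.2 fun hm => hv' (HeightOneSpectrum.ext
      (v.isMaximal.eq_of_le v'.isPrime.ne_top (by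
        rw [hx', Ideal.span_singleton_le_iff_mem]; exact hm)).symm)
  have o2 : v.valuation L (x : L) = WithZero.exp (-1) :=
    (v.valuation_of_algebraMap x).trans (v.intValuation_singleton x0 hx')
  obtain ⟨y, y1, y2⟩ : ∃ y : L, (∀ v' : Pr L, v'.valuation L y = v'.valuation L (x : L)) ∧
      Cong D 2 y := by
    rcases D.res x (o1 _ (Ne.symm hv)) with r | r
    · obtain ⟨u, u1, u2⟩ := adj h r
      exact ⟨_, fun v' => by rw [map_mul, u1, one_mul], u2⟩
    · obtain ⟨u, u1, u2⟩ := adj h (x := -(x : L)) (by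
        rw [show -(x : L) - 1 = -(x + 1) by ring, Valuation.map_neg]; exact r)
      exact ⟨_, fun v' => by rw [map_mul, u1, one_mul, Valuation.map_neg], u2⟩
  have r := hl.ray y y2
  rw [finsum_eq_single _ v fun v' hv' => by simp [ordv, y1, o1 v' hv']] at r
  simpa [ordv, y1, o2] using r

lemma nsq {q : ℕ} (hq : TWP 1 {3} q) (m n : ℤ) (h : (q : ℤ) ∣ m ^ 2 - 3 * n ^ 2) :
    (q : ℤ) ∣ n := by
  obtain ⟨q1, q2, q3, q4⟩ := hq
  haveI := Fact.mk q1
  haveI : Fact (Nat.Prime 3) := ⟨Nat.prime_three⟩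
  by_contra hn
  have n0 : (n : ZMod q) ≠ 0 := fun e => hn ((ZMod.intCast_zmod_eq_zero_iff_dvd n q).1 e)
  have e := (ZMod.intCast_zmod_eq_zero_iff_dvd _ q).2 h
  push_cast at e
  have s : IsSquare ((3 : ℕ) : ZMod q) := ⟨m / n, by
    push_cast
    field_simp
    linear_combination -e⟩
  have r := ZMod.exists_sq_eq_prime_iff_of_mod_four_eq_three (p := 3) (q := q) (by norm_num) q2
    (fun e => q4 (by simp [← e]))
  refine r.1 ⟨1, ?_⟩ s
  have : q % 3 = 1 := by omega
  rw [← ZMod.natCast_mod q 3, this]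
  simp

lemma fix (h : Q3 D) {q : ℕ} (hq : q = 2 ∨ TWP 1 {3} q) (v : Pr L) (hv : (q : 𝓞 L) ∈ v.asIdeal) :
    D.π v = v := by
  let b : 𝓞 L := ⟨D.b, int_b h⟩
  have hb : (b : L) = D.b := rfl
  have st : ∀ x y : 𝓞 L, (y : L) = D.τ x → x ∈ v.asIdeal → y ∈ v.asIdeal := by
    intro x y e hx
    obtain ⟨m, n, hm⟩ := ints h x
    have e1 : (y : L) = m - n * D.b := by
      have := tau (D := D) m n
      push_cast at this
      rw [e, hm, this]
    have e2 : y = x - (2 * n : ℤ) * b := by
      apply RingOfIntegers.ext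
      have : ((x - (2 * n : ℤ) * b : 𝓞 L) : L) = x - (2 * n : ℤ) * D.b := by
        rw [RingOfIntegers.coe_eq_algebraMap, map_sub, map_mul, map_intCast]
        rfl
      rw [this, e1, hm]
      push_cast
      ring
    have d : (q : ℤ) ∣ 2 * n := by
      rcases hq with rfl | hq
      · exact Dvd.intro _ rfl
      · refine Dvd.dvd.mul_left (nsq hq m n ?_) 2
        by_contra hn
        have pq : Prime (q : ℤ) := Nat.prime_iff_prime_int.1 hq.1
        obtain ⟨a, c, hc⟩ := (pq.irreducible.coprime_iff_not_dvd).2 hn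
        have e3 : ((m ^ 2 - 3 * n ^ 2 : ℤ) : 𝓞 L) = y * x := by
          apply RingOfIntegers.ext
          have a1 : (((m ^ 2 - 3 * n ^ 2 : ℤ) : 𝓞 L) : L) = (m ^ 2 - 3 * n ^ 2 : ℤ) :=
            map_intCast (algebraMap (𝓞 L) L) _
          have a2 : ((y * x : 𝓞 L) : L) = y * x := map_mul (algebraMap (𝓞 L) L) _ _
          rw [a1, a2, e1, hm]
          push_cast
          linear_combination (n : L) ^ 2 * h.sq
        have e4 := congrArg (Int.cast : ℤ → 𝓞 L) hc
        rw [Int.cast_add, Int.cast_mul, Int.cast_mul, e3, Int.cast_one, Int.cast_natCast] at e4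
        exact v.isPrime.ne_top ((Ideal.eq_top_iff_one _).2 (e4 ▸ v.asIdeal.add_mem
          (v.asIdeal.mul_mem_left _ hv)
          (v.asIdeal.mul_mem_left _ (v.asIdeal.mul_mem_left _ hx))))
    obtain ⟨c, hc⟩ := d
    rw [e2, hc, Int.cast_mul, Int.cast_natCast, mul_assoc]
    exact v.asIdeal.sub_mem hx (v.asIdeal.mul_mem_right _ hv)
  refine HeightOneSpectrum.ext (Ideal.ext fun y => ?_)
  let x : 𝓞 L := ⟨D.τ y, y.isIntegral_coe.map (D.τ.toAlgHom.restrictScalars ℤ)⟩
  have hx : (x : L) = D.τ y := rfl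
  have hy : (y : L) = D.τ x := by rw [hx, D.ττ]
  rw [D.mem_π v x y hy]
  exact ⟨st x y hy, st y x hx⟩

end Sq3

theorem sq3 : SQ3 := fun _ _ _ _ _ _ h =>
  ⟨Sq3.good (Sq3.q3 h), Sq3.ray (Sq3.q3 h), fun _ hq => Sq3.fix (Sq3.q3 h) hq⟩

end Vale.Agent.P027M.S
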