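import Vale.Agent.P027M.S.Defs
import Vale.Agent.P022.H916.Fld

/-!
# P027, route M, block S: the decomposition groups at `2`
-/

set_option linter.all false

noncomputable section

namespace Vale.Agent.P027M.S

open NumberField Polynomial
open Vale.Agent.P022

namespace Two

/-- a prime above `2` of a field of degree at most two containing `i` has norm `2` -/
theorem norm_two {K : Type} [Field K] [NumberField K] (hK : Module.finrank ℚ K ≤ 2) (i : 𝓞 K)
    (hi : i ^ 2 = -1) {p : Ideal (𝓞 K)} (hp : p.IsPrime) (h2 : (2 : 𝓞 K) ∈ p) :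
    Ideal.absNorm p = 2 := by
  have e : (1 + i) ^ 2 = 2 * i := by linear_combination hi
  have h1 : 1 + i ∈ p := hp.mem_of_pow_mem 2 (e ▸ p.mul_mem_right i h2)
  have hu : IsUnit i := IsUnit.of_mul_eq_one (-i) (by linear_combination -hi)
  have e2 : Ideal.span {1 + i} ^ 2 = Ideal.span {((2 : ℕ) : 𝓞 K)} := by
    rw [Ideal.span_singleton_pow, e, Ideal.span_singleton_mul_right_unit hu]
    norm_num
  have e3 := congrArg Ideal.absNorm e2
  rw [map_pow, Ideal.absNorm_span_natCast, RingOfIntegers.rank] at e3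
  have d : Ideal.absNorm p ∣ Ideal.absNorm (Ideal.span {1 + i}) :=
    Ideal.absNorm_dvd_absNorm_of_le ((Ideal.span_singleton_le_iff_mem _).2 h1)
  have n1 : Ideal.absNorm p ≠ 1 := fun h => hp.ne_top (Ideal.absNorm_eq_one_iff.1 h)
  generalize Ideal.absNorm (Ideal.span {1 + i}) = a at e3 d
  have a4 : a ^ 2 ≤ 2 ^ 2 := e3 ▸ Nat.pow_le_pow_right (by norm_num) hK
  have a0 : a ≠ 0 := by
    rintro rfl
    exact absurd e3.symm (by positivity)
  have a2 : a ≤ 2 := (Nat.pow_le_pow_iff_left (by norm_num)).1 a4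
  have b2 := (Nat.le_of_dvd (Nat.pos_of_ne_zero a0) d).trans a2
  have b0 : Ideal.absNorm p ≠ 0 := fun h => a0 (Nat.eq_zero_of_zero_dvd (h ▸ d))
  omega

/-- a Frobenius element at `2` which fixes `i` -/
theorem frob (i : Qb) (hi : i ^ 2 = -1) {P : Ideal (𝓞 Qb)} (hP : P.IsPrime)
    (h2 : (2 : 𝓞 Qb) ∈ P) : ∃ g : GQ, g i = i ∧ ∀ x : 𝓞 Qb, g • x - x ^ 2 ∈ P := by
  have hm : (X ^ 2 + 1 : ℚ[X]).Monic := by monicity!
  have hz : aeval i (X ^ 2 + 1 : ℚ[X]) = 0 := by simp [hi]
  have hint : IsIntegral ℚ i := ⟨_, hm, hz⟩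
  let K := IntermediateField.adjoin ℚ {i}
  have hfin : FiniteDimensional ℚ K := IntermediateField.adjoin.finiteDimensional hint
  have hNF : NumberField K := { to_charZero := inferInstance, to_finiteDimensional := hfin }
  have hK : Module.finrank ℚ K ≤ 2 := by
    rw [IntermediateField.adjoin.finrank hint]
    refine (natDegree_le_of_dvd (minpoly.dvd ℚ i hz) hm.ne_zero).trans ?_
    compute_degree
  let i0 : K := ⟨i, IntermediateField.mem_adjoin_simple_self ℚ i⟩
  have hi0 : i0 ^ 2 = -1 := Subtype.ext hi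
  have hi1 : IsIntegral ℤ i0 := ⟨X ^ 2 + 1, by monicity!, by simp [hi0]⟩
  let j : K →+* Qb := K.val.toRingHom
  obtain ⟨g, hg⟩ := H916.exists_frob j hP Nat.prime_two (by exact_mod_cast h2)
  have hN : Ideal.absNorm (below j P) = 2 := by
    refine norm_two hK ⟨i0, hi1⟩ (RingOfIntegers.ext hi0) (Ideal.IsPrime.comap _) ?_
    show RingOfIntegers.mapRingHom j 2 ∈ P
    rw [map_ofNat]
    exact h2
  rw [hN] at hg
  exact ⟨g, g.2 i0, hg⟩

end Two

theorem two : TWO := by
  intro i b c hi hb hc P hP h2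
  obtain ⟨g, gi, hg⟩ := Two.frob i hi hP h2
  obtain ⟨m, rfl⟩ : ∃ m : ℤ, c = 8 * m + 5 := ⟨c / 8, by omega⟩
  have hst := H916.mem_of_frob hP two_ne_zero hg
  have e0 : ((1 + b ^ 2) / 2) ^ 2 - (1 + b ^ 2) / 2 - (2 * (m : Qb) + 1) = 0 := by
    push_cast at hb
    linear_combination (1 / 4 : Qb) * hb
  have hθ : IsIntegral ℤ ((1 + b ^ 2) / 2) :=
    ⟨X ^ 2 - X - C (2 * m + 1), by monicity!, by
      rw [eval₂_sub, eval₂_sub, eval₂_C, eval₂_X_pow, eval₂_X]
      simpa using e0⟩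
  have gb2 : g b ^ 2 ≠ b ^ 2 := by
    intro h
    let θ : 𝓞 Qb := ⟨_, hθ⟩
    have e1 : g • θ = θ := by
      apply RingOfIntegers.ext
      show g ((1 + b ^ 2) / 2) = (1 + b ^ 2) / 2
      rw [map_div₀, map_add, map_one, map_pow, h, map_ofNat]
    have e2 : θ ^ 2 - θ - (2 * (m : 𝓞 Qb) + 1) = 0 := by
      apply RingOfIntegers.ext
      simp only [map_sub, map_add, map_mul, map_pow, map_one, map_ofNat, map_intCast, map_zero]
      exact e0
    have e3 := hg θ
    rw [e1] at e3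
    have e4 : (1 : 𝓞 Qb) = -(θ - θ ^ 2) - 2 * m := by linear_combination -e2
    exact hP.ne_top ((Ideal.eq_top_iff_one _).2
      (e4 ▸ P.sub_mem (P.neg_mem e3) (P.mul_mem_right _ h2)))
  have g4 : g b ^ 4 = b ^ 4 := by rw [← map_pow, hb, map_intCast]
  have g2 : (g b - i * b) * (g b + i * b) = 0 := by
    have : (g b ^ 2 - b ^ 2) * ((g b - i * b) * (g b + i * b)) = 0 := by
      linear_combination g4 - (g b ^ 2 - b ^ 2) * b ^ 2 * hi
    exact (mul_eq_zero.1 this).resolve_left (sub_ne_zero.2 gb2)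
  refine ⟨g * g, fun x => by rw [mul_smul, hst, hst], ?_⟩
  rw [AlgEquiv.mul_apply]
  rcases mul_eq_zero.1 g2 with h | h
  · have h' : g b = i * b := sub_eq_zero.1 h
    rw [h', map_mul, gi, h']
    linear_combination b * hi
  · have h' : g b = -(i * b) := eq_neg_of_add_eq_zero_left h
    rw [h', map_neg, map_mul, gi, h']
    linear_combination b * hi

end Vale.Agent.P027M.S
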