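import Vale.Agent.P027M.S.Defs

/-!
# P027, route M, block S: finitely many characters, and the choice of the primes
-/

set_option linter.all false

noncomputable section

namespace Vale.Agent.P027M.S

open NumberField IsDedekindDomain Filter Topology Polynomial
open Vale.Agent.P022 Vale.Agent.P022.C Vale.Agent.P016Z

namespace Xf

variable {L : Type} [Field L] [NumberField L]

open Classical in
theorem cnt (w v : Pr L) :
    (Associates.mk w.asIdeal).count (Associates.mk v.asIdeal).factors = if w = v then 1 else 0 := by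
  split_ifs with h
  · rw [h]
    exact Associates.count_self v.associates_irreducible
  · refine Associates.count_eq_zero_of_ne w.associates_irreducible v.associates_irreducible ?_
    intro e
    exact h (HeightOneSpectrum.ext (associated_iff_eq.1 (Associates.mk_eq_mk_iff_associated.1 e)))

open Classical in
theorem ord_int (w : Pr L) {x : 𝓞 L} (hx : x ≠ 0) : ordv w (x : L) =
    ((Associates.mk w.asIdeal).count (Associates.mk (Ideal.span {x})).factors : ℤ) := by
  rw [ordv, show (x : L) = algebraMap (𝓞 L) L x from rfl, w.valuation_of_algebraMap,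
    w.intValuation_if_neg hx, WithZero.log_exp, neg_neg]

theorem ord_div (w : Pr L) {x y : L} (hx : x ≠ 0) (hy : y ≠ 0) :
    ordv w (x / y) = ordv w x - ordv w y := by
  have h1 : w.valuation L x ≠ 0 := (Valuation.ne_zero_iff _).2 hx
  have h2 : w.valuation L y ≠ 0 := (Valuation.ne_zero_iff _).2 hy
  rw [ordv, ordv, ordv, map_div₀, WithZero.log_div h1 h2]
  ring

theorem val_one (w : Pr L) {x : L} (hx : x ≠ 0) (h : ordv w x = 0) : w.valuation L x = 1 := by
  have h1 : w.valuation L x ≠ 0 := (Valuation.ne_zero_iff _).2 hx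
  rw [ordv, neg_eq_zero] at h
  rw [← WithZero.exp_log h1, h, WithZero.exp_zero]

/-- the class of a prime -/
def cl (v : Pr L) : ClassGroup (𝓞 L) :=
  ClassGroup.mk0 ⟨v.asIdeal, mem_nonZeroDivisors_iff_ne_zero.2 v.ne_bot⟩

open Classical in
/-- `x` has the divisor `v - v'` -/
def Dv (x : L) (v v' : Pr L) : Prop :=
  x ≠ 0 ∧ ∀ w : Pr L, ordv w x = (if w = v then 1 else 0) - (if w = v' then 1 else 0)

theorem dv_of_cl {v v' : Pr L} (h : cl v = cl v') : ∃ x : L, Dv x v v' := by
  classical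
  obtain ⟨x, y, hx, hy, e⟩ := ClassGroup.mk0_eq_mk0_iff.1 h
  have hx' : (x : L) ≠ 0 := by exact_mod_cast hx
  have hy' : (y : L) ≠ 0 := by exact_mod_cast hy
  refine ⟨(y : L) / x, div_ne_zero hy' hx', fun w => ?_⟩
  have e1 : Ideal.span {x} * v.asIdeal = Ideal.span {y} * v'.asIdeal := e
  have e2 := congrArg (fun I => (Associates.mk w.asIdeal).count (Associates.mk I).factors) e1
  have n1 : ∀ z : 𝓞 L, z ≠ 0 → Associates.mk (Ideal.span {z}) ≠ 0 := fun z hz =>
    Associates.mk_ne_zero.2 (by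
      rw [Ne, Submodule.zero_eq_bot, Ideal.span_singleton_eq_bot]; exact hz)
  have n2 : ∀ u : Pr L, Associates.mk u.asIdeal ≠ 0 := fun u => Associates.mk_ne_zero.2 u.ne_bot
  simp only [← Associates.mk_mul_mk] at e2
  rw [Associates.count_mul (n1 x hx) (n2 v) w.associates_irreducible,
    Associates.count_mul (n1 y hy) (n2 v') w.associates_irreducible, cnt, cnt] at e2
  rw [ord_div w hy' hx', ord_int w hx, ord_int w hy]
  have e3 := congrArg (Nat.cast (R := ℤ)) e2
  push_cast at e3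
  linarith

theorem le_of_lt_one {a : WithZero (Multiplicative ℤ)} (h : a < 1) : a ≤ WithZero.exp (-1) := by
  by_cases h0 : a = 0
  · rw [h0]; exact zero_le
  · rw [← WithZero.exp_log h0] at h ⊢
    rw [← WithZero.exp_zero, WithZero.exp_lt_exp] at h
    rw [WithZero.exp_le_exp]
    omega

/-- residues modulo the prime above `3` -/
theorem res1 (D : Dat L) (x : L) (hx : D.p.valuation L x ≤ 1) :
    ∃ t : Fin 3, D.p.valuation L (x - (((t : ℕ) : L) - 1)) ≤ WithZero.exp (-1) := by
  rcases hx.lt_or_eq with h | h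
  · exact ⟨1, by simpa using le_of_lt_one h⟩
  · rcases D.res x h with h1 | h1
    · refine ⟨2, ?_⟩
      have : x - ((((2 : Fin 3) : ℕ) : L) - 1) = x - 1 := by
        show x - (((2 : ℕ) : L) - 1) = x - 1
        norm_num
      rw [this]
      exact le_of_lt_one h1
    · refine ⟨0, ?_⟩
      have : x - ((((0 : Fin 3) : ℕ) : L) - 1) = x + 1 := by
        show x - (((0 : ℕ) : L) - 1) = x + 1
        norm_num
      rw [this]
      exact le_of_lt_one h1

/-- residues modulo the square of the prime above `3` -/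
theorem res2 (D : Dat L) (x : L) (hx : D.p.valuation L x ≤ 1) : ∃ t : Fin 3 × Fin 3,
    D.p.valuation L (x - ((((t.1 : ℕ) : L) - 1) + (((t.2 : ℕ) : L) - 1) * D.b)) ≤
      WithZero.exp (-2) := by
  have hb : D.b ≠ 0 := fun e => by
    have := D.val_b
    rw [e, map_zero] at this
    exact WithZero.exp_ne_zero this.symm
  obtain ⟨t, ht⟩ := res1 D x hx
  obtain ⟨s, hs⟩ := res1 D ((x - (((t : ℕ) : L) - 1)) / D.b) (by
    rw [map_div₀, D.val_b]
    exact div_le_one_of_le₀ ht zero_le)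
  refine ⟨(t, s), ?_⟩
  have e : x - ((((t : ℕ) : L) - 1) + (((s : ℕ) : L) - 1) * D.b) =
      ((x - (((t : ℕ) : L) - 1)) / D.b - (((s : ℕ) : L) - 1)) * D.b := by
    field_simp
    ring
  show D.p.valuation L (x - ((((t : ℕ) : L) - 1) + (((s : ℕ) : L) - 1) * D.b)) ≤ _
  rw [e, map_mul, D.val_b, show (-2 : ℤ) = -1 + -1 by norm_num, WithZero.exp_add]
  exact mul_le_mul_left hs _

theorem lam_p (D : Dat L) {lam : Pr L → ZMod 3} (h : Ray D lam) : lam D.p = 0 := by
  have h1 := h.neg D.p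
  rw [D.π_p] at h1
  generalize lam D.p = a at h1
  revert a
  decide

theorem lam_eq (D : Dat L) {lam : Pr L → ZMod 3} (h : Ray D lam) {x : L} {v v' : Pr L}
    (hx : Dv x v v') (hc : Cong D 2 x) : lam v = lam v' := by
  classical
  have h1 := h.ray x hc
  rw [finsum_eq_sum_of_support_subset (s := {v, v'})] at h1
  · by_cases e : v = v'
    · rw [e]
    · rw [Finset.sum_pair e, hx.2, hx.2, if_pos rfl, if_neg e, if_neg (Ne.symm e), if_pos rfl] at h1
      push_cast at h1
      linear_combination h1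
  · intro w hw
    by_contra hn
    simp only [Finset.coe_insert, Finset.coe_singleton, Set.mem_insert_iff, Set.mem_singleton_iff,
      not_or] at hn
    apply hw
    show (ordv w x : ZMod 3) * lam w = 0
    rw [hx.2, if_neg hn.1, if_neg hn.2]
    simp

/-- the characters factor through a finite set -/
theorem ex_fin (D : Dat L) : ∃ f : Pr L → ClassGroup (𝓞 L) × (Fin 3 × Fin 3),
    ∀ v v', v ≠ D.p → v' ≠ D.p → f v = f v' → ∃ x : L, Dv x v v' ∧ Cong D 2 x := by
  classical
  have h1 : ∀ c : ClassGroup (𝓞 L), ∃ r : Pr L, ∀ v, v ≠ D.p → cl v = c → r ≠ D.p ∧ cl r = c := by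
    intro c
    by_cases h : ∃ v, v ≠ D.p ∧ cl v = c
    · obtain ⟨r, hr⟩ := h
      exact ⟨r, fun _ _ _ => hr⟩
    · exact ⟨D.p, fun v a b => absurd ⟨v, a, b⟩ h⟩
  choose r hr using h1
  have h2 : ∀ v : Pr L, ∃ (x : L) (t : Fin 3 × Fin 3), v ≠ D.p → Dv x v (r (cl v)) ∧
      D.p.valuation L x = 1 ∧
      D.p.valuation L (x - ((((t.1 : ℕ) : L) - 1) + (((t.2 : ℕ) : L) - 1) * D.b)) ≤
        WithZero.exp (-2) := by
    intro v
    by_cases hv : v = D.p
    · exact ⟨0, (0, 0), fun h => absurd hv h⟩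
    · obtain ⟨a, b⟩ := hr (cl v) v hv rfl
      obtain ⟨x, hx⟩ := dv_of_cl b.symm
      have h3 : D.p.valuation L x = 1 := val_one _ hx.1 (by
        rw [hx.2, if_neg (Ne.symm hv), if_neg (Ne.symm a), sub_self])
      obtain ⟨t, ht⟩ := res2 D x h3.le
      exact ⟨x, t, fun _ => ⟨hx, h3, ht⟩⟩
  choose x t hx using h2
  refine ⟨fun v => (cl v, t v), fun v v' hv hv' e => ?_⟩
  obtain ⟨e1, e2⟩ := Prod.mk.inj e
  obtain ⟨a1, a2, a3⟩ := hx v hv
  obtain ⟨b1, b2, b3⟩ := hx v' hv'
  refine ⟨x v / x v', ⟨div_ne_zero a1.1 b1.1, fun w => ?_⟩, ?_⟩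
  · rw [ord_div w a1.1 b1.1, a1.2, b1.2, e1]
    ring
  · rw [e2] at a3
    have e3 : x v / x v' - 1 = ((x v - ((((t v').1 : ℕ) : L) - 1 + ((((t v').2 : ℕ) : L) - 1) * D.b))
        - (x v' - ((((t v').1 : ℕ) : L) - 1 + ((((t v').2 : ℕ) : L) - 1) * D.b))) / x v' := by
      have := b1.1
      field_simp
      ring
    rw [Cong, e3, map_div₀, b2, div_one]
    exact Valuation.map_sub_le _ a3 b3

theorem chs (D : Dat L) (h : PrimeFor D) (n r : ℕ) : ∀ (f : Fin r → Pr L → ZMod 3),
    (∀ j, Ray D (f j) ∧ f j ≠ 0) → ∀ B : Finset ℕ, ∃ q : Fin r → Pr L,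
      Function.Injective (fun j => Nr (q j)) ∧ (∀ j, TWP n B (Nr (q j))) ∧ ∀ j, f j (q j) ≠ 0 := by
  induction r with
  | zero => exact fun f _ B => ⟨Fin.elim0, fun j => j.elim0, fun j => j.elim0, fun j => j.elim0⟩
  | succ r ih =>
    intro f hf B
    obtain ⟨v, hv, hv'⟩ := h (f 0) (hf 0).1 (hf 0).2 n B
    obtain ⟨q, h1, h2, h3⟩ := ih (fun j => f j.succ) (fun j => hf _) (insert (Nr v) B)
    have ne : ∀ j, Nr (q j) ≠ Nr v := fun j e =>
      (h2 j).2.2.2 (by rw [e]; exact Finset.mem_insert_self _ _)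
    refine ⟨Fin.cons v q, fun i j => ?_, fun j => ?_, fun j => ?_⟩
    · refine Fin.cases ?_ (fun i => ?_) i <;> refine Fin.cases ?_ (fun j => ?_) j
      · exact fun _ => rfl
      · exact fun e => absurd (Eq.symm e) (ne j)
      · exact fun e => absurd e (ne i)
      · exact fun e => congrArg Fin.succ (h1 e)
    · refine Fin.cases hv (fun j => ?_) j
      exact ⟨(h2 j).1, (h2 j).2.1, (h2 j).2.2.1, fun e => (h2 j).2.2.2 (Finset.mem_insert_of_mem e)⟩
    · exact Fin.cases hv' (fun j => h3 j) j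

end Xf

open Xf in
theorem xfin : XFIN := by
  classical
  intro L _ _ D
  obtain ⟨f, hf⟩ := ex_fin D
  refine (Set.finite_range fun g : ClassGroup (𝓞 L) × (Fin 3 × Fin 3) → ZMod 3 =>
    fun v => if v = D.p then 0 else g (f v)).subset fun lam hl => ?_
  have hl : Ray D lam := hl
  refine ⟨fun c => if h : ∃ v, v ≠ D.p ∧ f v = c then lam h.choose else 0, funext fun v => ?_⟩
  show (if v = D.p then 0 else
    (if h : ∃ v', v' ≠ D.p ∧ f v' = f v then lam h.choose else 0)) = lam v
  by_cases hv : v = D.p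
  · rw [if_pos hv, hv, lam_p D hl]
  · have h : ∃ v', v' ≠ D.p ∧ f v' = f v := ⟨v, hv, rfl⟩
    rw [if_neg hv, dif_pos h]
    obtain ⟨x, a, b⟩ := hf _ v h.choose_spec.1 hv h.choose_spec.2
    exact lam_eq D hl a b

open Xf in
theorem choose (hX : XFIN) : CHOOSE := by
  classical
  intro L _ _ D h
  have h1 : {lam | Ray D lam ∧ lam ≠ 0}.Finite := (hX L D).subset fun _ a => a.1
  have := h1.to_subtype
  obtain ⟨r, ⟨e⟩⟩ := Finite.exists_equiv_fin {lam | Ray D lam ∧ lam ≠ 0}
  refine ⟨r, fun n B => ?_⟩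
  obtain ⟨q, a1, a2, a3⟩ := chs D h n r (fun j => (e.symm j).1) (fun j => (e.symm j).2) B
  refine ⟨q, a1, a2, fun lam hl h0 => ?_⟩
  by_contra hn
  have a4 := a3 (e ⟨lam, hl, hn⟩)
  rw [e.symm_apply_apply] at a4
  exact a4 (h0 _)

end Vale.Agent.P027M.S
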