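import Vale.Agent.P027M.S.Asm
import Vale.Agent.P027M.S.Sel
import Vale.Agent.P027M.S.Gen
import Vale.Agent.P027M.S.Quart
import Vale.Agent.P027M.S.Sq3
import Vale.Agent.P027M.S.Xfin
import Vale.Agent.P027M.S.Prime
import Vale.Agent.P027M.S.Ray
import Vale.Agent.P027M.S.Eul
import Vale.Agent.P027M.S.Cyc
import Vale.Agent.P027M.S.Half
import Vale.Agent.P027M.S.Kum
import Vale.Agent.P027M.S.Inert
import Vale.Agent.P027M.S.Count
import Vale.Agent.P027M.S.Cls
import Vale.Agent.P027M.S.Two
import Vale.Agent.P027M.S.Lin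

/-!
# P027, route M, block S: assembly
-/

namespace Vale.Agent.P027M.S

theorem sout0 : SOUT :=
  sout gen quart sq3 (choose xfin) (prime ray eul z1 (cyc z1)) (half kum inert (count cls unit)) two

/-- **Block S.** -/
theorem sel0 : SEL := sel sout0 gen quart lin

end Vale.Agent.P027M.S
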