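import Vale.Agent.P027M.S.Defs
import Vale.Agent.P022.H916.Fld

/-!
# P027, route M, block S: the output in terms of the components
-/

set_option linter.all false

noncomputable section

namespace Vale.Agent.P027M.S

open NumberField IsDedekindDomain
open Vale.Agent.P022

namespace Asm

theorem sgn_mul {x y : Qb} {g : GQ} (x0 : x ≠ 0) (y0 : y ≠ 0) (hx : (g x) ^ 2 = x ^ 2)
    (hy : (g y) ^ 2 = y ^ 2) : sgn (x * y) g = sgn x g * sgn y g := by
  have n : ∀ z : Qb, z ≠ 0 → -z ≠ z := fun z h e => h (by linear_combination (-1 / 2 : Qb) * e)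
  rcases sq_eq_sq_iff_eq_or_eq_neg.1 hx with a | a <;>
    rcases sq_eq_sq_iff_eq_or_eq_neg.1 hy with b | b <;>
    simp [sgn, a, b, n x x0, n y y0, n _ (mul_ne_zero x0 y0)]

theorem sgn_eq {i w : Qb} (hi : i ^ 2 = -1) (hw : w ^ 2 + w + 1 = 0) (g : GQ) :
    sgn i g = sgn (i * (2 * w + 1)) g * sgn w g := by
  have s : (2 * w + 1) ^ 2 = -3 := by linear_combination 4 * hw
  have e : sgn (2 * w + 1) g = sgn w g := by
    unfold sgn
    rw [show (g (2 * w + 1) = 2 * w + 1) = (g w = w) by simp [map_ofNat]]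
  rw [sgn_mul (fun h => by norm_num [h] at hi) (fun h => by norm_num [h] at s)
    (by rw [← map_pow, hi, map_neg, map_one]) (by rw [← map_pow, s, map_neg, map_ofNat]), e,
    mul_assoc, sgn.eq_1 w]
  split_ifs <;> simp

theorem fix {L : Type} [Field L] [NumberField L] {e : ℕ} {c : ℤ} {b : Qb} {j : L →+* Qb} {D : Dat L}
    (E : Emb e c b j D) {P : Ideal (𝓞 Qb)} {v : Pr L} (hP : below j P = v.asIdeal) {g : GQ}
    (h1 : ∀ x : 𝓞 Qb, g • x ∈ P ↔ x ∈ P) (h2 : g b = -b) : D.π v = v := by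
  refine HeightOneSpectrum.ext (Ideal.ext fun y => ?_)
  have k : (y : L) = D.τ (RingOfIntegers.mapRingHom (D.τ : L →+* L) y : 𝓞 L) := (D.ττ y).symm
  rw [D.mem_π v _ y k, ← hP]
  refine (h1 _).symm.trans (iff_of_eq (congrArg (· ∈ P) (RingOfIntegers.ext ?_)))
  exact (E.act g h2 _).trans (congrArg j k.symm)

end Asm

open Asm in
theorem sout (h1 : GEN) (h2 : QUART) (h3 : SQ3) (h4 : CHOOSE) (h5 : PRIME) (h6 : HALF) (h7 : TWO) :
    SOUT := by
  intro i w b c Γ hi hw hb c0 c3 c9 c8 hΓ hf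
  obtain ⟨L, _, _, j, D, E⟩ := h1 4 c b (.inr rfl) c3 c9 hb
  obtain ⟨tc, gd, n1, n3, -, B₀, hB⟩ := h2 L c b j D c0 E
  obtain ⟨r, hr⟩ := h4 L D (h5 L D tc E.fr n1 n3)
  obtain ⟨L', _, _, j', D', E'⟩ := h1 2 3 (i * (2 * w + 1)) (.inl rfl) dvd_rfl (by decide)
    (by push_cast; linear_combination (2 * w + 1) ^ 2 * hi - 4 * hw)
  obtain ⟨gd', ry, fx⟩ := h3 L' _ j' D' E'
  refine ⟨r, fun n B => ?_⟩
  obtain ⟨q, qi, qt, qk⟩ := hr (n + 1) (B ∪ B₀ ∪ {3})
  have hQ : ∀ ℓ ∈ Finset.univ.image fun k => Nr (q k), ∃ k, Nr (q k) = ℓ := fun ℓ h => by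
    simpa using h
  refine ⟨Finset.univ.image fun k => Nr (q k), by simp [Finset.card_image_of_injective _ qi],
    fun ℓ h => ?_, fun φ a e σ hσ => ?_, h6 L 4 c w b j D Γ _ r q (.inr rfl) E gd qk hΓ hw
      (fun g hg => (hf g hg).2) fun ℓ h v hv => ?_⟩
  · obtain ⟨k, rfl⟩ := hQ ℓ h
    obtain ⟨t1, t2, t3, t4⟩ := qt k
    exact ⟨t1, t2, (pow_dvd_pow 3 n.le_succ).trans t3, fun x => t4 (by simp [x])⟩
  · obtain ⟨u, u0, hu⟩ := h6 L' 2 3 w _ j' D' Γ _ 0 Fin.elim0 (.inl rfl) E' gd'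
      (fun l h _ => ry l h) hΓ hw
      (fun g hg => ⟨(hf g hg).2.1, by simp [(hf g hg).1, (hf g hg).2.1, map_ofNat]⟩)
      (fun ℓ h v hv => .inr (fx ℓ (h.imp_right fun h => by
        obtain ⟨k, rfl⟩ := hQ ℓ h
        obtain ⟨t1, t2, t3, t4⟩ := qt k
        exact ⟨t1, t2, (pow_dvd_pow 3 (Nat.le_add_left 1 n)).trans t3,
          fun x => t4 (Finset.mem_union_right _ x)⟩) v hv)) (fun _ => φ)
      fun _ => ⟨a, fun g _ σ hσ => by rw [e g σ hσ, sgn_eq hi hw, Int.cast_mul]⟩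
    have := hu σ hσ
    rw [Fin.sum_univ_succ, Fin.sum_univ_zero, add_zero] at this
    exact (mul_eq_zero.1 this).resolve_left fun x => u0 (funext fun k => by
      rw [Subsingleton.elim (α := Fin 1) k 0]; exact x)
  · rcases h with rfl | h
    · obtain ⟨P, hP, e⟩ := H916.exists_above j v.asIdeal v.isPrime
      obtain ⟨g, g1, g2⟩ := h7 i b c hi hb c8 P hP (by
        rw [← e] at hv
        simpa [map_ofNat] using Ideal.mem_comap.1 hv)
      exact .inr (fix E e g1 g2)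
    · obtain ⟨k, rfl⟩ := hQ ℓ h
      obtain ⟨t1, t2, -, t4⟩ := qt k
      rcases hB (q k) t1 t2 (fun x => t4 (by simp [x])) v hv with x | x | x
      exacts [.inl ⟨k, .inl x⟩, .inl ⟨k, .inr x⟩, .inr x]

end Vale.Agent.P027M.S
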