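import Vale.Agent.P027M.S.Defs

/-!
# P027, route M, block S: from coefficients in `ZMod 3` to coefficients in `F` (`LIN`)
-/

set_option linter.all false

noncomputable section

namespace Vale.Agent.P027M.S

namespace LinAux

theorem pick {K I : Type} [Field K] {n : ℕ} (u : I → Fin n → K)
    (h : ∀ a : Fin n → K, (∀ i, ∑ k, a k * u i k = 0) → a = 0) :
    ∃ t : Fin n → I, ∀ e : Fin n → K, (∀ k, ∑ s, e s * u (t s) k = 0) → e = 0 := by
  classical
  have sp : Submodule.span K (Set.range u) = ⊤ := by
    by_contra ne
    obtain ⟨f, f0, hf⟩ := Submodule.exists_le_ker_of_lt_top _ (lt_top_iff_ne_top.2 ne)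
    have e := h (fun k => f fun j => if k = j then 1 else 0) fun i => by
      have z : f (u i) = 0 := hf (Submodule.subset_span ⟨i, rfl⟩)
      rw [LinearMap.pi_apply_eq_sum_univ] at z
      simpa only [smul_eq_mul, mul_comm] using z
    refine f0 (LinearMap.ext fun x => ?_)
    rw [LinearMap.pi_apply_eq_sum_univ]
    exact Finset.sum_eq_zero fun k _ => by
      rw [show (f fun j => if k = j then 1 else 0) = 0 from congrFun e k, smul_zero]
  obtain ⟨κ, a, -, h1, h2⟩ := exists_linearIndependent' K u
  let b : Module.Basis κ K (Fin n → K) := Module.Basis.mk h2 (by rw [h1, sp])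
  haveI : Finite κ := h2.finite
  letI := Fintype.ofFinite κ
  have hc : Fintype.card κ = n := by
    rw [← Module.finrank_eq_card_basis b, Module.finrank_fin_fun]
  let q : Fin n ≃ κ := (Fintype.equivFinOfCardEq hc).symm
  refine ⟨fun s => a (q s), fun e he => funext fun s => ?_⟩
  refine Fintype.linearIndependent_iff.1 (h2.comp q q.injective) e (funext fun k => ?_) s
  simpa only [Finset.sum_apply, Pi.smul_apply, smul_eq_mul, Function.comp_apply, Pi.zero_apply]
    using he k

end LinAux

open LinAux

theorem lin : LIN := by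
  intro X F _ _ r φ h
  by_contra ne
  push Not at ne
  letI : Algebra (ZMod 3) F := ZMod.algebra F 3
  obtain ⟨x, hx⟩ := pick (K := F) (fun (y : X) j => φ j y) fun a ha => by
    by_contra a0
    obtain ⟨y, hy⟩ := ne a a0
    exact hy (ha y)
  obtain ⟨t, ht⟩ := pick (K := ZMod 3)
    (fun (p : Fin (r + 1) × (F →+ ZMod 3)) k => p.2 (φ p.1 (x k))) fun a ha => by
      have z := hx (fun s => algebraMap (ZMod 3) F (a s)) fun j =>
        (Module.forall_dual_apply_eq_zero_iff (ZMod 3) _).1 fun f => by
          rw [map_sum, ← ha (j, f.toAddMonoidHom)]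
          exact Finset.sum_congr rfl fun s _ => by
            rw [← Algebra.smul_def, map_smul, smul_eq_mul]
            rfl
      funext s
      exact (algebraMap (ZMod 3) F).injective ((congrFun z s).trans (map_zero _).symm)
  obtain ⟨e, e0, he⟩ := h (fun s => (t s).1) fun s => (t s).2
  exact e0 (ht e fun k => he (x k))

end Vale.Agent.P027M.S
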