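import Vale.Agent.P016Z.Pois.Hecke

/-!
# P027, block S: unfolding of theta integrals with weights on ideals
-/

set_option linter.all false

namespace Vale.Agent.P027M.S.Ry

open NumberField NumberField.Units Complex Finset Module MeasureTheory
open Vale.Agent.P016Z Vale.Agent.P016Z.TH Vale.Agent.P016Z.Pois
open scoped Real nonZeroDivisors

variable {K ι : Type} [Field K] [NumberField K] [Fintype ι] (C : CM K ι)

open Classical in
/-- the ideal `(x) A⁻¹` -/
noncomputable def iI (A : FI K) (x : K) : Ideal (𝓞 K) :=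
  if h : x ∈ (A : FractionalIdeal (𝓞 K)⁰ K) then (exists_span h).choose else ⊥

theorem iI_spec {A : FI K} {x : K} (hx : x ∈ (A : FractionalIdeal (𝓞 K)⁰ K)) :
    FractionalIdeal.spanSingleton (𝓞 K)⁰ x = (iI A x : FractionalIdeal (𝓞 K)⁰ K) * A := by
  rw [iI, dif_pos hx]
  exact (exists_span hx).choose_spec

theorem iI_of_span {A : FI K} {I : Ideal (𝓞 K)} {x : K}
    (h : FractionalIdeal.spanSingleton (𝓞 K)⁰ x = (I : FractionalIdeal (𝓞 K)⁰ K) * A) :
    iI A x = I := by
  have h1 := (iI_spec (mem_of_span h)).symm.trans h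
  exact FractionalIdeal.coeIdeal_inj.1 ((Units.mul_left_inj A).1 h1)

open Classical in
theorem comb {F : Set (ι → ℝ)} (hF : FD C F) (y : ι → ℝ) (A : FI K) (H : Ideal (𝓞 K) → ℂ)
    (hH : Summable fun I : Cl A => ‖H I.1‖) :
    HasSum (fun x : Nz A => if y - lg C x ∈ F then H (iI A x) else 0)
      (torsionOrder K * ∑' I : Cl A, H I.1) := by
  choose g hg0 hg1 hg2 using fun I : Cl A => exists_gen C hF y I
  let φ : torsion K × Cl A → Nz A := fun p => ⟨uK p.1 * g p.2,
    mem_of_span ((span_unit _ _).trans (hg1 p.2)), mul_ne_zero (uK_ne _) (hg0 _)⟩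
  have hφ : Function.Injective φ := by
    rintro ⟨ζ, I⟩ ⟨ζ', I'⟩ h
    have h1 : uK ζ * g I = uK ζ' * g I' := congrArg Subtype.val h
    have h2 : I = I' := by
      have h3 := (span_unit ζ (g I)).trans (hg1 I)
      rw [h1, span_unit, hg1] at h3
      exact Subtype.ext (FractionalIdeal.coeIdeal_inj.1 ((Units.mul_left_inj A).1 h3)).symm
    subst h2
    have h4 := mul_right_cancel₀ (hg0 I) h1
    have h5 : ζ = ζ' := Subtype.ext (Units.ext (RingOfIntegers.ext h4))
    rw [h5]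
  have hlg : ∀ p, lg C (φ p : K) = lg C (g p.2) := fun p => by
    change lg C (uK p.1 * g p.2) = _
    rw [lg_mul C (uK_ne _) (hg0 _), lg_torsion C p.1.2, zero_add]
  have hr : ∀ x : Nz A, x ∉ Set.range φ →
      (if y - lg C x ∈ F then H (iI A x) else 0) = 0 := by
    intro x hx
    refine if_neg fun hy => hx ?_
    obtain ⟨I, hI⟩ := exists_span x.2.1
    let I' : Cl A := ⟨I, x.1, x.2.2, hI⟩
    obtain ⟨u, hu⟩ := FractionalIdeal.spanSingleton_eq_spanSingleton.1 ((hg1 I').trans hI.symm)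
    obtain ⟨⟨ζ, n⟩, hn, -⟩ := exist_unique_eq_mul_prod K u
    have hx1 : x.1 = uK ζ * (uK (un K n) * g I') := by
      rw [← hu, hn, ← mul_assoc, ← uK_mul]; rfl
    obtain ⟨m, -, hm⟩ := hF.2 (y - lg C (g I'))
    have h0 : n = 0 := by
      rw [hm 0 (by simpa [lam_eq] using hg2 I')]
      refine hm n ?_
      rw [hx1, lg_mul C (uK_ne _) (mul_ne_zero (uK_ne _) (hg0 _)), lg_torsion C ζ.2, zero_add,
        lg_mul C (uK_ne _) (hg0 _)] at hy
      rwa [show y - lg C (g I') - lam C n = y - (lg C (uK (un K n)) + lg C (g I')) by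
        unfold lam; abel]
    refine ⟨(ζ, I'), Subtype.ext ?_⟩
    rw [hx1, h0]
    simp [φ, un, uK]
  rw [← hφ.hasSum_iff hr]
  have h1 : (fun x : Nz A => if y - lg C x ∈ F then H (iI A x) else 0) ∘ φ =
      fun p : torsion K × Cl A => (1 : ℂ) * H p.2.1 := by
    ext p
    simp only [Function.comp_apply, hlg, hg2, if_true, one_mul]
    rw [iI_of_span ((span_unit _ _).trans (hg1 p.2))]
  have h2 : Summable fun _ : torsion K => ‖(1 : ℂ)‖ := .of_finite
  have h3 := tsum_mul_tsum_of_summable_norm h2 hH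
  rw [tsum_const, nsmul_one] at h3
  rw [h1, torsionOrder, h3]
  exact (summable_mul_of_summable_norm h2 hH).hasSum

/-- the theta series without the zero term -/
noncomputable def th (A : FI K) (w : Ideal (𝓞 K) → ℂ) (y : ι → ℝ) : ℂ :=
  ∑' x : Nz A, w (iI A x) * (gs (ex y) (C.em x) : ℂ)

/-- the zeta function of a class -/
noncomputable def zc (A : FI K) (w : Ideal (𝓞 K) → ℂ) (s : ℂ) : ℂ :=
  ∑' I : Cl A, w I.1 * (Ideal.absNorm I.1 : ℂ) ^ (-s)

theorem summable_NI' {w : Ideal (𝓞 K) → ℂ} (hw : ∀ n, ‖w n‖ ≤ 1) {s : ℂ} (hs : 1 < s.re) :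
    Summable fun I : {I : Ideal (𝓞 K) // I ≠ ⊥} =>
      ‖w I.1 * (Ideal.absNorm I.1 : ℂ) ^ (-s)‖ := by
  refine Summable.of_nonneg_of_le (fun _ => norm_nonneg _) (fun I => ?_)
    ((summable_NI hs).mul_left 1)
  rw [norm_mul, EP.norm_natCast_cpow_neg
    (Nat.pos_of_ne_zero fun h => I.2 (Ideal.absNorm_eq_zero_iff.1 h))]
  exact mul_le_mul_of_nonneg_right (hw _) (by positivity)

theorem summable_Cl (A : FI K) {w : Ideal (𝓞 K) → ℂ} (hw : ∀ n, ‖w n‖ ≤ 1) {s : ℂ}
    (hs : 1 < s.re) :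
    Summable fun I : Cl A => ‖w I.1 * (Ideal.absNorm I.1 : ℂ) ^ (-s)‖ := by
  let i : Cl A → {I : Ideal (𝓞 K) // I ≠ ⊥} := fun I => ⟨I.1, I.ne_bot⟩
  have hi : Function.Injective i := by
    intro I J h
    have h1 : (i I).1 = (i J).1 := by rw [h]
    exact Subtype.ext h1
  have h := (summable_NI' (K := K) hw hs).comp_injective hi
  exact h

theorem measurable_th (A : FI K) (w : Ideal (𝓞 K) → ℂ) : Measurable (th C A w) := by
  refine Measurable.tsum fun x => ?_
  unfold gs ex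
  fun_prop

theorem unfold_th {F : Set (ι → ℝ)} (hF : FD C F) (A : FI K) {w : Ideal (𝓞 K) → ℂ}
    (hw : ∀ n, ‖w n‖ ≤ 1) {s : ℂ} (hs : 1 < s.re) :
    IntegrableOn (fun y => cexp (s * (∑ j, y j : ℝ)) * th C A w y) F ∧
    ∫ y in F, cexp (s * (∑ j, y j : ℝ)) * th C A w y =
      torsionOrder K * ((1 / (2 * π)) ^ s * Gamma s) ^ Fintype.card ι *
        cexp (-s * Real.log (nrm A)) * zc A w s := by
  classical
  have hs0 : 0 < s.re := by linarith
  let H : Ideal (𝓞 K) → ℂ := fun n => w n * (Ideal.absNorm n : ℂ) ^ (-s)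
  let c : ℂ := cexp (-s * Real.log (nrm A))
  let b : Nz A → (ι → ℝ) → ℂ := fun x y =>
    (if y - lg C x ∈ F then H (iI A x) else 0) * (c * GG s y)
  let a : Nz A → (ι → ℝ) → ℂ := fun x y => b x (y + lg C x)
  have hH : Summable fun I : Cl A => ‖H I.1‖ := summable_Cl A hw hs
  have ha : ∀ y, ∑' x, a x y =
      F.indicator (fun y => cexp (s * (∑ j, y j : ℝ)) * th C A w y) y := by
    intro y
    simp only [a, b, add_sub_cancel_right]
    by_cases hy : y ∈ F
    · rw [Set.indicator_of_mem hy, th, ← tsum_mul_left]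
      refine tsum_congr fun x => ?_
      have h1 := C.nm_pos x.2.2
      have h2 := nm_of_span C (iI_spec x.2.1)
      have h3 : (Ideal.absNorm (iI A x) : ℝ) ≠ 0 := fun h => by
        rw [h2, h, zero_mul] at h1; exact h1.false
      rw [if_pos hy, mul_left_comm (cexp _), GG_shift C s y x.2.2, h2,
        Real.log_mul h3 (nrm_pos A).ne']
      simp only [H, c]
      rw [cpow_def_of_ne_zero (by exact_mod_cast h3), ← natCast_log, ofReal_add, mul_add,
        Complex.exp_add, mul_comm (Real.log _ : ℂ)]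
      ring
    · simp [hy]
  have hG : Measurable (GG (ι := ι) s) := by unfold GG; fun_prop
  have hbm : ∀ x, Measurable (b x) := fun x =>
    (Measurable.ite ((measurable_id.sub measurable_const) hF.1) measurable_const
      measurable_const).mul (hG.const_mul c)
  have ham : ∀ x, Measurable (a x) := fun x => (hbm x).comp (measurable_id.add measurable_const)
  have hb1 : ∀ y, HasSum (fun x => b x y) (torsionOrder K * zc A w s * (c * GG s y)) :=
    fun y => (comb C hF y A H hH).mul_right _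
  have hb2 : ∑' x, ∫⁻ y, ‖b x y‖ₑ ≠ ⊤ := by
    rw [← lintegral_tsum fun x => (hbm x).enorm.aemeasurable]
    set Z : ℝ := ((torsionOrder K : ℂ) * ∑' I : Cl A, ((‖H I.1‖ : ℝ) : ℂ)).re
    have h1 : ∀ y, ∑' x, ‖b x y‖ₑ = ENNReal.ofReal Z * ‖c * GG s y‖ₑ := by
      intro y
      have h2 := hasSum_re (comb C hF y A (fun n => ((‖H n‖ : ℝ) : ℂ)) (by simpa using hH))
      have h3 : (fun x : Nz A => (if y - lg C x ∈ F then ((‖H (iI A x)‖ : ℝ) : ℂ) else 0).re) =
          fun x : Nz A => ‖if y - lg C x ∈ F then H (iI A x) else 0‖ := by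
        ext x
        split_ifs <;> simp
      rw [h3] at h2
      simp only [b, enorm_mul]
      rw [ENNReal.tsum_mul_right, ← enorm_mul]
      congr 1
      simp_rw [← ofReal_norm]
      rw [← ENNReal.ofReal_tsum_of_nonneg (fun _ => norm_nonneg _) h2.summable, h2.tsum_eq]
    simp_rw [h1]
    rw [lintegral_const_mul' _ _ ENNReal.ofReal_ne_top]
    exact ENNReal.mul_ne_top ENNReal.ofReal_ne_top ((integrable_GG hs0).const_mul c).2.ne
  have ha2 : ∑' x, ∫⁻ y, ‖a x y‖ₑ ≠ ⊤ := by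
    have : ∀ x, ∫⁻ y, ‖a x y‖ₑ = ∫⁻ y, ‖b x y‖ₑ := fun x =>
      lintegral_add_right_eq_self (fun y => ‖b x y‖ₑ) _
    simpa only [this] using hb2
  constructor
  · rw [← integrable_indicator_iff hF.1, ← funext ha]
    refine ⟨(Measurable.tsum ham).aestronglyMeasurable, ?_⟩
    refine lt_of_le_of_lt (lintegral_mono fun y => enorm_tsum_le_tsum_enorm) ?_
    rw [lintegral_tsum fun x => (ham x).enorm.aemeasurable]
    exact ha2.lt_top
  · rw [← integral_indicator hF.1, ← funext ha,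
      integral_tsum (fun x => (ham x).aestronglyMeasurable) ha2]
    have : ∀ x, ∫ y, a x y = ∫ y, b x y := fun x => integral_add_right_eq_self (b x) _
    simp_rw [this]
    rw [← integral_tsum (fun x => (hbm x).aestronglyMeasurable) hb2]
    simp_rw [fun y => (hb1 y).tsum_eq]
    rw [integral_const_mul, integral_const_mul, integral_GG hs0]
    ring

/-- the upper integral -/
noncomputable def Pp (A : FI K) (w : Ideal (𝓞 K) → ℂ) (a : ℝ) (s : ℂ) : ℂ :=
  ∫ y in Sp C a, cexp (s * (∑ j, y j : ℝ)) * th C A w y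

/-- the theta series minus its main term at the cusp `0` -/
noncomputable def rem (A : FI K) (w : Ideal (𝓞 K) → ℂ) (c : ℂ) (y : ι → ℝ) : ℂ :=
  th C A w y - c * cexp (-(∑ j, y j : ℝ))

/-- the lower integral -/
noncomputable def Mm (A : FI K) (w : Ideal (𝓞 K) → ℂ) (c : ℂ) (a : ℝ) (s : ℂ) : ℂ :=
  ∫ y in Sm C a, cexp (s * (∑ j, y j : ℝ)) * rem C A w c y

theorem measurable_rem (A : FI K) (w : Ideal (𝓞 K) → ℂ) (c : ℂ) : Measurable (rem C A w c) := by
  have := measurable_th C A w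
  unfold rem
  fun_prop

theorem diff_Pp (A : FI K) {w : Ideal (𝓞 K) → ℂ} (hw : ∀ n, ‖w n‖ ≤ 1) (a : ℝ) :
    DifferentiableOn ℂ (Pp C A w a) {s | 0 < s.re} := by
  refine diff_param (by fun_prop) (measurable_th C A w) fun σ _ => ?_
  have h1 := (unfold_th C (fd_F0 C) A hw (s := (max σ 2 : ℝ))
    (by simp only [ofReal_re]; linarith [le_max_right σ 2])).1.mono_set
      (Set.sdiff_subset (t := {y | ∑ j, y j ≤ a}))
  have h2 := measurable_th C A w
  refine (h1.norm.const_mul (Real.exp ((σ - max σ 2) * a))).mono'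
    (Measurable.aestronglyMeasurable (by fun_prop)) ?_
  filter_upwards [ae_restrict_mem (measurableSet_Sp C a)] with y hy
  have h3 : a ≤ ∑ j, y j := (not_le.1 hy.2).le
  rw [Real.norm_of_nonneg (by positivity), norm_mul, norm_exp, re_mul_ofReal, ofReal_re,
    ← mul_assoc, ← Real.exp_add]
  refine mul_le_mul_of_nonneg_right (Real.exp_le_exp.2 ?_) (norm_nonneg _)
  nlinarith [le_max_left σ 2]

theorem integrable_rem (A A' : FI K) (w : Ideal (𝓞 K) → ℂ) (c : ℂ) {B' : ℝ} (b : ι → ℝ)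
    (hB : 0 ≤ B')
    (hP : ∀ y, ‖rem C A w c y‖ ≤ B' * Real.exp (-∑ j, y j) * thr C A' (b - y)) (a : ℝ) {σ : ℝ}
    (hσ : 0 < σ) :
    Integrable (fun y => Real.exp (σ * ∑ j, y j) * ‖rem C A w c y‖)
      (volume.restrict (Sm C a)) := by
  have h1 := (unfold_neg C A' b).1.mono_set (Set.inter_subset_left (t := {y | ∑ j, y j ≤ a}))
  have h2 := measurable_rem C A w c
  refine (h1.const_mul (B' * Real.exp ((σ + 1) * a - 2 * ∑ j, b j))).mono'
    (Measurable.aestronglyMeasurable (by fun_prop)) ?_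
  filter_upwards [ae_restrict_mem (measurableSet_Sm C a)] with y hy
  have h3 : ∑ j, y j ≤ a := hy.2
  rw [Real.norm_of_nonneg (by positivity)]
  refine (mul_le_mul_of_nonneg_left (hP y) (Real.exp_pos _).le).trans ?_
  have h4 : Real.exp (σ * ∑ j, y j) * Real.exp (-∑ j, y j) ≤
      Real.exp ((σ + 1) * a - 2 * ∑ j, b j) * Real.exp (2 * ∑ j, (b - y) j) := by
    rw [← Real.exp_add, ← Real.exp_add]
    simp only [Pi.sub_apply, sum_sub_distrib]
    exact Real.exp_le_exp.2 (by nlinarith)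
  have h5 := mul_le_mul_of_nonneg_left h4 (mul_nonneg hB (thr_nonneg C A' (b - y)))
  linarith

theorem diff_Mm (A A' : FI K) (w : Ideal (𝓞 K) → ℂ) (c : ℂ) {B' : ℝ} (b : ι → ℝ) (hB : 0 ≤ B')
    (hP : ∀ y, ‖rem C A w c y‖ ≤ B' * Real.exp (-∑ j, y j) * thr C A' (b - y)) (a : ℝ) :
    DifferentiableOn ℂ (Mm C A w c a) {s | 0 < s.re} :=
  diff_param (by fun_prop) (measurable_rem C A w c) fun _ hσ =>
    integrable_rem C A A' w c b hB hP a hσ

theorem split_eq (A A' : FI K) {w : Ideal (𝓞 K) → ℂ} (hw : ∀ n, ‖w n‖ ≤ 1) (c : ℂ) {B' : ℝ}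
    (b : ι → ℝ) (hB : 0 ≤ B')
    (hP : ∀ y, ‖rem C A w c y‖ ≤ B' * Real.exp (-∑ j, y j) * thr C A' (b - y)) (a : ℝ) {s : ℂ}
    (hs : 1 < s.re) :
    torsionOrder K * ((1 / (2 * π)) ^ s * Gamma s) ^ Fintype.card ι *
        cexp (-s * Real.log (nrm A)) * zc A w s =
      Pp C A w a s + Mm C A w c a s + c * (kap C * (cexp ((s - 1) * a) / (s - 1))) := by
  obtain ⟨h1, h2⟩ := unfold_th C (fd_F0 C) A hw hs
  obtain ⟨h5, h6⟩ := (exists_kappa C).choose_spec.2 a (s - 1) (by simp; linarith)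
  have h7 : Integrable (fun y => cexp (s * (∑ j, y j : ℝ)) * rem C A w c y)
      (volume.restrict (Sm C a)) := by
    have := measurable_rem C A w c
    refine (integrable_rem C A A' w c b hB hP a (σ := s.re) (by linarith)).mono'
      (Measurable.aestronglyMeasurable (by fun_prop)) (ae_of_all _ fun y => ?_)
    rw [norm_mul, norm_exp, re_mul_ofReal]
  rw [← h2, ← integral_inter_add_sdiff (measurableSet_half a) h1, kap, ← h6,
    ← integral_const_mul, Mm, Pp, add_comm, add_assoc]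
  congr 1
  unfold Sm at h7 ⊢
  rw [← integral_add h7 (h5.const_mul c)]
  refine integral_congr_ae (ae_of_all _ fun y => ?_)
  have h8 : cexp ((s - 1) * (∑ j, y j : ℝ)) =
      cexp (s * (∑ j, y j : ℝ)) * cexp (-(∑ j, y j : ℝ)) := by
    rw [← Complex.exp_add]; congr 1; ring
  simp only [rem, h8]
  ring

/-- the continuation of `(s - 1)` times the class zeta function -/
noncomputable def FA (A : FI K) (w : Ideal (𝓞 K) → ℂ) (c : ℂ) (s : ℂ) : ℂ :=
  pre K ι A s * ((s - 1) * (Pp C A w 0 s + Mm C A w c 0 s) + c * kap C)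

theorem FA_spec (A A' : FI K) {w : Ideal (𝓞 K) → ℂ} (hw : ∀ n, ‖w n‖ ≤ 1) (c : ℂ) {B' : ℝ}
    (b : ι → ℝ) (hB : 0 ≤ B')
    (hP : ∀ y, ‖rem C A w c y‖ ≤ B' * Real.exp (-∑ j, y j) * thr C A' (b - y)) :
    DifferentiableOn ℂ (FA C A w c) {s | 0 < s.re} ∧
      ∀ s : ℂ, 1 < s.re → FA C A w c s = (s - 1) * zc A w s := by
  constructor
  · have h1 := diff_Pp C A hw 0
    have h2 := diff_Mm C A A' w c b hB hP 0
    have h3 := (differentiable_pre (ι := ι) A).differentiableOn (s := {s : ℂ | 0 < s.re})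
    unfold FA
    fun_prop
  · intro s hs
    have h1 := split_eq C A A' hw c b hB hP 0 hs
    have h2 := pre_mul (ι := ι) A (s := s) (by linarith)
    have h3 : s - 1 ≠ 0 := fun h => by
      rw [sub_eq_zero.1 h] at hs; simp at hs
    have h4 : (s - 1) * (cexp ((s - 1) * (0 : ℝ)) / (s - 1)) = 1 := by
      rw [ofReal_zero, mul_zero, Complex.exp_zero]; field_simp
    unfold FA
    linear_combination (s - 1) * zc A w s * h2 - pre K ι A s * (s - 1) * h1 -
      pre K ι A s * c * kap C * h4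

theorem sum_zc (A : ClassGroup (𝓞 K) → FI K)
    (hA : Function.Bijective fun c => ClassGroup.mk K (A c)) {w : Ideal (𝓞 K) → ℂ}
    (hw : ∀ n, ‖w n‖ ≤ 1) {s : ℂ} (hs : 1 < s.re) : ∑ c, zc (A c) w s =
      ∑' I : {I : Ideal (𝓞 K) // I ≠ ⊥}, w I.1 * (Ideal.absNorm I.1 : ℂ) ^ (-s) := by
  classical
  let cl : {I : Ideal (𝓞 K) // I ≠ ⊥} → ClassGroup (𝓞 K) := fun I =>
    (ClassGroup.mk0 ⟨I.1, mem_nonZeroDivisors_of_ne_zero I.2⟩)⁻¹
  let t : {I : Ideal (𝓞 K) // I ≠ ⊥} → ℂ := fun I =>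
    w I.1 * (Ideal.absNorm I.1 : ℂ) ^ (-s)
  have ht : Summable fun I => ‖t I‖ := summable_NI' hw hs
  have h1 : ∀ c, zc (A c) w s = ∑' I, if ClassGroup.mk K (A c) = cl I then t I else 0 := by
    intro c
    let i : Cl (A c) → {I : Ideal (𝓞 K) // I ≠ ⊥} := fun I => ⟨I.1, I.ne_bot⟩
    have hi : Function.Injective i := by
      intro I J h
      have h1 : (i I).1 = (i J).1 := by rw [h]
      exact Subtype.ext h1
    rw [← hi.tsum_eq, zc]
    · exact tsum_congr fun I => (if_pos ((mem_Cl_iff (A c)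
        ⟨I.1, mem_nonZeroDivisors_of_ne_zero I.ne_bot⟩).1 I.2)).symm
    · intro I hI
      have h2 : ClassGroup.mk K (A c) = cl I := by
        by_contra h
        exact hI (if_neg h)
      exact ⟨⟨I.1, (mem_Cl_iff (A c) ⟨I.1, mem_nonZeroDivisors_of_ne_zero I.2⟩).2 h2⟩, rfl⟩
  simp_rw [h1]
  rw [← Summable.tsum_finsetSum]
  · refine tsum_congr fun I => ?_
    obtain ⟨c, hc⟩ := hA.2 (cl I)
    rw [sum_eq_single c (fun c' _ h => if_neg fun h' => h (hA.1 (h'.trans hc.symm))) (by simp),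
      if_pos hc]
  · intro c _
    refine Summable.of_norm_bounded ht fun I => ?_
    split_ifs <;> simp

end Vale.Agent.P027M.S.Ry
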