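import Vale.Agent.P027M.S.Ray1
import Vale.Agent.P027M.S.Defs

/-!
# P027, block S: theta series of ray class characters near the cusp
-/

set_option linter.all false

namespace Vale.Agent.P027M.S.Ry

open NumberField NumberField.Units Complex Finset Module MeasureTheory
open Vale.Agent.P016Z Vale.Agent.P016Z.TH Vale.Agent.P016Z.Pois
open scoped Real nonZeroDivisors

variable {K ι : Type} [Field K] [NumberField K] [Fintype ι] (C : CM K ι)

/-- the additive group of a fractional ideal -/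
abbrev V (A : FI K) : Type :=
  ((A : FractionalIdeal (𝓞 K)⁰ K) : Submodule (𝓞 K) K)

/-- the group `A / D A` -/
abbrev Qt (A : FI K) (D : ℕ) : Type := V A ⧸ (nsmulAddMonoidHom D : V A →+ V A).range

theorem finite_Qt (A : FI K) {D : ℕ} (hD : D ≠ 0) : Finite (Qt A D) := by
  have h1 : AddGroup.FG (V A) := Module.Finite.iff_addGroup_fg.1 inferInstance
  have h2 := AddSubgroup.finiteIndex_range_nsmulAddMonoidHom_of_fg (V A) hD
  infer_instance

theorem mk_eq_iff {A : FI K} {D : ℕ} (x y : V A) :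
    (QuotientAddGroup.mk x : Qt A D) = QuotientAddGroup.mk y ↔
      ∃ z : V A, (y : K) = x + D * z := by
  rw [QuotientAddGroup.eq]
  constructor
  · rintro ⟨z, hz⟩
    refine ⟨z, ?_⟩
    have h := congrArg Subtype.val hz
    simp only [nsmulAddMonoidHom_apply, AddSubgroupClass.coe_nsmul, Submodule.coe_add,
      Submodule.coe_neg, nsmul_eq_mul, Submodule.coe_smul_of_tower] at h
    linear_combination -h
  · rintro ⟨z, hz⟩
    refine ⟨z, Subtype.ext ?_⟩
    simp only [nsmulAddMonoidHom_apply, AddSubgroupClass.coe_nsmul, Submodule.coe_add,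
      Submodule.coe_neg, nsmul_eq_mul, Submodule.coe_smul_of_tower]
    linear_combination -hz

variable {D : ℕ} {θ : Ideal (𝓞 K) →* ℂ}

theorem exists_one {I : Ideal (𝓞 K)} (h : (Ideal.absNorm I).Coprime D) :
    ∃ u ∈ I, ∃ t : 𝓞 K, u + D * t = 1 := by
  rw [coprime_absNorm_iff, Ideal.isCoprime_iff_exists] at h
  obtain ⟨u, hu, z, hz, e⟩ := h
  obtain ⟨t, rfl⟩ := Ideal.mem_span_singleton'.1 hz
  exact ⟨u, hu, t, by rw [← e]; ring⟩

theorem coprime_of_one {I : Ideal (𝓞 K)} {u t : 𝓞 K} (hu : u ∈ I) (e : u + D * t = 1) :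
    (Ideal.absNorm I).Coprime D := by
  rw [coprime_absNorm_iff, Ideal.isCoprime_iff_exists]
  exact ⟨u, hu, D * t, Ideal.mul_mem_right _ _ (Ideal.mem_span_singleton_self _), e⟩

theorem ne_zero_of_one (hD : 2 ≤ D) {u t : 𝓞 K} (e : u + D * t = 1) : u ≠ 0 := by
  rintro rfl
  have h := coprime_of_one (I := (⊥ : Ideal (𝓞 K))) (D := D) (Ideal.zero_mem _) e
  rw [Ideal.absNorm_bot, Nat.coprime_zero_left] at h
  omega

theorem th_bot (hD : 2 ≤ D) (hθ : RayCh D θ) : θ ⊥ = 0 := by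
  refine hθ.zero _ ?_
  rw [Ideal.absNorm_bot, Nat.coprime_zero_left]
  omega

theorem per_aux (hD : 2 ≤ D) (hθ : RayCh D θ) {A : FI K} {x z : K}
    (hx : x ∈ (A : FractionalIdeal (𝓞 K)⁰ K)) (hz : z ∈ (A : FractionalIdeal (𝓞 K)⁰ K))
    (hx' : x + D * z ∈ (A : FractionalIdeal (𝓞 K)⁰ K))
    (h : (Ideal.absNorm (iI A x)).Coprime D) :
    (Ideal.absNorm (iI A (x + D * z))).Coprime D ∧ θ (iI A (x + D * z)) = θ (iI A x) := by
  obtain ⟨u, hu, t, e⟩ := exists_one h
  have hu0 := ne_zero_of_one hD e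
  have h1 := iI_spec hx
  have hx0 : x ≠ 0 := by
    rintro rfl
    rw [FractionalIdeal.spanSingleton_zero, eq_comm, mul_eq_zero] at h1
    rcases h1 with h1 | h1
    · rw [FractionalIdeal.coeIdeal_eq_zero.1 h1] at hu
      exact hu0 hu
    · exact A.ne_zero h1
  set β : K := (u : K) / x with hβ
  have hβA : ∀ a ∈ (A : FractionalIdeal (𝓞 K)⁰ K), ∃ o : 𝓞 K, (o : K) = β * a := by
    intro a ha
    have h2 : (u : K) * a ∈ FractionalIdeal.spanSingleton (𝓞 K)⁰ x := by
      rw [h1]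
      exact FractionalIdeal.mul_mem_mul (FractionalIdeal.mem_coeIdeal_of_mem _ hu) ha
    obtain ⟨o, ho⟩ := (FractionalIdeal.mem_spanSingleton _).1 h2
    refine ⟨o, ?_⟩
    rw [hβ, div_mul_eq_mul_div, ← ho, Algebra.smul_def, mul_div_cancel_right₀ _ hx0]
  have hle : FractionalIdeal.spanSingleton (𝓞 K)⁰ β * (A : FractionalIdeal (𝓞 K)⁰ K) ≤ 1 := by
    rw [FractionalIdeal.mul_le]
    intro i hi a ha
    obtain ⟨r, rfl⟩ := (FractionalIdeal.mem_spanSingleton _).1 hi
    obtain ⟨o, ho⟩ := hβA a ha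
    refine (FractionalIdeal.mem_one_iff _).2 ⟨r * o, ?_⟩
    rw [map_mul, smul_mul_assoc, ← ho, Algebra.smul_def]
  obtain ⟨B, hB⟩ := FractionalIdeal.le_one_iff_exists_coeIdeal.1 hle
  have key : ∀ {y : K} (hy : y ∈ (A : FractionalIdeal (𝓞 K)⁰ K)) (o : 𝓞 K), (o : K) = β * y →
      iI A y * B = Ideal.span {o} := by
    intro y hy o ho
    apply (FractionalIdeal.coeIdeal_inj (K := K)).1
    rw [FractionalIdeal.coeIdeal_mul, hB, mul_left_comm, ← iI_spec hy,
      FractionalIdeal.spanSingleton_mul_spanSingleton, FractionalIdeal.coeIdeal_span_singleton]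
    exact congrArg _ ho.symm
  obtain ⟨o, ho⟩ := hβA z hz
  have k1 := key hx u (by rw [hβ, div_mul_cancel₀ _ hx0])
  have k2 := key hx' (u + D * o) (by
    have e1 : β * x = algebraMap (𝓞 K) K u := by rw [hβ, div_mul_cancel₀ _ hx0]
    have e2 : algebraMap (𝓞 K) K o = β * z := ho
    change algebraMap (𝓞 K) K (u + D * o) = _
    rw [map_add, map_mul, map_natCast, e2, mul_add, e1]
    ring)
  have e2 : (u + D * o) + D * (t - o) = 1 := by rw [← e]; ring
  have t1 := hθ.one u hu0 ⟨-t, by rw [← e]; ring⟩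
  have t2 := hθ.one (u + D * o) (ne_zero_of_one hD e2) ⟨o - t, by rw [← e]; ring⟩
  rw [← k1, map_mul] at t1
  rw [← k2, map_mul] at t2
  refine ⟨coprime_of_one (u := u + D * o) ?_ e2, ?_⟩
  · have h5 : u + D * o ∈ iI A (x + D * z) * B := by
      rw [k2]; exact Ideal.mem_span_singleton_self _
    generalize iI A (x + D * z) = J at h5 ⊢
    exact Ideal.mul_le_left (I := J) (J := B) h5
  · have hB0 : θ B ≠ 0 := fun h0 => by rw [h0, mul_zero] at t1; exact zero_ne_one t1
    exact mul_right_cancel₀ hB0 (t2.trans t1.symm)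

theorem per (hD : 2 ≤ D) (hθ : RayCh D θ) {A : FI K} (x z : V A) :
    θ (iI A (x + D * z)) = θ (iI A x) := by
  have hx' : (x : K) + D * z ∈ (A : FractionalIdeal (𝓞 K)⁰ K) := by
    have := (x + D • z).2
    simpa only [Submodule.coe_add, AddSubgroupClass.coe_nsmul, nsmul_eq_mul,
      Submodule.coe_smul_of_tower, FractionalIdeal.mem_coe] using this
  by_cases h : (Ideal.absNorm (iI A x)).Coprime D
  · exact (per_aux hD hθ x.2 z.2 hx' h).2
  · by_cases h' : (Ideal.absNorm (iI A (x + D * z))).Coprime D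
    · have e : (x : K) + D * z + D * (-z : V A) = x := by push_cast; ring
      have := (per_aux hD hθ hx' (-z).2 (by rw [e]; exact x.2) h').1
      rw [e] at this
      exact absurd this h
    · rw [hθ.zero _ h, hθ.zero _ h']

/-- the sum of the character over `A / D A` -/
noncomputable def TT (θ : Ideal (𝓞 K) →* ℂ) (D : ℕ) (A : FI K) : ℂ :=
  ∑ᶠ q : Qt A D, θ (iI A (Quotient.out q : V A))

theorem th_out (hD : 2 ≤ D) (hθ : RayCh D θ) {A : FI K} (x : V A) :
    θ (iI A (Quotient.out (QuotientAddGroup.mk x : Qt A D) : V A)) = θ (iI A x) := by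
  obtain ⟨z, hz⟩ := (mk_eq_iff (D := D) x _).1
    (QuotientAddGroup.out_eq' (QuotientAddGroup.mk x : Qt A D)).symm
  rw [hz, per hD hθ]

theorem TT_mul (hD : 2 ≤ D) (hθ : RayCh D θ) {A₁ A₂ : FI K} {I : Ideal (𝓞 K)} {a : K}
    (hI : (Ideal.absNorm I).Coprime D) (ha : a ≠ 0)
    (h : (I : FractionalIdeal (𝓞 K)⁰ K) * A₁ = FractionalIdeal.spanSingleton (𝓞 K)⁰ a * A₂) :
    TT θ D A₁ = θ I * TT θ D A₂ := by
  obtain ⟨u, hu, t, e⟩ := exists_one hI
  have eK : (u : K) + D * t = 1 := by exact_mod_cast congrArg (algebraMap (𝓞 K) K) e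
  have m1 : ∀ x : V A₂, a * x ∈ (A₁ : FractionalIdeal (𝓞 K)⁰ K) := fun x => by
    have h1 : a * x ∈ (I : FractionalIdeal (𝓞 K)⁰ K) * A₁ := by
      rw [h]
      exact FractionalIdeal.mul_mem_mul (FractionalIdeal.mem_spanSingleton_self _ _) x.2
    have h2 : (I : FractionalIdeal (𝓞 K)⁰ K) * A₁ ≤ A₁ := by
      conv_rhs => rw [← one_mul (A₁ : FractionalIdeal (𝓞 K)⁰ K)]
      exact mul_le_mul_left FractionalIdeal.coeIdeal_le_one _
    exact h2 h1
  have m2 : ∀ x : V A₁, ∃ y : V A₂, a * y = u * x := fun x => by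
    have h1 : (u : K) * x ∈ FractionalIdeal.spanSingleton (𝓞 K)⁰ a * A₂ := by
      rw [← h]
      exact FractionalIdeal.mul_mem_mul (FractionalIdeal.mem_coeIdeal_of_mem _ hu) x.2
    obtain ⟨y, hy, e⟩ := FractionalIdeal.mem_singleton_mul.1 h1
    exact ⟨⟨y, hy⟩, e.symm⟩
  let φ : Qt A₂ D → Qt A₁ D := fun q =>
    QuotientAddGroup.mk (⟨a * (Quotient.out q : V A₂), m1 _⟩ : V A₁)
  have hφ : Function.Bijective φ := by
    constructor
    · intro q q' hq
      obtain ⟨z, hz⟩ := (mk_eq_iff _ _).1 hq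
      obtain ⟨y, hy⟩ := m2 z
      rw [← QuotientAddGroup.out_eq' q, ← QuotientAddGroup.out_eq' q', mk_eq_iff]
      refine ⟨y + t • (Quotient.out q' - Quotient.out q), mul_left_cancel₀ ha ?_⟩
      simp only [Submodule.coe_add, Submodule.coe_smul, Submodule.coe_sub, Algebra.smul_def] at hz ⊢
      change _ = a * (_ + D * (_ + (t : K) * _))
      linear_combination (u : K) * hz - (D : K) * hy -
        a * (((Quotient.out q' : V A₂) : K) - (Quotient.out q : V A₂)) * eK
    · intro q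
      obtain ⟨y, hy⟩ := m2 (Quotient.out q)
      refine ⟨QuotientAddGroup.mk y, ?_⟩
      obtain ⟨z, hz⟩ := (mk_eq_iff (D := D) _ y).1
        (QuotientAddGroup.out_eq' (QuotientAddGroup.mk y : Qt A₂ D))
      rw [← QuotientAddGroup.out_eq' q]
      refine (mk_eq_iff _ _).2 ⟨⟨a * z, m1 z⟩ + t • Quotient.out q, ?_⟩
      simp only [Submodule.coe_add, Submodule.coe_smul, Algebra.smul_def, QuotientAddGroup.out_eq']
      change _ = _ + D * (_ + (t : K) * _)
      linear_combination a * hz - hy - ((Quotient.out q : V A₁) : K) * eK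
  have := finite_Qt A₂ (D := D) (by omega)
  rw [TT, TT, mul_finsum _ _ , ← finsum_comp φ hφ]
  refine finsum_congr fun q => ?_
  rw [th_out hD hθ, ← map_mul]
  congr 1
  refine iI_of_span ?_
  change FractionalIdeal.spanSingleton (𝓞 K)⁰ (a * _) = _
  rw [← FractionalIdeal.spanSingleton_mul_spanSingleton, iI_spec (Quotient.out q : V A₂).2,
    FractionalIdeal.coeIdeal_mul, mul_left_comm, ← h]
  ring

end Vale.Agent.P027M.S.Ry
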